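import Vale.Agent.P092.H370.Po4
import Vale.Agent.P092.H820.Pn

/-!
P092 (helper416), [CL-PT]: the adapter between the singular points `SGr σ J 1` of a form (rows, any
index type) and the isotropic points of the projective space `ℙ k (Fin (N + 1) → k)` (columns).
-/

set_option linter.all false

namespace Vale.Agent.P092.H416.CL

open Vale.Agent.P092.H303 (FormGroup)
open Vale.Agent.P092.H714.Cl (hf Frm)
open Vale.Agent.P092.H370.Po
open Vale.Agent.P092.H100.Gr (Gr Fr)
open Vale.Agent.P092.H820 (pj pj_eq pj_surj pj_continuous)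
open TopologicalSpace Set Matrix Module
open scoped LinearAlgebra.Projectivization Matrix

section coord

variable {n : Type} [Fintype n] [DecidableEq n] {k : Type} [Field k] {N : ℕ}

/-- coordinates in the order of `e` -/
def cor (e : n ≃ Fin (N + 1)) (v : n → k) : Fin (N + 1) → k := fun i => v (e.symm i)

/-- back -/
def roc (e : n ≃ Fin (N + 1)) (v : Fin (N + 1) → k) : n → k := fun i => v (e i)

@[simp] theorem cor_roc (e : n ≃ Fin (N + 1)) (v : Fin (N + 1) → k) : cor e (roc e v) = v := by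
  funext i
  exact congrArg v (e.apply_symm_apply i)

@[simp] theorem roc_cor (e : n ≃ Fin (N + 1)) (v : n → k) : roc e (cor e v) = v := by
  funext i
  exact congrArg v (e.symm_apply_apply i)

theorem cor_ne {e : n ≃ Fin (N + 1)} {v : n → k} (h : v ≠ 0) : cor e v ≠ 0 := fun h' =>
  h (by rw [← roc_cor e v, h']; rfl)

theorem roc_ne {e : n ≃ Fin (N + 1)} {v : Fin (N + 1) → k} (h : v ≠ 0) : roc e v ≠ 0 := fun h' =>
  h (by rw [← cor_roc e v, h']; rfl)

theorem cor_smul (e : n ≃ Fin (N + 1)) (c : k) (v : n → k) : cor e (c • v) = c • cor e v := rfl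

theorem cor_add (e : n ≃ Fin (N + 1)) (v w : n → k) : cor e (v + w) = cor e v + cor e w := rfl

theorem roc_smul (e : n ≃ Fin (N + 1)) (c : k) (v : Fin (N + 1) → k) :
    roc e (c • v) = c • roc e v := rfl

/-- the matrix of the form in the order of `e` -/
def Je (e : n ≃ Fin (N + 1)) (J : Matrix n n k) : Matrix (Fin (N + 1)) (Fin (N + 1)) k :=
  J.submatrix e.symm e.symm

theorem hf_cor (e : n ≃ Fin (N + 1)) (σ : k →+* k) (J : Matrix n n k) (x y : n → k) :
    hf σ (Je e J) (cor e x) (cor e y) = hf σ J x y := by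
  unfold hf Je cor
  simp only [dotProduct, mulVec, submatrix_apply]
  rw [← Equiv.sum_comp e.symm]
  refine Finset.sum_congr rfl fun i _ => ?_
  congr 1
  exact Equiv.sum_comp e.symm fun j => J (e.symm i) j * σ (y j)

/-- the columns: the contragredient of the rows -/
noncomputable def rho (e : n ≃ Fin (N + 1)) (σ : k →+* k) (J : Matrix n n k) :
    FormGroup σ J →* SpecialLinearGroup (Fin (N + 1)) k where
  toFun g := ⟨((g.1⁻¹).1)ᵀ.submatrix e.symm e.symm, by
    rw [det_submatrix_equiv_self, det_transpose]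
    exact (g.1⁻¹).2⟩
  map_one' := by
    apply Subtype.ext
    change (((1 : SpecialLinearGroup n k)⁻¹).1)ᵀ.submatrix e.symm e.symm = 1
    rw [inv_one]
    change ((1 : Matrix n n k))ᵀ.submatrix e.symm e.symm = 1
    rw [transpose_one, submatrix_one_equiv]
  map_mul' g h := by
    apply Subtype.ext
    change (((g.1 * h.1)⁻¹).1)ᵀ.submatrix e.symm e.symm =
      ((g.1⁻¹).1)ᵀ.submatrix e.symm e.symm * ((h.1⁻¹).1)ᵀ.submatrix e.symm e.symm
    rw [submatrix_mul_equiv, _root_.mul_inv_rev]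
    change ((h.1⁻¹).1 * (g.1⁻¹).1)ᵀ.submatrix e.symm e.symm = _
    rw [transpose_mul]

theorem rho_cor (e : n ≃ Fin (N + 1)) {σ : k →+* k} {J : Matrix n n k} (g : FormGroup σ J)
    (v : n → k) : (rho e σ J g).1 *ᵥ cor e v = cor e (v ᵥ* (g.1⁻¹).1) := by
  funext i
  change ∑ j, (g.1⁻¹).1 (e.symm j) (e.symm i) * v (e.symm j) =
    ∑ j, v j * (g.1⁻¹).1 j (e.symm i)
  rw [Equiv.sum_comp e.symm fun j => (g.1⁻¹).1 j (e.symm i) * v j]
  exact Finset.sum_congr rfl fun j _ => mul_comm _ _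

/-- the columns preserve the form -/
theorem hf_rho (e : n ≃ Fin (N + 1)) {σ : k →+* k} {J : Matrix n n k} (g : FormGroup σ J)
    (x y : Fin (N + 1) → k) :
    hf σ (Je e J) ((rho e σ J g).1 *ᵥ x) ((rho e σ J g).1 *ᵥ y) = hf σ (Je e J) x y := by
  rw [← cor_roc e x, ← cor_roc e y, rho_cor, rho_cor, hf_cor, hf_cor]
  exact (H714.Cl.mem_formGroup.1 (inv_mem g.2)) _ _

end coord

section pt

variable {n : Type} [Fintype n] [DecidableEq n] {k : Type} [NontriviallyNormedField k]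
  {σ : k →+* k} {J : Matrix n n k} {N : ℕ}

theorem fr_ne (v : Fr k n 1) : v.1 0 ≠ 0 := v.2.ne_zero 0

/-- the point of a frame -/
def ptF (e : n ≃ Fin (N + 1)) (v : Fr k n 1) : ℙ k (Fin (N + 1) → k) :=
  pj k (Fin (N + 1)) ⟨cor e (v.1 0), cor_ne (fr_ne v)⟩

theorem mem_sp1 {v : Fr k n 1} {x : n → k} :
    x ∈ (H100.Gr.sp v).1 ↔ ∃ c : k, c • v.1 0 = x := by
  change x ∈ Submodule.span k (range v.1) ↔ _
  have e : range v.1 = {v.1 0} := by
    ext y
    constructor
    · rintro ⟨i, rfl⟩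
      rw [Subsingleton.elim i 0]
      rfl
    · rintro rfl
      exact ⟨0, rfl⟩
  rw [e, Submodule.mem_span_singleton]

theorem ptF_eq (e : n ≃ Fin (N + 1)) {v : Fr k n 1} {x : n → k} (hx : x ≠ 0)
    (h : x ∈ (H100.Gr.sp v).1) : ptF e v = pj k (Fin (N + 1)) ⟨cor e x, cor_ne hx⟩ := by
  obtain ⟨c, rfl⟩ := mem_sp1.1 h
  have hc : c ≠ 0 := fun h0 => hx (by rw [h0, zero_smul])
  refine ((pj_eq _ _).2 ⟨Units.mk0 c hc, ?_⟩).symm
  rfl

/-- **the point of a line** -/
noncomputable def pt (e : n ≃ Fin (N + 1)) (X : SGr σ J 1) : ℙ k (Fin (N + 1) → k) :=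
  ptF e (H100.Gr.sp_surj X.1).choose

theorem pt_eq (e : n ≃ Fin (N + 1)) {X : SGr σ J 1} {x : n → k} (hx : x ≠ 0) (h : x ∈ X.S) :
    pt e X = pj k (Fin (N + 1)) ⟨cor e x, cor_ne hx⟩ := by
  refine ptF_eq e hx ?_
  rw [(H100.Gr.sp_surj X.1).choose_spec]
  exact h

theorem exists_vec (X : SGr σ J 1) : ∃ x : n → k, x ≠ 0 ∧ X.S = Submodule.span k {x} := by
  obtain ⟨v, hv⟩ := H100.Gr.sp_surj X.1
  refine ⟨v.1 0, fr_ne v, ?_⟩
  ext y
  rw [Submodule.mem_span_singleton, ← mem_sp1, hv]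
  rfl

theorem mem_of_span {X : SGr σ J 1} {x : n → k} (h : X.S = Submodule.span k {x}) : x ∈ X.S := by
  rw [h]
  exact Submodule.mem_span_singleton_self x

/-- the singular point of an isotropic vector -/
noncomputable def pv (σ : k →+* k) (J : Matrix n n k) (x : n → k) (hx : x ≠ 0)
    (h : hf σ J x x = 0) : SGr σ J 1 :=
  SGr.mk' (Submodule.span k {x}) (by
    intro a ha b hb
    obtain ⟨c, rfl⟩ := Submodule.mem_span_singleton.1 ha
    obtain ⟨d, rfl⟩ := Submodule.mem_span_singleton.1 hb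
    rw [H714.Cl.hf_smul_left, H714.Cl.hf_smul_right, h, mul_zero, mul_zero])
    (finrank_span_singleton hx)

theorem pt_pv (e : n ≃ Fin (N + 1)) {x : n → k} (hx : x ≠ 0) (h : hf σ J x x = 0) :
    pt e (pv σ J x hx h) = pj k (Fin (N + 1)) ⟨cor e x, cor_ne hx⟩ :=
  pt_eq e hx (Submodule.mem_span_singleton_self x)

theorem pt_inj (e : n ≃ Fin (N + 1)) : Function.Injective (pt e : SGr σ J 1 → _) := by
  intro X Y h
  obtain ⟨x, hx, hX⟩ := exists_vec X
  obtain ⟨y, hy, hY⟩ := exists_vec Y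
  rw [pt_eq e hx (mem_of_span hX), pt_eq e hy (mem_of_span hY)] at h
  obtain ⟨c, hc⟩ := (pj_eq _ _).1 h
  have h1 : (c : k) • y = x := by
    have := congrArg (roc e) hc
    change roc e ((c : k) • cor e y) = roc e (cor e x) at this
    rwa [roc_smul, roc_cor, roc_cor] at this
  refine SGr.eq_of_le ?_
  rw [hX, hY, Submodule.span_singleton_le_iff_mem, Submodule.mem_span_singleton]
  exact ⟨c, h1⟩

/-- the range: all isotropic points -/
theorem range_pt (e : n ≃ Fin (N + 1)) {x : Fin (N + 1) → k} (hx : x ≠ 0) :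
    pj k (Fin (N + 1)) ⟨x, hx⟩ ∈ range (pt e : SGr σ J 1 → _) ↔ hf σ (Je e J) x x = 0 := by
  constructor
  · rintro ⟨X, h⟩
    obtain ⟨y, hy, hX⟩ := exists_vec X
    rw [pt_eq e hy (mem_of_span hX)] at h
    obtain ⟨c, hc⟩ := (pj_eq _ _).1 h
    change (c : k) • x = cor e y at hc
    have h1 : hf σ (Je e J) ((c : k) • x) ((c : k) • x) = 0 := by
      rw [hc, hf_cor]
      exact X.sing.zero (mem_of_span hX)
    rw [H714.Cl.hf_smul_left, H714.Cl.hf_smul_right] at h1
    have h2 : σ (c : k) ≠ 0 := by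
      rw [ne_eq, map_eq_zero]
      exact c.ne_zero
    exact (mul_eq_zero.1 ((mul_eq_zero.1 h1).resolve_left c.ne_zero)).resolve_left h2
  · intro h
    have h1 : hf σ J (roc e x) (roc e x) = 0 := by rw [← hf_cor e, cor_roc, h]
    refine ⟨pv σ J (roc e x) (roc_ne hx) h1, ?_⟩
    rw [pt_pv]
    congr 1
    exact Subtype.ext (cor_roc e x)

/-- orthogonality -/
theorem col_pt (e : n ≃ Fin (N + 1)) (X Y : SGr σ J 1) :
    Col X Y ↔ hf σ (Je e J) (pt e X).rep (pt e Y).rep = 0 := by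
  obtain ⟨x, hx, hX⟩ := exists_vec X
  obtain ⟨y, hy, hY⟩ := exists_vec Y
  have h1 : pt e X = pj k (Fin (N + 1)) ⟨(pt e X).rep, (pt e X).rep_nonzero⟩ :=
    (Projectivization.mk_rep _).symm
  have h2 : pt e Y = pj k (Fin (N + 1)) ⟨(pt e Y).rep, (pt e Y).rep_nonzero⟩ :=
    (Projectivization.mk_rep _).symm
  obtain ⟨c, hc⟩ := (pj_eq _ _).1 ((pt_eq e hx (mem_of_span hX)).symm.trans h1)
  obtain ⟨d, hd⟩ := (pj_eq _ _).1 ((pt_eq e hy (mem_of_span hY)).symm.trans h2)
  change (c : k) • (pt e X).rep = cor e x at hc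
  change (d : k) • (pt e Y).rep = cor e y at hd
  have h3 : Col X Y ↔ hf σ J x y = 0 := by
    constructor
    · intro h
      exact h x (mem_of_span hX) y (mem_of_span hY)
    · intro h a ha b hb
      rw [hX] at ha
      rw [hY] at hb
      obtain ⟨c, rfl⟩ := Submodule.mem_span_singleton.1 ha
      obtain ⟨d, rfl⟩ := Submodule.mem_span_singleton.1 hb
      rw [H714.Cl.hf_smul_left, H714.Cl.hf_smul_right, h, mul_zero, mul_zero]
  rw [h3, ← hf_cor e, ← hc, ← hd, H714.Cl.hf_smul_left, H714.Cl.hf_smul_right]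
  have h4 : σ (d : k) ≠ 0 := by
    rw [ne_eq, map_eq_zero]
    exact d.ne_zero
  simp [h4]

/-- equivariance -/
theorem pt_smul (e : n ≃ Fin (N + 1)) (g : FormGroup σ J) (X : SGr σ J 1) :
    pt e (g • X) = rho e σ J g • pt e X := by
  obtain ⟨x, hx, hX⟩ := exists_vec X
  have h1 : x ᵥ* (g.1⁻¹).1 ∈ (g • X).S := by
    rw [smul_S]
    exact vecMul_mem_act (mem_of_span hX)
  have h2 : x ᵥ* (g.1⁻¹).1 ≠ 0 := fun h0 => hx (by
    rw [← H714.Cl.vecMul_inv_cancel x g.1, h0, zero_vecMul])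
  rw [pt_eq e h2 h1, pt_eq e hx (mem_of_span hX)]
  change _ = pj k (Fin (N + 1)) ⟨(rho e σ J g).1 *ᵥ cor e x, _⟩
  congr 1
  exact Subtype.ext (rho_cor e g x).symm

/-- continuity -/
theorem pt_cont (e : n ≃ Fin (N + 1)) : Continuous (pt e : SGr σ J 1 → _) := by
  have h : Continuous fun L : Gr k n 1 => ptF e (H100.Gr.sp_surj L).choose := by
    rw [H100.Gr.sp_quot.continuous_iff]
    have e1 : ((fun L : Gr k n 1 => ptF e (H100.Gr.sp_surj L).choose) ∘ H100.Gr.sp) =
        fun v => ptF e v := by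
      funext v
      refine (ptF_eq e (fr_ne v) ?_).trans rfl
      rw [(H100.Gr.sp_surj (H100.Gr.sp v)).choose_spec]
      exact mem_sp1.2 ⟨1, one_smul _ _⟩
    rw [e1]
    refine pj_continuous.comp (Continuous.subtype_mk ?_ _)
    have h3 : Continuous fun v : Fr k n 1 => v.1 := H100.Gr.fr_val_cont
    exact continuous_pi fun i =>
      (continuous_apply (e.symm i)).comp ((continuous_apply (0 : Fin 1)).comp h3)
  exact h.comp SGr.val_cont

end pt

end Vale.Agent.P092.H416.CL
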