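import Vale.Agent.P092.H416.LegG
import Vale.Agent.P092.H171.Ch
import Vale.Agent.P092.H35.Sig
import Vale.Agent.P092.H789.Fr

/-!
P092 (helper416), [Sp-CLS]: the position of EVERY point in a commuting leg `LegG`: there are a
homomorphism of fields `σ` and a calculus `Q` of `PGL_n(k)` such that `E a` is `g • σ_* a`.
-/

set_option linter.all false

namespace Vale.Agent.P092.H416

open Vale.Agent.P092.H820 Vale.Agent.P092.H466 Vale.Agent.P092.H171 Vale.Agent.P092.H375.Cls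
open Vale.Agent.P092.H789 (cmap src sv PG YY isOpenEmbedding_cmap)
open Vale.Agent.P092.H35.Sig (sgm)
open TopologicalSpace Set MeasureTheory Matrix Module
open scoped LinearAlgebra.Projectivization Matrix InnerProductSpace ZeroAtInfty

/-! ### Pushing almost everywhere statements forward -/

section push

variable {k : Type} [NontriviallyNormedField k] [ProperSpace k] {n : ℕ}
  {K : Type} [NormedAddCommGroup K] [InnerProductSpace ℂ K] [CompleteSpace K]
  {E : ℙ k (Fin n → k) → (C(ℙ k (Fin n → k), ℂ) →⋆ₐ[ℂ] (K →L[ℂ] K))}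

theorem Jn.ae_push {ι ι' : Type} [Fintype ι] [Fintype ι'] {a : ι → ℙ k (Fin n → k)}
    {a' : ι' → ℙ k (Fin n → k)}
    {Φ : C(ι → ℙ k (Fin n → k), ℂ) →⋆ₐ[ℂ] (K →L[ℂ] K)}
    {Φ' : C(ι' → ℙ k (Fin n → k), ℂ) →⋆ₐ[ℂ] (K →L[ℂ] K)} (h : Jn E a Φ) (h' : Jn E a' Φ')
    (r : ι' → ι) (hr : ∀ i, a' i = a (r i)) {p : (ι' → ℙ k (Fin n → k)) → Prop}
    (hm : MeasurableSet {y | p y}) (ξ : K)
    (hp : ∀ᵐ z ∂(ms Φ ξ), p (fun i => z (r i))) : ∀ᵐ y ∂(ms Φ' ξ), p y := by
  let R : C(ι → ℙ k (Fin n → k), ι' → ℙ k (Fin n → k)) := ⟨fun z i => z (r i), by fun_prop⟩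
  have e : Φ.comp (R.compStarAlgHom' ℂ ℂ) = Φ' := by
    refine hom_uniq fun i f => ?_
    have h1 : (Φ.comp (R.compStarAlgHom' ℂ ℂ)) (co i f) = Φ (co (r i) f) := rfl
    rw [h1, h (r i) f, h' i f, hr i]
  rw [← e, ms_restr, ae_map_iff R.continuous.measurable.aemeasurable hm]
  exact hp

/-- something that happens almost everywhere happens somewhere -/
theorem ae_exists [Nontrivial K] {X : Type*} [TopologicalSpace X] [CompactSpace X]
    [MetrizableSpace X] [MeasurableSpace X] [BorelSpace X]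
    (Φ : C(X, ℂ) →⋆ₐ[ℂ] (K →L[ℂ] K)) {p : X → Prop} (h : ∀ ξ, ∀ᵐ z ∂(ms Φ ξ), p z) :
    ∃ z, p z := by
  obtain ⟨ξ, hξ⟩ := exists_ne (0 : K)
  by_contra hcon
  push Not at hcon
  have h1 : ∀ᵐ z ∂(ms Φ ξ), False := (h ξ).mono fun z hz => hcon z hz
  have h5 : ms Φ ξ univ = 0 :=
    measure_eq_zero_iff_ae_notMem.2 (h1.mono fun z hz => hz.elim)
  have h6 := ms_univ Φ ξ
  rw [Measure.real, h5] at h6
  exact hξ (by simpa using h6.symm)

end push

/-! ### The frame inside the configuration -/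

section frame

variable {k : Type} [NontriviallyNormedField k] {m : ℕ}

/-- the index of the frame in the configuration of helper375 -/
def fi (m : ℕ) : Fin (m + 2) → Fin (m + 1) ⊕ Fin 5 := Fin.lastCases (.inr 0) (fun i => .inl i)

theorem fi_last : fi m (Fin.last (m + 1)) = .inr 0 := by simp [fi]

theorem fi_castSucc (i : Fin (m + 1)) : fi m i.castSucc = .inl i := by simp [fi]

theorem src_castSucc (i : Fin (m + 1)) :
    src k m i.castSucc = pj k (Fin (m + 1)) ⟨ev i, by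
      intro h
      have := congrFun h i
      simp [ev_self] at this⟩ := by
  rw [src]
  congr 1
  exact Subtype.ext (H789.sv_castSucc k m i)

theorem src_last' (h1 : (1 : Fin (m + 1) → k) ≠ 0) :
    src k m (Fin.last (m + 1)) = pj k (Fin (m + 1)) ⟨1, h1⟩ := by
  rw [src]
  congr 1
  exact Subtype.ext (H789.sv_last k m)

theorem ac_fi {i j : Fin (m + 1)} (hij : i ≠ j) (s : k) (x : Fin (m + 2)) :
    ac hij s (fi m x) = src k m x := by
  refine Fin.lastCases ?_ (fun l => ?_) x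
  · rw [fi_last, src_last' (uc_ne hij s (.inr 0))]
    rfl
  · rw [fi_castSucc, src_castSucc]
    rfl

/-- a configuration determines an element of `PGL` -/
theorem cmap_of_cfg {i j : Fin (m + 1)} (hij : i ≠ j) {t : k}
    {z : Fin (m + 1) ⊕ Fin 5 → ℙ k (Fin (m + 1) → k)} {g' : GL (Fin (m + 1)) k}
    (h : ∀ x, z x = g' • ac hij t x) :
    (fun x => z (fi m x)) = cmap k m (QuotientGroup.mk g') := by
  funext x
  rw [h, ac_fi, H789.cmap_apply]
  rfl

end frame

/-! ### Positions of the points of a coordinate line -/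

section pos

variable {k : Type} [NontriviallyNormedField k] [ProperSpace k] {m : ℕ}
  {S Γ K : Type} [Group S] [Group Γ] [NormedAddCommGroup K] [InnerProductSpace ℂ K]
  [CompleteSpace K]
  {ρ : S →* PG k (m + 1)} {π : S →* (K →L[ℂ] K)} {lam : Γ →* (K →L[ℂ] K)}
  {W : Set (K →L[ℂ] K)} {q : Γ → SpecialLinearGroup (Fin (m + 1)) k}
  {E : ℙ k (Fin (m + 1) → k) → (C(ℙ k (Fin (m + 1) → k), ℂ) →⋆ₐ[ℂ] (K →L[ℂ] K))}
  {Φ : C(Fin (m + 2) → ℙ k (Fin (m + 1) → k), ℂ) →⋆ₐ[ℂ] (K →L[ℂ] K)}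

theorem exists_three (hm : 2 ≤ m) (i j : Fin (m + 1)) : ∃ l : Fin (m + 1), l ≠ i ∧ l ≠ j := by
  by_contra hcon
  push Not at hcon
  have h1 : (Finset.univ : Finset (Fin (m + 1))) ⊆ {i, j} := fun x _ => by
    by_cases hx : x = i
    · simp [hx]
    · simp [hcon x hx]
  have h2 := Finset.card_le_card h1
  rw [Finset.card_univ, Fintype.card_fin] at h2
  exact absurd (h2.trans Finset.card_le_two) (by omega)

/-- the frame is in general position -/
theorem LegG.range [Nontrivial K] (hL : LegG ρ π lam W q E) (hm : 2 ≤ m)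
    (hΦ : Jn E (src k m) Φ) (ξ : K) : ∀ᵐ z ∂(ms Φ ξ), z ∈ Set.range (cmap k m) := by
  have h01 : (⟨0, by omega⟩ : Fin (m + 1)) ≠ ⟨1, by omega⟩ := by simp
  obtain ⟨l, hl1, hl2⟩ := exists_three hm (⟨0, by omega⟩ : Fin (m + 1)) ⟨1, by omega⟩
  obtain ⟨t, ht⟩ := hL.cfg_const h01 hl1 hl2 1
  obtain ⟨Ψ, hΨ⟩ := hL.joint (ac h01 (1 : k))
  refine Jn.ae_push (E := E) hΨ hΦ (fi m) (fun i => (ac_fi h01 1 i).symm) ?_ ξ ?_
  · exact isOpenEmbedding_cmap.isOpen_range.measurableSet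
  · filter_upwards [ht Ψ hΨ ξ] with z hz
    obtain ⟨g', hg'⟩ := hz
    exact ⟨_, (cmap_of_cfg h01 hg').symm⟩

/-- positions in a configuration -/
theorem LegG.pos_cfg [Nontrivial K] (hL : LegG ρ π lam W q E) (hm : 2 ≤ m)
    (hΦ : Jn E (src k m) Φ) {i j : Fin (m + 1)} (hij : i ≠ j) (s : k) :
    ∃ t : k, ∀ x, Pos (Qg isOpenEmbedding_cmap Φ) (E (ac hij s x))
      fun g : PG k (m + 1) => g • ac hij t x := by
  obtain ⟨l, hl1, hl2⟩ := exists_three hm i j
  obtain ⟨t, ht⟩ := hL.cfg_const hij hl1 hl2 s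
  obtain ⟨Ψ, hΨ⟩ := hL.joint (ac hij s)
  refine ⟨t, fun x => ?_⟩
  refine pos_of_ae isOpenEmbedding_cmap (hL.range hm hΦ) (r := fi m) (Ψ := Ψ)
    (fun i' f => by rw [hΨ, hΦ i' f, ac_fi]) (j := x) (fun f => hΨ x f) fun ξ => ?_
  filter_upwards [ht Ψ hΨ ξ] with z hz g hg
  obtain ⟨g', hg'⟩ := hz
  have h1 : cmap k m g = cmap k m (QuotientGroup.mk g') := by
    rw [← cmap_of_cfg hij hg']
    exact (funext hg).symm
  rw [hg' x, H789.cmap_injective h1]
  rfl

theorem act_cont (x : ℙ k (Fin (m + 1) → k)) : Continuous fun g : PG k (m + 1) => g • x := by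
  have h : Continuous fun p : PG k (m + 1) × YY k m => p.1 • p.2 := continuous_smul
  exact h.comp (continuous_id.prodMk continuous_const)

/-- positions which do not depend on the frame are unique -/
theorem LegG.pos_inj [Nontrivial K] (hL : LegG ρ π lam W q E) (hm : 2 ≤ m)
    (hΦ : Jn E (src k m) Φ) {a x y : ℙ k (Fin (m + 1) → k)}
    (hx : Pos (Qg isOpenEmbedding_cmap Φ) (E a) fun g : PG k (m + 1) => g • x)
    (hy : Pos (Qg isOpenEmbedding_cmap Φ) (E a) fun g : PG k (m + 1) => g • y) : x = y := by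
  obtain ⟨g, hg⟩ := pos_uniq isOpenEmbedding_cmap (hL.range hm hΦ) (act_cont x) (act_cont y) hx hy
  exact MulAction.injective g hg

/-- vectors of a coordinate line -/
theorem uc2_inj {i j : Fin (m + 1)} (hij : i ≠ j) {t t' : k}
    (h : ac hij t (.inr 2) = ac hij t' (.inr 2)) : t = t' := by
  have h1 : pj k (Fin (m + 1)) ⟨uc i j t (.inr 2), uc_ne hij t _⟩ =
      pj k (Fin (m + 1)) ⟨uc i j t' (.inr 2), uc_ne hij t' _⟩ := h
  rw [pj_eq] at h1
  obtain ⟨c, hc⟩ := h1
  have e1 := congrFun hc i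
  have e2 := congrFun hc j
  simp only [uc, Units.smul_def, Pi.smul_apply, Pi.add_apply, ev_self, ev_ne hij, ev_ne hij.symm,
    smul_eq_mul] at e1 e2
  have e3 : (c : k) = 1 := by linear_combination e2
  rw [e3] at e1
  linear_combination -e1

/-- the constant of the cross ratio -/
theorem LegG.exists_tau [Nontrivial K] (hL : LegG ρ π lam W q E) (hm : 2 ≤ m)
    (hΦ : Jn E (src k m) Φ) : ∃ τ : Fin (m + 1) → Fin (m + 1) → k → k,
      (∀ (i j : Fin (m + 1)) (hij : i ≠ j) (s : k) (x : Fin (m + 1) ⊕ Fin 5),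
        Pos (Qg isOpenEmbedding_cmap Φ) (E (ac hij s x))
          fun g : PG k (m + 1) => g • ac hij (τ i j s) x) := by
  classical
  choose T hT using fun (i j : Fin (m + 1)) (hij : i ≠ j) (s : k) => hL.pos_cfg hm hΦ hij s
  refine ⟨fun i j s => if h : i ≠ j then T i j h s else 0, fun i j hij s x => ?_⟩
  have e : (if h : i ≠ j then T i j h s else 0) = T i j hij s := dif_pos hij
  simp only [e]
  exact hT i j hij s x

end pos

end Vale.Agent.P092.H416
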