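import Vale.Agent.P092.H416.CLpt
import Vale.Agent.P092.H416.PosG

/-!
P092 (helper416), [CL-PT], part 2: the calculi on `SGr σ J 1` as calculi on the projective space,
joint calculi and almost everywhere statements.
-/

set_option linter.all false

namespace Vale.Agent.P092.H416.CL

open Vale.Agent.P092.H303 (FormGroup)
open Vale.Agent.P092.H714.Cl (hf Frm)
open Vale.Agent.P092.H370.Po
open Vale.Agent.P092.H820 Vale.Agent.P092.H466
open Vale.Agent.P092.H171 (co ms_restr exists_joint hom_uniq)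
open TopologicalSpace Set Matrix Module MeasureTheory
open scoped LinearAlgebra.Projectivization Matrix InnerProductSpace

section let_

variable {n : Type} [Fintype n] [DecidableEq n] {k : Type} [NontriviallyNormedField k]
  [ProperSpace k] {σ : k →+* k} {J : Matrix n n k} {N : ℕ} {P₀ Γ S K : Type}
  [NormedAddCommGroup K] [InnerProductSpace ℂ K] [CompleteSpace K]

/-- the point map as a continuous map -/
noncomputable def ptC (e : n ≃ Fin (N + 1)) (σ : k →+* k) (J : Matrix n n k) :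
    C(SGr σ J 1, ℙ k (Fin (N + 1) → k)) := ⟨pt e, pt_cont e⟩

/-- the calculi on the projective space -/
noncomputable def EP (e : n ≃ Fin (N + 1)) (E : P₀ → (C(SGr σ J 1, ℂ) →⋆ₐ[ℂ] (K →L[ℂ] K)))
    (b : P₀) : C(ℙ k (Fin (N + 1) → k), ℂ) →⋆ₐ[ℂ] (K →L[ℂ] K) :=
  (E b).comp ((ptC e σ J).compStarAlgHom' ℂ ℂ)

theorem EP_apply (e : n ≃ Fin (N + 1)) (E : P₀ → (C(SGr σ J 1, ℂ) →⋆ₐ[ℂ] (K →L[ℂ] K))) (b : P₀)
    (f : C(ℙ k (Fin (N + 1) → k), ℂ)) : EP e E b f = E b (f.comp (ptC e σ J)) := rfl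

/-- the product of the point map -/
noncomputable def ptPi (e : n ≃ Fin (N + 1)) (σ : k →+* k) (J : Matrix n n k) (κ : Type) :
    C(κ → SGr σ J 1, κ → ℙ k (Fin (N + 1) → k)) :=
  ⟨fun y i => pt e (y i), continuous_pi fun i => (pt_cont e).comp (continuous_apply i)⟩

variable [Fact (Continuous σ)]

theorem ptPi_emb (e : n ≃ Fin (N + 1)) (κ : Type) :
    Topology.IsClosedEmbedding (ptPi e σ J κ : (κ → SGr σ J 1) → _) :=
  (ptPi e σ J κ).continuous.isClosedEmbedding fun a b h => by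
    funext i
    exact pt_inj e (congrFun h i)

variable {E : P₀ → (C(SGr σ J 1, ℂ) →⋆ₐ[ℂ] (K →L[ℂ] K))}

/-- the joint calculus of the letters on the projective space -/
theorem joint_EP (e : n ≃ Fin (N + 1)) {κ : Type} [Fintype κ] {a : κ → P₀}
    {Φ : C(κ → ℙ k (Fin (N + 1) → k), ℂ) →⋆ₐ[ℂ] (K →L[ℂ] K)}
    {Ψ : C(κ → SGr σ J 1, ℂ) →⋆ₐ[ℂ] (K →L[ℂ] K)}
    (hΦ : ∀ i f, Φ (co i f) = EP e E (a i) f) (hΨ : ∀ i f, Ψ (co i f) = E (a i) f) :
    Φ = Ψ.comp ((ptPi e σ J κ).compStarAlgHom' ℂ ℂ) := by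
  refine hom_uniq fun i f => ?_
  rw [hΦ, EP_apply, ← hΨ]
  rfl

variable [MeasurableSpace (SGr σ J 1)] [BorelSpace (SGr σ J 1)]

/-- almost everywhere statements of the joint laws -/
theorem ae_EP (e : n ≃ Fin (N + 1)) {κ : Type} [Fintype κ] {a : κ → P₀}
    {Φ : C(κ → ℙ k (Fin (N + 1) → k), ℂ) →⋆ₐ[ℂ] (K →L[ℂ] K)}
    {Ψ : C(κ → SGr σ J 1, ℂ) →⋆ₐ[ℂ] (K →L[ℂ] K)}
    (hΦ : ∀ i f, Φ (co i f) = EP e E (a i) f) (hΨ : ∀ i f, Ψ (co i f) = E (a i) f)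
    (ξ : K) {p : (κ → ℙ k (Fin (N + 1) → k)) → Prop} :
    (∀ᵐ z ∂(ms Φ ξ), p z) ↔ ∀ᵐ y ∂(ms Ψ ξ), p fun i => pt e (y i) := by
  rw [joint_EP e hΦ hΨ, ms_restr, (ptPi_emb e κ).measurableEmbedding.ae_map_iff]
  rfl

/-- the values are isotropic points -/
theorem ae_range (e : n ≃ Fin (N + 1)) (com : ∀ a b f g, Commute (E a f) (E b g)) {κ : Type}
    [Fintype κ] {a : κ → P₀} {Φ : C(κ → ℙ k (Fin (N + 1) → k), ℂ) →⋆ₐ[ℂ] (K →L[ℂ] K)}
    (hΦ : ∀ i f, Φ (co i f) = EP e E (a i) f) (ξ : K) :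
    ∀ᵐ z ∂(ms Φ ξ), ∀ i, z i ∈ range (pt e : SGr σ J 1 → _) := by
  obtain ⟨Ψ, hΨ⟩ := exists_joint (fun i => E (a i)) fun i j f g => com _ _ f g
  exact (ae_EP e hΦ hΨ ξ).2 (Filter.Eventually.of_forall fun y i => ⟨y i, rfl⟩)

end let_

end Vale.Agent.P092.H416.CL
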