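import Vale.Agent.P092.H325.FmXc
import Vale.Agent.P092.H375.X2.Out
import Vale.Agent.P092.H171.Ch

/-!
P092 (helper416), [P3-OUT]: the classical leg `ClsF` (helper325) from semilinear positions of the
points of a family `P₀` of source points (e.g. the isotropic points of a form), two fields.
-/

set_option linter.all false

open scoped InnerProductSpace ENNReal ZeroAtInfty LinearAlgebra.Projectivization
open Filter Topology TopologicalSpace ContinuousLinearMap MeasureTheory Matrix Set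

namespace Vale.Agent.P092.H416

open Vale.Agent.P092.H820 Vale.Agent.P092.H466
open Vale.Agent.P092.RC (Cm GG PG YY)
open Vale.Agent.P092.SN (CY)
open Vale.Agent.P092.H171 (co Qg Qg_nd Qg_comm Qg_left Pos Rt Lt pos_of_ae right_of_pos exists_joint)
open Vale.Agent.P092.H789 (cmap src isOpenEmbedding_cmap cmap_apply cmap_mul cmap_injective)
open Vale.Agent.P092.H35 (sp)
open Vale.Agent.P092.H375.X2 (sgm sgm_smul sgm_src)
open Vale.Agent.P092.H375.Cls (sp_smul)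
open Vale.Agent.P092.H325.SX (ClsF sgm_smul_gl)

section out

variable {kS k : Type} [NontriviallyNormedField kS] [NontriviallyNormedField k] [ProperSpace k]
  {N : ℕ} {S E₀ Γ K P₀ : Type} [Group S] [Group E₀] [Group Γ] [NormedAddCommGroup K]
  [InnerProductSpace ℂ K] [CompleteSpace K]

/-- A commuting leg on a family `pt : P₀ → ℙ(kS^(N+1))` of source points whose joint laws live on
the semilinear images of the points. -/
structure SemLeg (τ : kS →+* k) (pt : P₀ → YY kS N) (ρ : S →* GG kS N) (ι : S →* E₀)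
    (π : E₀ →* (K →L[ℂ] K)) (lam : Γ →* (K →L[ℂ] K)) (W : Set (K →L[ℂ] K)) (q : Γ → GG k N)
    (E : P₀ → (CY k N →⋆ₐ[ℂ] (K →L[ℂ] K))) : Prop where
  cm : ∀ b f, Cm W (E b f)
  cov : ∀ γ b (f f' : CY k N), (∀ y, f' y = f ((q γ)⁻¹ • y)) →
    lam γ * E b f * lam γ⁻¹ = E b f'
  pcov : ∀ h b, ∃ b', pt b' = ρ h • pt b ∧ ∀ f, π (ι h) * E b f * π (ι h)⁻¹ = E b' f
  com : ∀ a b f g, Commute (E a f) (E b g)
  sem : ∀ {κ : Type} [Fintype κ] (a : κ → P₀)
    (Φ : C(κ → ℙ k (Fin (N + 1) → k), ℂ) →⋆ₐ[ℂ] (K →L[ℂ] K)), (∀ i f, Φ (co i f) = E (a i) f) →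
    ∀ ξ, ∀ᵐ z ∂(ms Φ ξ), ∃ M : GL (Fin (N + 1)) k, ∀ i, z i = M • sgm τ (N + 1) (pt (a i))

/-- the source frame moved by `b` -/
noncomputable def cb (b : PG k (N + 1)) (g : PG k (N + 1)) : Fin (N + 2) → YY k N :=
  cmap k N (g * b)

theorem cb_open (b : PG k (N + 1)) : IsOpenEmbedding (cb b : PG k (N + 1) → _) :=
  isOpenEmbedding_cmap.comp (Homeomorph.mulRight b).isOpenEmbedding

theorem cb_apply (τ : kS →+* k) {pt : P₀ → YY kS N} {B : GL (Fin (N + 1)) kS}
    {fr : Fin (N + 2) → P₀} (hfr : ∀ i, pt (fr i) = B • src kS N i) (g : PG k (N + 1))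
    (i : Fin (N + 2)) :
    cb (QuotientGroup.mk (Matrix.GeneralLinearGroup.map τ B)) g i =
      g • sgm τ (N + 1) (pt (fr i)) := by
  rw [cb, cmap_apply, mul_smul, hfr, sgm_smul_gl, sgm_src]
  rfl

variable {τ : kS →+* k} {pt : P₀ → YY kS N} {ρ : S →* GG kS N} {ι : S →* E₀}
  {π : E₀ →* (K →L[ℂ] K)} {lam : Γ →* (K →L[ℂ] K)} {W : Set (K →L[ℂ] K)} {q : Γ → GG k N}
  {E : P₀ → (CY k N →⋆ₐ[ℂ] (K →L[ℂ] K))}

theorem act_cont' (x : ℙ k (Fin (N + 1) → k)) : Continuous fun g : PG k (N + 1) => g • x := by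
  have h : Continuous fun p : PG k (N + 1) × YY k N => p.1 • p.2 := continuous_smul
  exact h.comp (continuous_id.prodMk continuous_const)

/-- **[P3-OUT]** -/
theorem SemLeg.clsF (h : SemLeg τ pt ρ ι π lam W q E) {B : GL (Fin (N + 1)) kS}
    {fr : Fin (N + 2) → P₀} (hfr : ∀ i, pt (fr i) = B • src kS N i) :
    ∃ Q : C₀(PG k (N + 1), ℂ) →⋆ₙₐ[ℂ] (K →L[ℂ] K), ClsF pt ρ ι π lam W q E τ Q ∧
      ∀ T : K →L[ℂ] K, (∀ i f, Commute T (E (fr i) f)) → ∀ ψ, Commute T (Q ψ) := by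
  obtain ⟨Φ, hΦ⟩ := exists_joint (fun i => E (fr i)) fun i j f g => h.com _ _ f g
  let b : PG k (N + 1) := QuotientGroup.mk (Matrix.GeneralLinearGroup.map τ B)
  have hc : IsOpenEmbedding (cb b : PG k (N + 1) → _) := cb_open b
  have hca : ∀ g i, cb b g i = g • sgm τ (N + 1) (pt (fr i)) := fun g i => cb_apply τ hfr g i
  -- the frame is in general position
  have hr : ∀ ξ, ∀ᵐ z ∂(ms Φ ξ), z ∈ range (cb b) := by
    intro ξ
    filter_upwards [h.sem fr Φ hΦ ξ] with z hz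
    obtain ⟨M, hM⟩ := hz
    refine ⟨QuotientGroup.mk M, ?_⟩
    funext i
    rw [hca, hM]
    rfl
  -- positions
  have hpos : ∀ b₀, Pos (Qg hc Φ) (E b₀) fun g : PG k (N + 1) => g • sgm τ (N + 1) (pt b₀) := by
    intro b₀
    obtain ⟨Ψ, hΨ⟩ := exists_joint (fun t : Fin (N + 2) ⊕ Unit =>
      E (Sum.elim fr (fun _ => b₀) t)) fun i j f g => h.com _ _ f g
    refine pos_of_ae hc hr (r := Sum.inl) (Ψ := Ψ) (fun i f => by rw [hΨ, hΦ]; rfl)
      (j := .inr ()) (fun f => hΨ (.inr ()) f) fun ξ => ?_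
    filter_upwards [h.sem (Sum.elim fr (fun _ => b₀)) Ψ hΨ ξ] with z hz g hg
    obtain ⟨M, hM⟩ := hz
    have e : (QuotientGroup.mk M : PG k (N + 1)) = g := by
      refine hc.injective (funext fun i => ?_)
      rw [← hg i, hM, hca]
      rfl
    rw [hM, ← e]
    rfl
  refine ⟨Qg hc Φ, ⟨fun ξ h' => Qg_nd hc hr h', ?_, ?_, ?_, fun b₀ f ψ ψ' h' => hpos b₀ f ψ ψ' h'⟩,
    ?_⟩
  · intro ψ w hw
    have := Qg_comm hc (Φ := Φ) (T := w) (fun i f => by
      rw [hΦ]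
      exact (h.cm _ _ w hw).symm) ψ
    exact this.symm
  · intro γ
    have u1 : lam γ * lam γ⁻¹ = 1 := by rw [← map_mul, mul_inv_cancel, map_one]
    have u2 : lam γ⁻¹ * lam γ = 1 := by rw [← map_mul, inv_mul_cancel, map_one]
    refine Qg_left hc u1 u2 ⟨fun y => (q γ)⁻¹ • y, continuous_const_smul (q γ)⁻¹⟩
      (fun y i => ?_) (fun i f => ?_) hr
    · change (q γ)⁻¹ • cb b y i = _
      rw [hca, hca, mul_smul, ← map_inv (sp k (N + 1)), sp_smul]
    · rw [hΦ, h.cov γ _ f (f.comp ⟨fun y => (q γ)⁻¹ • y, continuous_const_smul (q γ)⁻¹⟩)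
        fun y => rfl, ← hΦ]
  · intro s ψ ψ' hψ
    choose mv hmv hmvE using fun i => h.pcov s (fr i)
    have u1 : π (ι s) * π (ι s)⁻¹ = 1 := by rw [← map_mul, mul_inv_cancel, map_one]
    have u2 : π (ι s)⁻¹ * π (ι s) = 1 := by rw [← map_mul, inv_mul_cancel, map_one]
    refine right_of_pos hc h.com hΦ hr u1 u2
      (x := sp k (N + 1) (SpecialLinearGroup.map τ (ρ s))) (s' := mv)
      (fun i f => hmvE i f) (fun i => ?_) ψ ψ' hψ
    have e : (fun g : PG k (N + 1) =>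
        cb b (g * sp k (N + 1) (SpecialLinearGroup.map τ (ρ s))) i) =
        fun g => g • sgm τ (N + 1) (pt (mv i)) := by
      funext g
      rw [hca, mul_smul, sp_smul, hmv, sgm_smul]
    rw [e]
    exact hpos (mv i)
  · intro T hT ψ
    exact Qg_comm hc (Φ := Φ) (T := T) (fun i f => by
      rw [hΦ]
      exact hT i f) ψ

end out

end Vale.Agent.P092.H416
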