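import Vale.Agent.P092.H416.CLG
import Vale.Agent.P092.H416.OutS
import Vale.Agent.P092.H375.P3.GeoE
import Vale.Agent.P092.H714.Pc7

/-!
P092 (helper416), [CL-CLS] and [CLO-CLS], assembly: THE CLASSICAL LEG for every form of Witt index
`r ≥ 2` and every source group which contains the Eichler elements.
-/

set_option linter.all false

namespace Vale.Agent.P092.H416.CLG

open Vale.Agent.P092.H303 (FormGroup)
open Vale.Agent.P092.H714.Cl
open Vale.Agent.P092.H714.Sg (Fm)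
open Vale.Agent.P092.H370.Po
open Vale.Agent.P092.H370.Fo (Fo Wf EU EU_le)
open Vale.Agent.P092.H820 Vale.Agent.P092.H466 Vale.Agent.P092.H789
open Vale.Agent.P092.H171 (co ms_restr exists_joint hom_uniq ae_ne)
open Vale.Agent.P092.H375.P3 (Exa IsoP Cr qv tau_of)
open Vale.Agent.P092.H375.X2 (sgm)
open Vale.Agent.P092.H325.SX (ClsF)
open Vale.Agent.P092.H325.CL (fm_re wi2_re)
open Vale.Agent.P092.RC (Cm Moore PicX)
open Vale.Agent.P092.H416.CL (EP ae_EP pt pt_inj rho Je pt_smul col_of_inc EP_apply hf_cor roc cor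
  cor_roc range_pt)
open Vale.Agent.P092.H416 (SemLeg)
open TopologicalSpace Set Matrix Module MeasureTheory ContinuousLinearMap
open scoped LinearAlgebra.Projectivization Matrix InnerProductSpace ZeroAtInfty

section frame

variable {n : Type} [Fintype n] [DecidableEq n] {k : Type} [NontriviallyNormedField k]
  {σ : k →+* k} {ε : k} {J : Matrix n n k} {r N : ℕ}

theorem wi2 (hF : Fo σ ε J) (hW : WI σ J r) (hr : 2 ≤ r) : H325.Wi2 σ J := by
  intro x hx0 hx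
  obtain ⟨⟨Y, hY, hdY⟩, -⟩ := hW
  have hs : Sing σ J (Submodule.span k {x}) := by
    unfold Sing
    rw [ort_span_left]
    intro y hy
    obtain ⟨a, rfl⟩ := Submodule.mem_span_singleton.1 hy
    rw [hf_smul_right, hx, mul_zero]
  have hd1 : finrank k (Submodule.span k {x}) = 1 := finrank_span_singleton hx0
  obtain ⟨Z, h1, h2, h3⟩ := H370.Fo.exists_above hF hs hY (j := 2) (by omega) (by omega)
  have h4 : ¬ Z ≤ Submodule.span k {x} := fun h' => by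
    have := Submodule.finrank_mono h'
    omega
  obtain ⟨w, hw, hwx⟩ := SetLike.not_le_iff_exists.1 h4
  exact ⟨w, h2.zero hw, h2 x (h1 (Submodule.mem_span_singleton_self x)) w hw, hwx⟩

/-- a projective frame of isotropic points -/
theorem exists_frm (hF : Fo σ ε J) (hW : WI σ J r) (hr : 2 ≤ r) (e : n ≃ Fin (N + 1)) :
    ∃ (B : GL (Fin (N + 1)) k) (fr : Fin (N + 2) → SGr σ J 1), ∀ i, pt e (fr i) = B • src k N i := by
  obtain ⟨B, h1, h2⟩ := H325.exists_frame (K := J.submatrix e.symm e.symm) (fm_re e hF.fm)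
    (wi2_re e (wi2 hF hW hr))
  have hne : ∀ i, B.1 *ᵥ H789.sv k N i ≠ 0 := by
    intro i h0
    apply H789.sv_ne k N i
    have h3 := congrArg (fun z => (B⁻¹).1 *ᵥ z) h0
    simp only [mulVec_zero, mulVec_mulVec] at h3
    have h4 : (B⁻¹).1 * B.1 = 1 := by
      rw [← Units.val_mul, inv_mul_cancel, Units.val_one]
    rwa [h4, one_mulVec] at h3
  have hiso : ∀ i, hf σ (Je e J) (B.1 *ᵥ H789.sv k N i) (B.1 *ᵥ H789.sv k N i) = 0 := by
    intro i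
    refine Fin.lastCases ?_ (fun j => ?_) i
    · rw [H789.sv_last]
      exact h2
    · rw [H789.sv_castSucc]
      exact h1 j
  choose fr hfr using fun i => (range_pt (σ := σ) (J := J) e (hne i)).2 (hiso i)
  refine ⟨B, fr, fun i => ?_⟩
  rw [hfr]
  rfl

end frame

section leg

variable {n : Type} [Fintype n] [DecidableEq n] {k : Type} [NontriviallyNormedField k]
  [ProperSpace k] {σ : k →+* k} {ε : k} {J : Matrix n n k} [Fact (Continuous σ)]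
  [MeasurableSpace (SGr σ J 1)] [BorelSpace (SGr σ J 1)]
  {r N : ℕ} {S E₀ Γ K : Type} [Group S] [Group E₀] [TopologicalSpace E₀] [Group Γ]
  [NormedAddCommGroup K] [InnerProductSpace ℂ K] [CompleteSpace K] {φ : S →* FormGroup σ J}
  {ι : S →* E₀} {π : E₀ →* (K →L[ℂ] K)} {lam : Γ →* (K →L[ℂ] K)}
  {W : Set (K →L[ℂ] K)} {Ω : K} {q : Γ → S}
  {Ec : SGr σ J 1 → (C(SGr σ J 1, ℂ) →⋆ₐ[ℂ] (K →L[ℂ] K))}
  {F : SGr σ J r → (C(SGr σ J r, ℂ) →⋆ₐ[ℂ] (K →L[ℂ] K))}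

/-- the exact perpendicularity of pairs of points (the input of [CL-PL]) -/
theorem Pts.exa [Nontrivial K] (h : Pts φ ι π lam W Ω q Ec F) (hF : Fo σ ε J)
    (hφ : ∀ g : FormGroup σ J, g.1 ∈ EU σ ε J → ∃ s, φ s = g) (hσ : Continuous σ)
    (hr : 2 ≤ r) (Y₀ : SGr σ J r) : Exa Ec := fun a b Ψ hΨ ξ => h.inc hF hφ hσ hr Y₀ a b Ψ hΨ ξ

/-- the semilinear leg -/
theorem Pts.semLeg [Nontrivial K] (h : Pts φ ι π lam W Ω q Ec F) (hF : Wf σ ε J r)
    (hφ : ∀ g : FormGroup σ J, g.1 ∈ EU σ ε J → ∃ s, φ s = g) (hr : 2 ≤ r) (Y₀ : SGr σ J r)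
    (e : n ≃ Fin (N + 1)) {τ : k →+* k}
    (hτ : ∀ x y, IsoP σ (Je e J) x y → ∀ s,
      Cr (pt e : SGr σ J 1 → _) (EP e Ec) (qv x y s) (τ s)) :
    SemLeg τ (pt e) ((rho e σ J).comp φ) ι π lam W (fun γ => rho e σ J (φ (q γ))) (EP e Ec) where
  cm b f := h.cm b _
  cov γ b f f' hf := by
    rw [EP_apply, h.cov, EP_apply]
    congr 1
    ext y
    change f (pt e ((φ (q γ))⁻¹ • y)) = f' (pt e y)
    rw [hf, pt_smul, map_inv]
  pcov g b := ⟨φ g • b, pt_smul e _ _, fun f => h.pcov g b _⟩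
  com a b f g := h.com _ _ _ _
  sem a Φ hΦ ξ := H714.Pc.sem_cl e e hF hr hF.fm h.com
    (fun a b Ψ hΨ ξ => h.inc hF.fo hφ Fact.out hr Y₀ a b Ψ hΨ ξ)
    (fun x y hli hxx hyy hxy s => hτ x y ⟨hxx, hyy, hxy, hli⟩ s) a Φ hΦ ξ

/-- **the classical leg**, from the cross ratios -/
theorem Pts.clsF [Nontrivial K] (h : Pts φ ι π lam W Ω q Ec F) (hF : Wf σ ε J r)
    (hφ : ∀ g : FormGroup σ J, g.1 ∈ EU σ ε J → ∃ s, φ s = g) (hr : 2 ≤ r) (Y₀ : SGr σ J r)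
    (e : n ≃ Fin (N + 1))
    (hτ : ∃ τ : k →+* k, ∀ x y, IsoP σ (Je e J) x y → ∀ s,
      Cr (pt e : SGr σ J 1 → _) (EP e Ec) (qv x y s) (τ s)) :
    ∃ (τ : k →+* k) (Q : C₀(PG k (N + 1), ℂ) →⋆ₙₐ[ℂ] (K →L[ℂ] K)),
      ClsF (pt e) ((rho e σ J).comp φ) ι π lam W (fun γ => rho e σ J (φ (q γ))) (EP e Ec) τ Q := by
  obtain ⟨τ, hτ⟩ := hτ
  obtain ⟨B, fr, hfr⟩ := exists_frm hF.fo hF.wi hr e
  obtain ⟨Q, hQ, -⟩ := (h.semLeg hF hφ hr Y₀ e hτ).clsF hfr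
  exact ⟨τ, Q, hQ⟩

end leg

/-! ### The letters of CL/Defs, any source group -/

section record

variable {n : Type} [Fintype n] [DecidableEq n] {k : Type} [NontriviallyNormedField k]
  [ProperSpace k] {σ : k →+* k} {ε : k} {J : Matrix n n k} [Fact (Continuous σ)] {r N : ℕ}
  {V₁ V₂ : Type} [MeasurableSpace V₁] [MeasurableSpace V₂] [NormedAddCommGroup V₁]
  [NormedAddCommGroup V₂] {S : Type} [Group S] [TopologicalSpace S]
  [MulAction S (SGr σ J 1)] [ContinuousConstSMul S (SGr σ J 1)] [MulAction S (SGr σ J r)]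
  [ContinuousConstSMul S (SGr σ J r)]
  {L : P092.CL.Lt S (SGr σ J 1) (SGr σ J r) V₁ V₂} {φ : S →* FormGroup σ J}
  {𝒰 : Ultrafilter ℕ} {E₀ Γ K : Type} [Group E₀] [TopologicalSpace E₀] [Group Γ]
  [NormedAddCommGroup K] [InnerProductSpace ℂ K] [CompleteSpace K]
  {ι : S →* E₀} {π : E₀ →* (K →L[ℂ] K)} {lam : Γ →* (K →L[ℂ] K)}
  {W : Set (K →L[ℂ] K)} {Ω : K} {m : Set Γ → (K →L[ℂ] K)} {q : Γ → S}
  {Ec : SGr σ J 1 → (C(SGr σ J 1, ℂ) →⋆ₐ[ℂ] (K →L[ℂ] K))}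
  {F : SGr σ J r → (C(SGr σ J r, ℂ) →⋆ₐ[ℂ] (K →L[ℂ] K))}

/-- the record of the incidence of points -/
theorem pts_of (hG : P092.CL.Geo L) (hIn : L.In = Inc)
    (hact : ∀ (g : S) (x : SGr σ J 1), g • x = φ g • x)
    (h : P092.CL.LegComm L 𝒰 ι π lam W Ω m q Ec F) : Pts φ ι π lam W Ω q Ec F where
  pic := h.leg.base.pic
  sur := h.leg.base.adm.sur
  moore x y := by
    refine h.leg.base.adm.moore _ fun C => ?_
    obtain ⟨g, h1, h2, h3⟩ := hG.unb1 x y C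
    exact ⟨g, ⟨by rw [← hact]; exact h1, by rw [← hact]; exact h2⟩, h3⟩
  prox z D hD hc U hU hne := by
    obtain ⟨γ, hγ⟩ := h.leg.base.prox1 z D hD (fun y hy l h1 h2 => by
      rw [hIn] at h1 h2
      exact hc y hy (col_of_inc h1 h2)) U hU hne
    exact ⟨γ, fun y hy => by rw [← hact]; exact hγ y hy⟩
  cm := h.leg.e.cm
  cov γ c f := by
    rw [h.leg.e.cov]
    congr 1
    ext y
    change f ((q γ)⁻¹ • y) = f ((φ (q γ))⁻¹ • y)
    rw [hact, map_inv]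
  pcov g c f := by
    rw [h.leg.e.pcov, hact]
  com := h.com.ee
  pl c l hcl := by
    have := h.leg.pl c l (by rw [hIn]; exact hcl)
    rwa [hIn] at this

end record

/-! ### The full isometry group -/

section full

variable {n : Type} [Fintype n] [DecidableEq n] {k : Type} [NontriviallyNormedField k]
  [ProperSpace k] {σ : k →+* k} {ε : k} {J : Matrix n n k} [Fact (Continuous σ)] {r N : ℕ}
  {V₁ V₂ : Type} [MeasurableSpace V₁] [MeasurableSpace V₂] [NormedAddCommGroup V₁]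
  [NormedAddCommGroup V₂] {L : P092.CL.Lt (FormGroup σ J) (SGr σ J 1) (SGr σ J r) V₁ V₂}
  {𝒰 : Ultrafilter ℕ} {E₀ Γ K : Type} [Group E₀] [TopologicalSpace E₀] [Group Γ]
  [NormedAddCommGroup K] [InnerProductSpace ℂ K] [CompleteSpace K]
  {ι : FormGroup σ J →* E₀} {π : E₀ →* (K →L[ℂ] K)} {lam : Γ →* (K →L[ℂ] K)}
  {W : Set (K →L[ℂ] K)} {Ω : K} {m : Set Γ → (K →L[ℂ] K)} {q : Γ → FormGroup σ J}
  {Ec : SGr σ J 1 → (C(SGr σ J 1, ℂ) →⋆ₐ[ℂ] (K →L[ℂ] K))}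
  {F : SGr σ J r → (C(SGr σ J r, ℂ) →⋆ₐ[ℂ] (K →L[ℂ] K))}

/-- **[CL-CLS]**: THE CLASSICAL LEG OF THE ISOMETRY GROUP OF EVERY FORM (symplectic, unitary,
orthogonal) of Witt index `r ≥ 2`. -/
theorem clsCLw (hG : P092.CL.Geo L) (hIn : L.In = Inc) (e : n ≃ Fin (N + 1)) (hF : Wf σ ε J r)
    (hr : 2 ≤ r) (h : P092.CL.LegComm L 𝒰 ι π lam W Ω m q Ec F) :
    ∃ (τ : k →+* k) (Q : C₀(PG k (N + 1), ℂ) →⋆ₙₐ[ℂ] (K →L[ℂ] K)),
      ClsF (pt e) (rho e σ J) ι π lam W (fun γ => rho e σ J (q γ)) (EP e Ec) τ Q := by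
  letI : MeasurableSpace (SGr σ J 1) := borel _
  haveI : BorelSpace (SGr σ J 1) := ⟨rfl⟩
  haveI : Nontrivial K := ⟨Ω, 0, fun h' => by
    have := h.leg.base.pic.nΩ
    rw [h', norm_zero] at this
    exact zero_ne_one this⟩
  have hφ : ∀ g : FormGroup σ J, g.1 ∈ EU σ ε J → ∃ s, MonoidHom.id (FormGroup σ J) s = g :=
    fun g _ => ⟨g, rfl⟩
  have hP : Pts (MonoidHom.id (FormGroup σ J)) ι π lam W Ω q Ec F :=
    pts_of hG hIn (fun _ _ => rfl) h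
  have hτ : ∃ τ : k →+* k, ∀ x y, IsoP σ (Je e J) x y → ∀ s,
      Cr (pt e : SGr σ J 1 → _) (EP e Ec) (qv x y s) (τ s) :=
    tau_of hF.fo hF.wi hr hF.fm hF.wi.2 e e hP.pic.erg
      (fun R hR => H416.CL.moore_of hG h.leg.base.adm hR) hP.com hP.cm
      (fun γ a f f' hf => by
        rw [hP.cov]
        congr 1
        ext y
        exact (hf y).symm)
      (fun g a f => hP.pcov g a f) (hP.exa hF.fo hφ Fact.out hr L.m0)
  exact hP.clsF hF hφ hr L.m0 e hτ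

/-- **[CL-CLS]** for forms with skew scalars -/
theorem clsCL (hG : P092.CL.Geo L) (hIn : L.In = Inc) (e : n ≃ Fin (N + 1)) (hF : Frm σ ε J)
    (hW : WI σ J r) (hr : 2 ≤ r) (h : P092.CL.LegComm L 𝒰 ι π lam W Ω m q Ec F) :
    ∃ (τ : k →+* k) (Q : C₀(PG k (N + 1), ℂ) →⋆ₙₐ[ℂ] (K →L[ℂ] K)),
      ClsF (pt e) (rho e σ J) ι π lam W (fun γ => rho e σ J (q γ)) (EP e Ec) τ Q :=
  clsCLw hG hIn e (hF.wf hW) hr h

end full

end Vale.Agent.P092.H416.CLG
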