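import Vale.Agent.P092.H416.CLmo

/-!
P092 (helper416), [CLO-CLS]: helper375's record `PL` (H375/P3/GeoE.lean) for a source group `S`
with `φ : S →* FormGroup σS JS` whose range contains the Eichler elements; the classical leg of
`S`.
-/

set_option linter.all false

namespace Vale.Agent.P092.H416.CLG

open Vale.Agent.P092.H303 (FormGroup)
open Vale.Agent.P092.H714.Cl
open Vale.Agent.P092.H714.Sg (Fm)
open Vale.Agent.P092.H370.Po
open Vale.Agent.P092.H370.Fo (Fo Wf ptv ptv_S exists_ptv col_ptv EU_le EU ei ei_mem EP ei_mem_EU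
  vecMul_ei)
open Vale.Agent.P092.H375.P3
open Vale.Agent.P092.H416.CL hiding pts_of Pts
open Vale.Agent.P092.H820 Vale.Agent.P092.H466
open Vale.Agent.P092.H171 (co exists_joint)
open Vale.Agent.P092.H375.X2 (Jf)
open Vale.Agent.P092.RC (Cm Moore)
open TopologicalSpace Set Matrix Module Filter Topology MeasureTheory
open scoped LinearAlgebra.Projectivization Matrix InnerProductSpace

section top

variable {n : Type} [Fintype n] [DecidableEq n] {k : Type} [NontriviallyNormedField k]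
  {σ : k →+* k} {ε : k} {J : Matrix n n k}

/-- **the pointwise stabiliser of an isotropic line is unbounded** -/
theorem unb2e (hF : Fm σ ε J) {x y : n → k} (h : IsoP σ J x y) (C : ℝ) :
    ∃ g : FormGroup σ J, g.1 ∈ EU σ ε J ∧
      (∀ v ∈ Submodule.span k {x, y}, v ᵥ* g.1.1 = v) ∧ ∃ i j, C ≤ ‖g.1.1 i j‖ := by
  obtain ⟨r, hr1⟩ := NormedField.exists_one_lt_norm k
  obtain ⟨w, hw, hxw, hyw⟩ := h.partner hF
  have hwx : hf σ J w x = ε := H370.Fo.Fm.swap1 hF hxw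
  have hwy : hf σ J w y = 0 := hF.symm0 hyw
  have hyx : hf σ J y x = 0 := hF.symm0 h.xy
  obtain ⟨i, hi⟩ := Function.ne_iff.1 h.y0
  have hE : ∀ t : k, EP σ ε J x (t • y) 0 := fun t =>
    { uu := h.xx
      vu := by rw [hf_smul_left, hyx, mul_zero]
      vv := by
        rw [hf_smul_left, hf_smul_right, h.yy, map_zero, mul_zero, mul_zero, mul_zero, add_zero,
          add_zero] }
  let g : ℕ → FormGroup σ J := fun N => ⟨ei σ ε J x (r ^ N • y) 0, ei_mem hF (hE _)⟩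
  have hfix : ∀ N, ∀ v ∈ Submodule.span k {x, y}, v ᵥ* (g N).1.1 = v := by
    intro N v hv
    obtain ⟨a, b, rfl⟩ := Submodule.mem_span_pair.1 hv
    change _ ᵥ* (ei σ ε J x (r ^ N • y) 0).1 = _
    rw [vecMul_ei hF (hE _)]
    simp only [hf_add_left, hf_smul_left, hf_smul_right, h.xx, h.xy, h.yy, hyx, mul_zero,
      add_zero, zero_smul, sub_zero, zero_mul]
  have hval : ∀ N, (w ᵥ* (g N).1.1) i = w i + r ^ N * (ε * y i) := by
    intro N
    change (w ᵥ* (ei σ ε J x (r ^ N • y) 0).1) i = _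
    rw [vecMul_ei hF (hE _), hwx, hf_smul_right, hwy]
    simp only [Pi.add_apply, Pi.sub_apply, Pi.smul_apply, smul_eq_mul]
    ring
  have ht : Tendsto (fun N => ‖(w ᵥ* (g N).1.1) i‖) atTop atTop := by
    have h1 : Tendsto (fun N : ℕ => ‖r‖ ^ N * ‖ε * y i‖ - ‖w i‖) atTop atTop := by
      refine tendsto_atTop_add_const_right _ _ ?_
      refine (tendsto_pow_atTop_atTop_of_one_lt hr1).atTop_mul_const (norm_pos_iff.2 ?_)
      exact mul_ne_zero (H370.Fo.Fm.eps_ne hF) hi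
    refine tendsto_atTop_mono (fun N => ?_) h1
    rw [hval, ← norm_pow, ← norm_mul]
    have := norm_sub_norm_le (r ^ N * (ε * y i)) (-w i)
    rw [norm_neg, sub_neg_eq_add, add_comm] at this
    exact this
  obtain ⟨m, hm⟩ := (ht.eventually_gt_atTop (∑ j, ‖w j‖ * C)).exists
  refine ⟨g m, ei_mem_EU (hE _), hfix m, ?_⟩
  by_contra hcon
  push Not at hcon
  apply absurd hm
  rw [not_lt]
  calc ‖(w ᵥ* (g m).1.1) i‖ = ‖∑ j, w j * (g m).1.1 j i‖ := rfl
    _ ≤ ∑ j, ‖w j * (g m).1.1 j i‖ := norm_sum_le _ _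
    _ ≤ ∑ j, ‖w j‖ * C := by
      refine Finset.sum_le_sum fun j _ => ?_
      rw [norm_mul]
      exact mul_le_mul_of_nonneg_left (hcon j i).le (norm_nonneg _)

end top

section main

variable {n n' : Type} [Fintype n] [DecidableEq n] [Fintype n'] [DecidableEq n']
  {kS k : Type} [NontriviallyNormedField kS] [NontriviallyNormedField k] [ProperSpace k]
  {σS : kS →+* kS} {εS : kS} {JS : Matrix n n kS} {σ : k →+* k} {ε : k} {J : Matrix n' n' k}
  [Fact (Continuous σ)] [MeasurableSpace (SGr σ J 1)] [BorelSpace (SGr σ J 1)] {K : Type}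
  [NormedAddCommGroup K] [InnerProductSpace ℂ K] [CompleteSpace K] {N : ℕ} {E₀ Γ : Type}
  [Group E₀] [TopologicalSpace E₀] [Group Γ]
  {E : SGr σS JS 1 → (C(SGr σ J 1, ℂ) →⋆ₐ[ℂ] (K →L[ℂ] K))}
  {S : Type} [Group S] {φ : S →* FormGroup σS JS} {ι : S →* E₀} {π : E₀ →* (K →L[ℂ] K)} {lam : Γ →* (K →L[ℂ] K)}
  {W : Set (K →L[ℂ] K)} {q : Γ → FormGroup σ J}

/-- **[CL-PL]**, any source group -/
theorem pl_phi (hφ : ∀ g : FormGroup σS JS, g.1 ∈ EU σS εS JS → ∃ s, φ s = g) {r : ℕ} (hF : Fo σS εS JS) (hr : WI σS JS r) (hF' : Fm σ ε J)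
    (hr' : ∀ Y, Sing σ J Y → finrank k Y ≤ r) (eS : n ≃ Fin (N + 1)) (e : n' ≃ Fin (N + 1))
    {x₀ y₀ : n → kS} (h₀ : IsoP σS JS x₀ y₀)
    (erg : ∀ R : Set E₀, Moore R → ∀ T, Cm W T → (∀ γ, T * lam γ = lam γ * T) →
      (∀ g ∈ R, T * π g = π g * T) → ∃ z : ℂ, T = z • (1 : K →L[ℂ] K))
    (moore : ∀ R : Set S, (∀ C : ℝ, ∃ g ∈ R, ∃ i j, C ≤ ‖(φ g).1.1 i j‖) → Moore (ι '' R))
    (com : ∀ a b f g, Commute (E a f) (E b g)) (cm : ∀ a f, Cm W (E a f))
    (cov : ∀ γ a (f f' : C(SGr σ J 1, ℂ)), (∀ y, f' y = f ((q γ)⁻¹ • y)) →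
      lam γ * E a f * lam γ⁻¹ = E a f')
    (pcov : ∀ g a f, π (ι g) * E a f * π (ι g)⁻¹ = E (φ g • a) f) (hE : Exa E) :
    PL (pt eS : SGr σS JS 1 → _) (IsoP σS (Je eS JS)) (cor eS x₀) (cor eS y₀)
      ((rhoP eS σS JS).comp φ)
      (π.comp ι) lam W (fun γ => rhoG e σ J (q γ)) (EP e E) where
  ptinj := pt_inj eS
  com a b f g := com a b _ _
  cm a f := cm a _
  cov γ a f := by
    refine cov γ a _ _ fun y => ?_
    change f ((rhoG e σ J (q γ))⁻¹ • pt e y) = f (pt e ((q γ)⁻¹ • y))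
    rw [rhoG_inv, rhoG_smul, pt_smul]
  stab g a := ⟨φ g • a, by rw [pt_smul, MonoidHom.comp_apply, rhoP_smul]⟩
  pcov g a b hb f := by
    have e1 : b = φ g • a := pt_inj eS (by
      rw [hb, pt_smul, MonoidHom.comp_apply, rhoP_smul])
    rw [e1]
    have h2 := pcov g a (f.comp (ptC e σ J))
    rw [← map_inv] at h2
    exact h2
  li x y h := h.li
  onl x y h v hv hvs := by
    have h' : IsoP σS JS (roc eS x) (roc eS y) := by
      rw [← isoP_cor eS, cor_roc, cor_roc]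
      exact h
    refine pv_iso eS hv ?_
    obtain ⟨a, b, rfl⟩ := Submodule.mem_span_pair.1 hvs
    have hyx : hf σS (Je eS JS) y x = 0 := by
      rw [← cor_roc eS x, ← cor_roc eS y, hf_cor]
      exact hF.fm.symm0 h'.xy
    simp only [hf_add_left, hf_add_right, hf_smul_left, hf_smul_right, h.xx, h.yy, h.xy, hyx,
      mul_zero, add_zero]
  dst x y h a b hab ha hb Φ hΦ ξ := by
    obtain ⟨Ψ, hΨ⟩ := exists_joint (fun t : Fin 2 => E (![a, b] t)) fun s t f g => com _ _ f g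
    refine (ae_EP e hΦ hΨ ξ).2 ?_
    filter_upwards [hE.dst hF.fm com hab hΨ ξ] with z hz he
    exact hz (pt_inj e he)
  col x y h a b c hab hac hbc ha hb hc Φ hΦ ξ := by
    obtain ⟨Ψ, hΨ⟩ := exists_joint (fun t : Fin 3 => E (![a, b, c] t)) fun s t f g => com _ _ f g
    refine (ae_EP e hΦ hΨ ξ).2 ?_
    have h' : IsoP σS JS (roc eS x) (roc eS y) := by
      rw [← isoP_cor eS, cor_roc, cor_roc]
      exact h
    rw [← cor_roc eS x, ← cor_roc eS y] at ha hb hc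
    have ha' := pt_span eS a ha
    have hb' := pt_span eS b hb
    have hc' := pt_span eS c hc
    have hcol : Col a b := by
      intro u hu v hv
      obtain ⟨s, t, rfl⟩ := Submodule.mem_span_pair.1 (ha' hu)
      obtain ⟨s', t', rfl⟩ := Submodule.mem_span_pair.1 (hb' hv)
      simp only [hf_add_left, hf_add_right, hf_smul_left, hf_smul_right, h'.xx, h'.yy, h'.xy,
        hF.fm.symm0 h'.xy, mul_zero, add_zero]
    have hl : c.S ≤ a.S ⊔ b.S := by
      rw [← span_pts hab ha' hb']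
      exact hc'
    filter_upwards [hE.col hF hr hF' hr' e com hab hcol hl hΨ ξ] with z hz
    exact (pt_le e).2 hz
  erg x y h T h1 h2 h3 := by
    have h' : IsoP σS JS (roc eS x) (roc eS y) := by
      rw [← isoP_cor eS, cor_roc, cor_roc]
      exact h
    let R : Set S :=
      {g | ∀ v ∈ Submodule.span kS {roc eS x, roc eS y}, v ᵥ* (φ g).1.1 = v}
    refine erg (ι '' R) (moore R fun C => ?_) T h1 h2 ?_
    · obtain ⟨g, hgE, hg, i, j, hij⟩ := unb2e hF.fm h' C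
      obtain ⟨s, rfl⟩ := hφ g hgE
      exact ⟨s, hg, i, j, hij⟩
    · rintro _ ⟨g, hg, rfl⟩
      refine h3 g fun a ha => ?_
      -- `g` fixes the points of the line
      obtain ⟨v, hv⟩ := exists_pv a
      have hvm : v ∈ Submodule.span kS {x, y} := ha (by
        rw [hv.sub]
        exact Submodule.mem_span_singleton_self v)
      have hrv : roc eS v ∈ Submodule.span kS {roc eS x, roc eS y} := by
        obtain ⟨s, t, rfl⟩ := Submodule.mem_span_pair.1 hvm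
        exact Submodule.mem_span_pair.2 ⟨s, t, rfl⟩
      obtain ⟨hv0, rfl⟩ := hv
      have h4 : (rho eS σS JS (φ g)).1 *ᵥ v = v := by
        have h5 := rho_cor eS (φ g) (roc eS v)
        rw [cor_roc] at h5
        rw [h5]
        have h6 : roc eS v ᵥ* ((φ g).1⁻¹).1 = roc eS v := by
          conv_lhs => rw [← hg _ hrv]
          exact vecMul_cancel_inv _ _
        rw [h6, cor_roc]
      rw [MonoidHom.comp_apply, rhoP_smul]
      change pj kS (Fin (N + 1)) ⟨(rho eS σS JS (φ g)).1 *ᵥ v, _⟩ = _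
      congr 1
      exact Subtype.ext h4
  tr x y h := by
    have h' : IsoP σS JS (roc eS x) (roc eS y) := by
      rw [← isoP_cor eS, cor_roc, cor_roc]
      exact h
    obtain ⟨g, hg, a, b, ha, hb, h1, h2⟩ := tr2 hF h' h₀
    have hgF := EU_le hF.fm hg
    obtain ⟨s, hs⟩ := hφ (⟨g, hgF⟩⁻¹) (inv_mem hg)
    refine ⟨s, rhoG eS σS JS (⟨g, hgF⟩⁻¹), a, b, by rw [MonoidHom.comp_apply, hs]; rfl,
      ha, hb, ?_, ?_⟩
    · conv_lhs => rw [← cor_roc eS x]
      rw [rhoG_cor, ← cor_smul]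
      exact congrArg (cor eS) h1
    · conv_lhs => rw [← cor_roc eS y]
      rw [rhoG_cor, ← cor_smul]
      exact congrArg (cor eS) h2
  base := (isoP_cor eS).2 h₀
  sl A := by
    obtain ⟨g, hg, h1, h2⟩ := sl2 hF.fm h₀ A
    have hgF := EU_le hF.fm hg
    obtain ⟨s, hs⟩ := hφ (⟨g, hgF⟩⁻¹) (inv_mem hg)
    refine ⟨s, rhoG eS σS JS (⟨g, hgF⟩⁻¹), by rw [MonoidHom.comp_apply, hs]; rfl, ?_, ?_⟩
    · rw [rhoG_cor, ← cor_smul, ← cor_smul, ← cor_add]
      exact congrArg (cor eS) h1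
    · rw [rhoG_cor, ← cor_smul, ← cor_smul, ← cor_add]
      exact congrArg (cor eS) h2

/-- **the homomorphism of fields** -/
theorem tau_phi [Nontrivial K]
    (hφ : ∀ g : FormGroup σS JS, g.1 ∈ EU σS εS JS → ∃ s, φ s = g) {r : ℕ} (hF : Fo σS εS JS) (hr : WI σS JS r) (hr2 : 2 ≤ r)
    (hF' : Fm σ ε J) (hr' : ∀ Y, Sing σ J Y → finrank k Y ≤ r) (eS : n ≃ Fin (N + 1))
    (e : n' ≃ Fin (N + 1))
    (erg : ∀ R : Set E₀, Moore R → ∀ T, Cm W T → (∀ γ, T * lam γ = lam γ * T) →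
      (∀ g ∈ R, T * π g = π g * T) → ∃ z : ℂ, T = z • (1 : K →L[ℂ] K))
    (moore : ∀ R : Set S, (∀ C : ℝ, ∃ g ∈ R, ∃ i j, C ≤ ‖(φ g).1.1 i j‖) → Moore (ι '' R))
    (com : ∀ a b f g, Commute (E a f) (E b g)) (cm : ∀ a f, Cm W (E a f))
    (cov : ∀ γ a (f f' : C(SGr σ J 1, ℂ)), (∀ y, f' y = f ((q γ)⁻¹ • y)) →
      lam γ * E a f * lam γ⁻¹ = E a f')
    (pcov : ∀ g a f, π (ι g) * E a f * π (ι g)⁻¹ = E (φ g • a) f) (hE : Exa E) :
    ∃ τ : kS →+* k, ∀ x y, IsoP σS (Je eS JS) x y → ∀ s,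
      Cr (pt eS : SGr σS JS 1 → _) (EP e E) (qv x y s) (τ s) := by
  obtain ⟨Y, hY, hYd⟩ := hr.1
  obtain ⟨Z, hZY, hZ⟩ := exists_sub (Y := Y) (j := 2) (hr2.trans_eq hYd.symm)
  obtain ⟨b⟩ : Nonempty (Basis (Fin 2) kS Z) := ⟨finBasisOfFinrankEq kS Z hZ⟩
  have h₀ : IsoP σS JS (b 0).1 (b 1).1 := by
    refine ⟨hY _ (hZY (b 0).2) _ (hZY (b 0).2), hY _ (hZY (b 1).2) _ (hZY (b 1).2),
      hY _ (hZY (b 0).2) _ (hZY (b 1).2), ?_⟩
    have h1 : LinearIndependent kS fun i : Fin 2 => (b i : n → kS) :=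
      b.linearIndependent.map' Z.subtype (Submodule.ker_subtype Z)
    have h2 : (fun i : Fin 2 => (b i : n → kS)) = ![(b 0).1, (b 1).1] := by
      funext i
      fin_cases i <;> rfl
    rwa [h2] at h1
  exact (pl_phi hφ hF hr hF' hr' eS e h₀ erg moore com cm cov pcov hE).tau

end main

/-! ### The classical leg -/

section clsG

open Vale.Agent.P092.H325.SX (ClsF)
open Vale.Agent.P092.H789 (PG)
open scoped ZeroAtInfty

variable {n : Type} [Fintype n] [DecidableEq n] {k : Type} [NontriviallyNormedField k]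
  [ProperSpace k] {σ : k →+* k} {ε : k} {J : Matrix n n k} [Fact (Continuous σ)] {r N : ℕ}
  {V₁ V₂ : Type} [MeasurableSpace V₁] [MeasurableSpace V₂] [NormedAddCommGroup V₁]
  [NormedAddCommGroup V₂] {S : Type} [Group S] [TopologicalSpace S]
  [MulAction S (SGr σ J 1)] [ContinuousConstSMul S (SGr σ J 1)] [MulAction S (SGr σ J r)]
  [ContinuousConstSMul S (SGr σ J r)]
  {L : P092.CL.Lt S (SGr σ J 1) (SGr σ J r) V₁ V₂} {φ : S →* FormGroup σ J}
  {𝒰 : Ultrafilter ℕ} {E₀ Γ K : Type} [Group E₀] [TopologicalSpace E₀] [Group Γ]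
  [NormedAddCommGroup K] [InnerProductSpace ℂ K] [CompleteSpace K]
  {ι : S →* E₀} {π : E₀ →* (K →L[ℂ] K)} {lam : Γ →* (K →L[ℂ] K)}
  {W : Set (K →L[ℂ] K)} {Ω : K} {m : Set Γ → (K →L[ℂ] K)} {q : Γ → S}
  {Ec : SGr σ J 1 → (C(SGr σ J 1, ℂ) →⋆ₐ[ℂ] (K →L[ℂ] K))}
  {F : SGr σ J r → (C(SGr σ J r, ℂ) →⋆ₐ[ℂ] (K →L[ℂ] K))}

/-- **[CLO-CLS]**: THE CLASSICAL LEG OF EVERY GROUP BETWEEN `EU` AND THE ISOMETRY GROUP, every form
of Witt index `r ≥ 2`. -/
theorem clsG (hG : P092.CL.Geo L) (hIn : L.In = Inc) (hφc : Continuous φ)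
    (hφ : ∀ g : FormGroup σ J, g.1 ∈ EU σ ε J → ∃ s, φ s = g)
    (hact : ∀ (g : S) (x : SGr σ J 1), g • x = φ g • x) (e : n ≃ Fin (N + 1)) (hF : Wf σ ε J r)
    (hr : 2 ≤ r) (h : P092.CL.LegComm L 𝒰 ι π lam W Ω m q Ec F) :
    ∃ (τ : k →+* k) (Q : C₀(PG k (N + 1), ℂ) →⋆ₙₐ[ℂ] (K →L[ℂ] K)),
      ClsF (pt e) ((rho e σ J).comp φ) ι π lam W (fun γ => rho e σ J (φ (q γ))) (EP e Ec) τ Q := by
  letI : MeasurableSpace (SGr σ J 1) := borel _
  haveI : BorelSpace (SGr σ J 1) := ⟨rfl⟩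
  haveI : Nontrivial K := ⟨Ω, 0, fun h' => by
    have := h.leg.base.pic.nΩ
    rw [h', norm_zero] at this
    exact zero_ne_one this⟩
  have hP : CLG.Pts φ ι π lam W Ω q Ec F := CLG.pts_of hG hIn hact h
  have hτ : ∃ τ : k →+* k, ∀ x y, IsoP σ (Je e J) x y → ∀ s,
      Cr (pt e : SGr σ J 1 → _) (H416.CL.EP e Ec) (qv x y s) (τ s) :=
    tau_phi hφ hF.fo hF.wi hr hF.fm hF.wi.2 e e hP.pic.erg
      (fun R hR => moore_gen hG h.leg.base.adm hφc hR) hP.com hP.cm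
      (q := fun γ => φ (q γ))
      (fun γ a f f' hf => by
        rw [hP.cov]
        congr 1
        ext y
        exact (hf y).symm)
      (fun g a f => hP.pcov g a f) (hP.exa hF.fo hφ Fact.out hr L.m0)
  exact hP.clsF hF hφ hr L.m0 e hτ

end clsG

end Vale.Agent.P092.H416.CLG
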