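import Vale.Agent.P092.H437.O.Cnt0
import Vale.Agent.P092.H589.P2e
import Vale.Agent.P092.CL.LtO
import Vale.Agent.P092.H541.CL.KC

/-!
P092 (helper416), stage CL-O: the count of `KEY_0` for the orthogonal letters `ltO`, in the two
literals `H437.O.Cnt0` and `H541.CLF.Cnt0S`.
-/

set_option linter.all false

namespace Vale.Agent.P092.H416.CnO

open Vale.Agent.P092.H303 (FormGroup Idx hyp)
open Vale.Agent.P092.H714.Cl (hf)
open Vale.Agent.P092.H370.Po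
open Vale.Agent.P092.H437 (P2.Cnt0 O.Cnt0 O.down O.down_br O.down_ud O.cnt0_of_down)
open Vale.Agent.P092.CL (Lt EUF OF ltO)
open Vale.Agent.P092.H541.CLF (Cnt0S NABrS)
open Matrix Set MeasureTheory
open scoped InnerProductSpace LinearAlgebra.Projectivization Matrix

section gen

variable {n : Type} [Fintype n] [DecidableEq n] {k : Type} [NontriviallyNormedField k]
  [ProperSpace k] {σ : k →+* k} {J : Matrix n n k} {r : ℕ} {V₁ V₂ : Type}
  [MeasurableSpace V₁] [MeasurableSpace V₂] {S : Type} [Group S]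
  [MulAction S (SGr σ J 1)] [ContinuousConstSMul S (SGr σ J 1)] {M : Type} [TopologicalSpace M]
  [CompactSpace M] [MulAction S M] [ContinuousConstSMul S M] [TopologicalSpace S]
  {Γ K : Type} [NormedAddCommGroup K] [InnerProductSpace ℂ K] [CompleteSpace K]

/-- transfer of the count along `φ : S →* FormGroup σ J`, literal of helper541 -/
theorem cnt0S_phi [Fact (Continuous σ)] {L : Lt S (SGr σ J 1) M V₁ V₂}
    {L' : Lt (FormGroup σ J) (SGr σ J 1) (SGr σ J r) V₁ V₂} (φ : S →* FormGroup σ J)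
    (hnm : ∀ g, L.nm g = L'.nm (φ g))
    (hna : ∀ g R T A, g ∈ L.NA1 R T A → φ g ∈ L'.NA1 R T A) {q : Γ → S}
    (h : H437.P2.Cnt0 L' (fun γ => φ (q γ)) K) : Cnt0S φ L q K := by
  intro b z l ν hbν hzν hzl hbl a f ha hfl A hA hopp R
  obtain ⟨T, hT, C, d, h3⟩ := h b z l ν hbν hzν hzl hbl a f ha hfl A hA hopp R
  refine ⟨T, hT, C, d, fun j hj F hF ξ => h3 j hj F (fun γ hγ => ⟨hna _ _ _ _ (hF γ hγ).1, ?_⟩) ξ⟩
  have h4 := (hF γ hγ).2
  rwa [hnm] at h4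

end gen

section lt_

variable {k : Type} [NontriviallyNormedField k] [ProperSpace k] [IsUltrametricDist k]
  [MeasurableSpace k] {ι : Type} [Fintype ι] [DecidableEq ι] {s N : ℕ} {J₀ : Matrix ι ι k}
  [Fact (Continuous (RingHom.id k))] {Γ K : Type} [NormedAddCommGroup K] [InnerProductSpace ℂ K]
  [CompleteSpace K]

theorem nm_ltO (h : OF J₀) {a : k} (ha : a ≠ 0) (μ₁ : Measure k) (μ₂ : Measure (ι → k))
    (g : EUF (RingHom.id k) 1 (hyp (s + 2) 1 J₀)) : (ltO h s ha μ₁ μ₂).nm g =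
      ‖(fun i j => (((Subgroup.subtype _ : EUF (RingHom.id k) 1 (hyp (s + 2) 1 J₀) →* _)
        g).1⁻¹).1ᵀ i j : Idx (s + 2) ι → Idx (s + 2) ι → k)‖ := rfl

/-- the count over the isometry group for the record pushed down -/
theorem cnt0_down (h : OF J₀) {a : k} (ha : a ≠ 0) (μ₁ : Measure k) (μ₂ : Measure (ι → k))
    {q : Γ → EUF (RingHom.id k) 1 (hyp (s + 2) 1 J₀)} (hud : (ltO h s ha μ₁ μ₂).UD q) :
    H437.P2.Cnt0 (H437.O.down (ltO h s ha μ₁ μ₂) (Subgroup.subtype _))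
      (fun γ => (Subgroup.subtype _ : EUF (RingHom.id k) 1 (hyp (s + 2) 1 J₀) →* _) (q γ)) K := by
  classical
  obtain ⟨N, hN⟩ : ∃ N, Fintype.card (Idx (s + 2) ι) = N + 1 := by
    haveI : Nonempty (Idx (s + 2) ι) := ⟨Sum.inl (Sum.inl 0)⟩
    exact ⟨Fintype.card (Idx (s + 2) ι) - 1, (Nat.succ_pred_eq_of_pos Fintype.card_pos).symm⟩
  have hF := h.fm s
  exact H589.P2.cnt0_of_nabr (ε := 1) hF.herm hF.eps hF.nondeg (fun x => rfl)
    (Fintype.equivFinOfCardEq hN) (H437.O.down_br _ _ _) (H437.O.down_ud (nm_ltO h ha μ₁ μ₂) hud)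

/-- **[CNT0] for `ltO`**, literal `H437.O.Cnt0` -/
theorem cnt0_ltO (h : OF J₀) {a : k} (ha : a ≠ 0) (μ₁ : Measure k) (μ₂ : Measure (ι → k))
    {q : Γ → EUF (RingHom.id k) 1 (hyp (s + 2) 1 J₀)} (hud : (ltO h s ha μ₁ μ₂).UD q) :
    H437.O.Cnt0 (ltO h s ha μ₁ μ₂) q K :=
  H437.O.cnt0_of_down (Subgroup.subtype _) (fun _ _ => rfl) (fun _ _ => rfl)
    (nm_ltO h ha μ₁ μ₂) (fun R T B g hg i i' j j' => hg.1 i i' j j') (fun R T B g hg => hg.2)
    (cnt0_down h ha μ₁ μ₂ hud)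

/-- **[CNT0] for `ltO`**, literal `H541.CLF.Cnt0S` -/
theorem cnt0S_ltO (h : OF J₀) {a : k} (ha : a ≠ 0) (μ₁ : Measure k) (μ₂ : Measure (ι → k))
    {q : Γ → EUF (RingHom.id k) 1 (hyp (s + 2) 1 J₀)} (hud : (ltO h s ha μ₁ μ₂).UD q) :
    Cnt0S (Subgroup.subtype _) (ltO h s ha μ₁ μ₂) q K :=
  cnt0S_phi (L' := H437.O.down (ltO h s ha μ₁ μ₂) (Subgroup.subtype _)) _
    (nm_ltO h ha μ₁ μ₂) (fun g R T A hg => ⟨hg.1, hg.2⟩) (cnt0_down h ha μ₁ μ₂ hud)

/-- the bridge `NABrS` for `ltO` -/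
theorem nabrS_ltO (h : OF J₀) {a : k} (ha : a ≠ 0) (μ₁ : Measure k) (μ₂ : Measure (ι → k))
    (e : Idx (s + 2) ι ≃ Fin (N + 1)) :
    NABrS e (Subgroup.subtype _) (ltO h s ha μ₁ μ₂) where
  nm g := H589.P2.nm_rho e g.1
  nw g R T A hg i i' l l' := by
    have h1 := H589.P2.nm_rho e g.1
    change ‖_‖ ≤ R * SN.nm (H416.CL.rho e (RingHom.id k) _ g.1)
    rw [← h1]
    exact hg.1 _ _ _ _
  att g R T A hg := H589.P2.att_rho e hg.2

end lt_

end Vale.Agent.P092.H416.CnO
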