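import Vale.Agent.P092.H416.MtB

/-!
P092 (helper416), [P-CLS]: the incidence of two commuting points from operator statements: supports
(perpendicular points) and the zero-one law (opposite points).
-/

set_option linter.all false

namespace Vale.Agent.P092.H416

open Vale.Agent.P092.H820 Vale.Agent.P092.H466 Vale.Agent.P092.H171 Vale.Agent.P092.H375.Cls
open Vale.Agent.P092.H789 (PG)
open TopologicalSpace Set MeasureTheory Matrix Module
open scoped LinearAlgebra.Projectivization Matrix InnerProductSpace ZeroAtInfty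

section supp

theorem exists_exact {X : Type*} [TopologicalSpace X] [MetrizableSpace X] {U : Set X}
    (hU : IsOpen U) : ∃ f : C(X, ℝ), (∀ x, 0 ≤ f x) ∧ ∀ x, f x ≠ 0 ↔ x ∈ U := by
  letI := metrizableSpaceMetric X
  by_cases h : Uᶜ = ∅
  · refine ⟨1, fun _ => zero_le_one, fun x => ?_⟩
    have hx : x ∈ U := by
      rw [compl_empty_iff] at h
      rw [h]
      exact mem_univ x
    simp [hx]
  · refine ⟨⟨fun x => Metric.infDist x Uᶜ, Metric.continuous_infDist_pt _⟩,
      fun x => Metric.infDist_nonneg, fun x => ?_⟩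
    have h1 := hU.isClosed_compl.mem_iff_infDist_zero (x := x) (nonempty_iff_ne_empty.2 h)
    change Metric.infDist x Uᶜ ≠ 0 ↔ _
    rw [ne_eq, ← h1, mem_compl_iff, not_not]

variable {P : Type*} [TopologicalSpace P] [CompactSpace P] [MetrizableSpace P]
  [SecondCountableTopology P] [MeasurableSpace P] [BorelSpace P]
  {K : Type*} [NormedAddCommGroup K] [InnerProductSpace ℂ K] [CompleteSpace K]

/-- products of commuting calculi which vanish off a closed relation: the joint law lives on the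
relation -/
theorem ae_of_supp {I : Set (P × P)} (hI : IsClosed I) {φ ψ : C(P, ℂ) →⋆ₐ[ℂ] (K →L[ℂ] K)}
    (h : ∀ f g : C(P, ℂ), (∀ x ∈ tsupport f, ∀ y ∈ tsupport g, (x, y) ∉ I) → φ f * ψ g = 0)
    (Φ : C(Fin 2 → P, ℂ) →⋆ₐ[ℂ] (K →L[ℂ] K)) (h0 : ∀ f, Φ (co 0 f) = φ f)
    (h1 : ∀ f, Φ (co 1 f) = ψ f) (ξ : K) : ∀ᵐ z ∂(ms Φ ξ), (z 0, z 1) ∈ I := by
  have key : ∀ U V : Set P, IsOpen U → IsOpen V → closure U ×ˢ closure V ⊆ Iᶜ →
      ∀ᵐ z ∂(ms Φ ξ), ¬ (z 0 ∈ U ∧ z 1 ∈ V) := by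
    intro U V hU hV hUV
    obtain ⟨f, hf0, hf⟩ := exists_exact hU
    obtain ⟨g, hg0, hg⟩ := exists_exact hV
    let F : C(Fin 2 → P, ℝ) := ⟨fun z => f (z 0) * g (z 1), by fun_prop⟩
    have e1 : toC F = co 0 (toC f) * co 1 (toC g) := by
      ext z
      change ((f (z 0) * g (z 1) : ℝ) : ℂ) = (f (z 0) : ℂ) * (g (z 1) : ℂ)
      push_cast
      rfl
    have hfs : tsupport (toC f) ⊆ closure U := by
      refine closure_mono fun x hx => (hf x).1 fun h' => hx ?_
      rw [toC_apply, h', Complex.ofReal_zero]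
    have hgs : tsupport (toC g) ⊆ closure V := by
      refine closure_mono fun x hx => (hg x).1 fun h' => hx ?_
      rw [toC_apply, h', Complex.ofReal_zero]
    have e2 : Φ (toC F) = 0 := by
      rw [e1, map_mul, h0, h1]
      exact h _ _ fun x hx y hy => hUV ⟨hfs hx, hgs hy⟩
    have e3 : ∫ z, F z ∂(ms Φ ξ) = 0 := by
      rw [integral_ms_real, e2]
      simp
    have e4 := (integral_eq_zero_iff_of_nonneg (μ := ms Φ ξ) (f := fun z => F z)
      (fun z => mul_nonneg (hf0 _) (hg0 _))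
      (F.continuous.integrable_of_hasCompactSupport (HasCompactSupport.of_compactSpace _))).1 e3
    filter_upwards [e4] with z hz
    rintro ⟨hz0, hz1⟩
    have h5 : f (z 0) * g (z 1) = 0 := hz
    rcases mul_eq_zero.1 h5 with h6 | h6
    · exact (hf _).2 hz0 h6
    · exact (hg _).2 hz1 h6
  have hall : ∀ᵐ z ∂(ms Φ ξ), ∀ U ∈ countableBasis P, ∀ V ∈ countableBasis P,
      closure U ×ˢ closure V ⊆ Iᶜ → ¬ (z 0 ∈ U ∧ z 1 ∈ V) := by
    refine (ae_ball_iff (countable_countableBasis P)).2 fun U hU => ?_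
    refine (ae_ball_iff (countable_countableBasis P)).2 fun V hV => ?_
    by_cases hUV : closure U ×ˢ closure V ⊆ Iᶜ
    · filter_upwards [key U V (isOpen_of_mem_countableBasis hU) (isOpen_of_mem_countableBasis hV)
        hUV] with z hz _
      exact hz
    · exact Filter.Eventually.of_forall fun z h' => absurd h' hUV
  filter_upwards [hall] with z hz
  by_contra hcon
  obtain ⟨u, v, hu, hv, hzu, hzv, huv⟩ := isOpen_prod_iff.1 hI.isOpen_compl _ _ hcon
  obtain ⟨U, hU, hzU, hUu⟩ :=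
    (isBasis_countableBasis P).exists_closure_subset (hu.mem_nhds hzu)
  obtain ⟨V, hV, hzV, hVv⟩ :=
    (isBasis_countableBasis P).exists_closure_subset (hv.mem_nhds hzv)
  exact hz U hU V hV ((prod_mono hUu hVv).trans huv) ⟨hzU, hzV⟩

/-- the vectors on which the joint calculus lives on a closed relation are zero: almost surely the
relation does not hold -/
theorem ae_not_of_ker {I : Set (P × P)} (hI : IsClosed I) {φ ψ : C(P, ℂ) →⋆ₐ[ℂ] (K →L[ℂ] K)}
    (h : ∀ ζ, (∀ f g : C(P, ℂ), (∀ x ∈ tsupport f, ∀ y ∈ tsupport g, (x, y) ∉ I) →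
      φ f (ψ g ζ) = 0) → ζ = 0)
    (Φ : C(Fin 2 → P, ℂ) →⋆ₐ[ℂ] (K →L[ℂ] K)) (h0 : ∀ f, Φ (co 0 f) = φ f)
    (h1 : ∀ f, Φ (co 1 f) = ψ f) (ξ : K) : ∀ᵐ z ∂(ms Φ ξ), (z 0, z 1) ∉ I := by
  let A : Set (Fin 2 → P) := {z | (z 0, z 1) ∈ I}
  have hA : IsClosed A := hI.preimage (f := fun z : Fin 2 → P => (z 0, z 1)) (by fun_prop)
  refine (pv_eq_zero_iff Φ hA.measurableSet).1 ?_ ξ
  ext ζ
  refine h (pv Φ A ζ) fun f g hfg => ?_
  have e : Φ (co 0 f * co 1 g) * pv Φ A = 0 := by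
    refine phi_pv_zero Φ fun z hz => ?_
    change f (z 0) * g (z 1) = 0
    by_contra hne
    have h3 : f (z 0) ≠ 0 := left_ne_zero_of_mul hne
    have h4 : g (z 1) ≠ 0 := right_ne_zero_of_mul hne
    exact hfg _ (subset_closure h3) _ (subset_closure h4) hz
  rw [map_mul, h0, h1] at e
  exact DFunLike.congr_fun e ζ

end supp

section rel

variable {k : Type} [NontriviallyNormedField k] [ProperSpace k] {n : ℕ}

theorem isClosed_orB (B : LinearMap.BilinForm k (Fin n → k)) :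
    IsClosed {p : ℙ k (Fin n → k) × ℙ k (Fin n → k) | orB B p.1 p.2} := by
  have hq : IsOpenQuotientMap (Prod.map (pj k (Fin n)) (pj k (Fin n))) := pj_oq.prodMap pj_oq
  rw [← hq.isQuotientMap.isClosed_preimage]
  have e : Prod.map (pj k (Fin n)) (pj k (Fin n)) ⁻¹'
      {p : ℙ k (Fin n → k) × ℙ k (Fin n → k) | orB B p.1 p.2} =
      {p | B p.1.1 p.2.1 = 0} := by
    ext p
    exact orB_pj B p.1 p.2
  rw [e]
  have hc : Continuous fun p : (Fin n → k) × (Fin n → k) => B p.1 p.2 := by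
    have e3 : ∀ v : Fin n → k, v = ∑ i, v i • (Pi.single i 1 : Fin n → k) := fun v => by
      funext j
      simp [Pi.single_apply, Finset.sum_apply]
    have h1 : ∀ v w : Fin n → k, B v w = ∑ i, v i * B (Pi.single i 1) w := fun v w => by
      conv_lhs => rw [e3 v]
      rw [map_sum, LinearMap.sum_apply]
      simp only [map_smul, LinearMap.smul_apply, smul_eq_mul]
    have h2 : ∀ (u w : Fin n → k), B u w = ∑ j, w j * B u (Pi.single j 1) := fun u w => by
      conv_lhs => rw [e3 w]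
      rw [map_sum]
      simp only [map_smul, smul_eq_mul]
    have e2 : (fun p : (Fin n → k) × (Fin n → k) => B p.1 p.2) = fun p =>
        ∑ i, p.1 i * ∑ j, p.2 j * B (Pi.single i 1) (Pi.single j 1) := by
      funext p
      rw [h1 p.1 p.2]
      exact Finset.sum_congr rfl fun i _ => by rw [h2]
    rw [e2]
    fun_prop
  exact isClosed_eq (hc.comp (Continuous.prodMk (continuous_subtype_val.comp continuous_fst)
    (continuous_subtype_val.comp continuous_snd))) continuous_const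

end rel

/-! ### The leg of a nondegenerate form -/

section sp

variable {k : Type} [NontriviallyNormedField k] [ProperSpace k] {n : ℕ}
  {S Γ K : Type} [Group S] [Group Γ] [NormedAddCommGroup K] [InnerProductSpace ℂ K]
  [CompleteSpace K]

/-- A leg in which all points commute and which preserves the orthogonality of two points. -/
structure SpLeg (B : LinearMap.BilinForm k (Fin n → k)) (ρ : S →* PG k n) (π : S →* (K →L[ℂ] K))
    (lam : Γ →* (K →L[ℂ] K)) (W : Set (K →L[ℂ] K)) (q : Γ → SpecialLinearGroup (Fin n) k)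
    (E : ℙ k (Fin n → k) → (C(ℙ k (Fin n → k), ℂ) →⋆ₐ[ℂ] (K →L[ℂ] K))) : Prop
    extends PreG ρ π lam W q E where
  /-- perpendicular points stay perpendicular -/
  perp : ∀ a b, orB B a b → ∀ f g : C(ℙ k (Fin n → k), ℂ),
    (∀ x ∈ tsupport f, ∀ y ∈ tsupport g, ¬ orB B x y) → E a f * E b g = 0
  /-- the others stay not perpendicular -/
  opp : ∀ a b, ¬ orB B a b → ∀ ζ, (∀ f g : C(ℙ k (Fin n → k), ℂ),
    (∀ x ∈ tsupport f, ∀ y ∈ tsupport g, ¬ orB B x y) → E a f (E b g ζ) = 0) → ζ = 0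
  /-- the stabiliser of four points on a coordinate line is ergodic -/
  erg : ∀ {i j : Fin n} (hij : i ≠ j) (s : k) (T : K →L[ℂ] K), (∀ w ∈ W, T * w = w * T) →
    (∀ γ, T * lam γ = lam γ * T) →
    (∀ g : S, (∀ x, ρ g • qd hij s x = qd hij s x) → T * π g = π g * T) →
    ∃ c : ℂ, T = c • (1 : K →L[ℂ] K)

variable {B : LinearMap.BilinForm k (Fin n → k)} {ρ : S →* PG k n} {π : S →* (K →L[ℂ] K)}
  {lam : Γ →* (K →L[ℂ] K)} {W : Set (K →L[ℂ] K)} {q : Γ → SpecialLinearGroup (Fin n) k}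
  {E : ℙ k (Fin n → k) → (C(ℙ k (Fin n → k), ℂ) →⋆ₐ[ℂ] (K →L[ℂ] K))}

/-- exact incidence of two points -/
theorem SpLeg.inc (h : SpLeg B ρ π lam W q E) (a b : ℙ k (Fin n → k))
    (Φ : C(Fin 2 → ℙ k (Fin n → k), ℂ) →⋆ₐ[ℂ] (K →L[ℂ] K)) (hΦ : Jn E ![a, b] Φ) (ξ : K) :
    ∀ᵐ z ∂(ms Φ ξ), (orB B (z 0) (z 1) ↔ orB B a b) := by
  by_cases hab : orB B a b
  · filter_upwards [ae_of_supp (isClosed_orB B) (φ := E a) (ψ := E b)
      (fun f g hfg => h.perp a b hab f g hfg) Φ (fun f => hΦ 0 f) (fun f => hΦ 1 f) ξ] with z hz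
    exact ⟨fun _ => hab, fun _ => hz⟩
  · filter_upwards [ae_not_of_ker (isClosed_orB B) (φ := E a) (ψ := E b)
      (fun ζ hζ => h.opp a b hab ζ fun f g hfg => hζ f g hfg) Φ (fun f => hΦ 0 f)
      (fun f => hΦ 1 f) ξ] with z hz
    exact ⟨fun h' => absurd h' hz, fun h' => absurd h' hab⟩

theorem SpLeg.legG (h : SpLeg B ρ π lam W q E) (hB : B.Nondegenerate) :
    LegG ρ π lam W q E where
  toPreG := h.toPreG
  erg := h.erg
  mt a Φ hΦ ξ := mt_of_inc hB h.com h.inc a Φ hΦ ξ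

end sp

section cl

variable {k : Type} [NontriviallyNormedField k] [ProperSpace k] {m : ℕ}
  {S Γ K : Type} [Group S] [Group Γ] [NormedAddCommGroup K] [InnerProductSpace ℂ K]
  [CompleteSpace K] {B : LinearMap.BilinForm k (Fin (m + 1) → k)}
  {ρ : S →* PG k (m + 1)} {π : S →* (K →L[ℂ] K)}
  {lam : Γ →* (K →L[ℂ] K)} {W : Set (K →L[ℂ] K)} {q : Γ → SpecialLinearGroup (Fin (m + 1)) k}
  {E : ℙ k (Fin (m + 1) → k) → (C(ℙ k (Fin (m + 1) → k), ℂ) →⋆ₐ[ℂ] (K →L[ℂ] K))}

/-- **the classical leg** for the group of a nondegenerate form -/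
theorem SpLeg.clG [Nontrivial K] (h : SpLeg B ρ π lam W q E) (hB : B.Nondegenerate)
    (hm : 2 ≤ m) : ∃ (σ : k →+* k) (Q : C₀(PG k (m + 1), ℂ) →⋆ₙₐ[ℂ] (K →L[ℂ] K)),
      ClG ρ π lam W q E σ Q :=
  (h.legG hB).clG hm

end cl

end Vale.Agent.P092.H416
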