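import Vale.Agent.P092.CL.Defs
import Vale.Agent.P092.H796.Res2
import Vale.Agent.P092.H631.P2Dense
import Vale.Agent.P092.SPT.JPm
import Vale.Agent.P092.H416.CLlet
import Vale.Agent.P092.H416.Inc

/-!
P092 (helper416), [CL-CLS], part 1: THE EXACT INCIDENCE OF TWO POINTS, any form of any Witt index,
in the letters of CL/Defs: perpendicular points have perpendicular values (a common maximal
subspace), the others have values which are not perpendicular (zero-one law for a pair,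
transitivity, exclusion by proximality).
-/

set_option linter.all false

namespace Vale.Agent.P092.H416.CL

open Vale.Agent.P092.H303 (FormGroup)
open Vale.Agent.P092.H714.Cl (hf Frm)
open Vale.Agent.P092.H370.Po
open Vale.Agent.P092.H820 Vale.Agent.P092.H466
open Vale.Agent.P092.H171 (co ms_restr exists_joint hom_uniq)
open Vale.Agent.P092.H232 (Nin)
open Vale.Agent.P092.RC (Cm Moore PicX)
open Vale.Agent.P092.H796 (PL Opp)
open TopologicalSpace Set Matrix Module MeasureTheory ContinuousLinearMap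
open scoped LinearAlgebra.Projectivization Matrix InnerProductSpace

/-! ### two calculi incident with a third one -/

section opp

variable {X Z K : Type*} [TopologicalSpace X] [TopologicalSpace Z] [CompactSpace X]
  [CompactSpace Z] [T2Space X] [T2Space Z]
  [NormedAddCommGroup K] [InnerProductSpace ℂ K] [CompleteSpace K]

/-- the elements of `Z` incident with a closed set -/
theorem isClosed_hit {In : X → Z → Prop} (hI : IsClosed {q : X × Z | In q.1 q.2}) {A : Set X}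
    (hA : IsClosed A) : IsClosed {z | ∃ x ∈ A, In x z} := by
  have e : {z | ∃ x ∈ A, In x z} = Prod.snd '' ({q : X × Z | In q.1 q.2} ∩ (A ×ˢ univ)) := by
    ext z
    constructor
    · rintro ⟨x, hx, h⟩
      exact ⟨(x, z), ⟨h, hx, mem_univ _⟩, rfl⟩
    · rintro ⟨⟨x, z'⟩, ⟨h, hx, -⟩, rfl⟩
      exact ⟨x, hx, h⟩
  rw [e]
  exact ((hI.inter (hA.prod isClosed_univ)).isCompact.image continuous_snd).isClosed

/-- separation of two disjoint closed sets, with supports -/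
theorem exists_sep {A B : Set Z} (hA : IsClosed A) (hB : IsClosed B) (h : Disjoint A B) :
    ∃ φ : C(Z, ℂ), Disjoint (tsupport ⇑φ) B ∧ Disjoint (tsupport ⇑(1 - φ)) A := by
  obtain ⟨U, V, hU, hV, hAU, hBV, hUV⟩ := normal_separation hA hB h
  obtain ⟨U', hU', hAU', hUU'⟩ := normal_exists_closure_subset hA hU hAU
  obtain ⟨f, hf1, hf0, -⟩ := exists_continuous_zero_one_of_isClosed (s := Uᶜ) (t := closure U')
    hU.isClosed_compl isClosed_closure (by
      rw [Set.disjoint_left]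
      intro x hx hx'
      exact hx (hUU' hx'))
  refine ⟨⟨fun z => (f z : ℂ), by fun_prop⟩, ?_, ?_⟩
  · rw [Set.disjoint_left]
    intro z hz hzB
    have h1 : tsupport (⇑(⟨fun z => (f z : ℂ), by fun_prop⟩ : C(Z, ℂ))) ⊆ closure U := by
      refine closure_mono fun x hx => ?_
      by_contra hxU
      exact hx (by
        have := hf1 (show x ∈ Uᶜ from hxU)
        change ((f x : ℝ) : ℂ) = 0
        rw [this]
        simp)
    have h2 := h1 hz
    have h3 : Disjoint (closure U) V := hUV.closure_left hV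
    exact (Set.disjoint_left.1 h3) h2 (hBV hzB)
  · rw [Set.disjoint_left]
    intro z hz hzA
    have h1 : tsupport (⇑(1 - (⟨fun z => (f z : ℂ), by fun_prop⟩ : C(Z, ℂ)))) ⊆ U'ᶜ := by
      refine closure_minimal (fun x hx hxU => ?_) hU'.isClosed_compl
      apply hx
      have := hf0 (subset_closure hxU)
      change (1 : ℂ) - ((f x : ℝ) : ℂ) = 0
      rw [this]
      simp
    exact h1 hz (hAU' hzA)

/-- **perpendicular supports**: two calculi incident with a third one -/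
theorem opp_mul {In : X → Z → Prop} (hI : IsClosed {q : X × Z | In q.1 q.2})
    {b c : C(X, ℂ) →⋆ₐ[ℂ] (K →L[ℂ] K)} {l : C(Z, ℂ) →⋆ₐ[ℂ] (K →L[ℂ] K)} (hb : PL In b l)
    (hc : PL In c l) {u h : C(X, ℂ)} (ho : Opp In u h) : b u * c h = 0 := by
  obtain ⟨φ, h1, h2⟩ := exists_sep (isClosed_hit hI (isClosed_tsupport ⇑u))
    (isClosed_hit hI (isClosed_tsupport ⇑h)) (by
      rw [Set.disjoint_left]
      rintro z ⟨x, hx, hxz⟩ ⟨x', hx', hxz'⟩
      exact ho x hx x' hx' z hxz hxz')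
  have e1 : b u * l (1 - φ) = 0 := hb.inc _ _ fun x hx z hz hxz =>
    (Set.disjoint_left.1 h2) hz ⟨x, hx, hxz⟩
  have e2 : c h * l φ = 0 := hc.inc _ _ fun x hx z hz hxz =>
    (Set.disjoint_left.1 h1) hz ⟨x, hx, hxz⟩
  have e3 : l φ * c h = 0 := by rw [← (hc.com h φ).eq, e2]
  calc b u * c h = b u * (l (1 - φ) + l φ) * c h := by
        rw [← map_add, sub_add_cancel, map_one, mul_one]
    _ = b u * l (1 - φ) * c h + b u * (l φ * c h) := by
        rw [mul_add, add_mul, mul_assoc (b u) (l φ)]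
    _ = 0 := by rw [e1, e3, zero_mul, mul_zero, add_zero]

end opp

/-! ### a *-homomorphism as a unital letter -/

section ul

variable {Y K : Type*} [TopologicalSpace Y] [NormedAddCommGroup K] [InnerProductSpace ℂ K]
  [CompleteSpace K]

/-- a *-homomorphism as a linear map -/
noncomputable def lin (φ : C(Y, ℂ) →⋆ₐ[ℂ] (K →L[ℂ] K)) : C(Y, ℂ) →ₗ[ℂ] (K →L[ℂ] K) where
  toFun := φ
  map_add' := map_add φ
  map_smul' := map_smul φ

theorem ul_lin (φ : C(Y, ℂ) →⋆ₐ[ℂ] (K →L[ℂ] K)) : SP.UL (lin φ) 1 where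
  one := by
    change φ 1 = _
    rw [map_one, Complex.ofReal_one, one_smul]
  star f := map_star φ f
  bes m v ξ := by
    have h1 : ∀ i, ‖lin φ (v i) ξ‖ ^ 2 = (⟪ξ, φ (star (v i) * v i) ξ⟫_ℂ).re := by
      intro i
      have e1 : φ (star (v i) * v i) ξ = adjoint (φ (v i)) (φ (v i) ξ) := by
        rw [map_mul, map_star]
        rfl
      rw [e1, adjoint_inner_right, ← inner_self_eq_norm_sq (𝕜 := ℂ)]
      rfl
    have h2 : lin φ (∑ i, star (v i) * v i) ξ = ∑ i, φ (star (v i) * v i) ξ := by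
      change φ (∑ i, star (v i) * v i) ξ = _
      rw [map_sum, ContinuousLinearMap.sum_apply]
    rw [h2, inner_sum, Complex.re_sum]
    exact le_of_eq (Finset.sum_congr rfl fun i _ => h1 i)

end ul

/-! ### Two points of a form -/

section geo

variable {n : Type} [Fintype n] [DecidableEq n] {k : Type} [Field k] {σ : k →+* k} {ε : k}
  {J : Matrix n n k} {r : ℕ}

/-- two perpendicular points lie in a common maximal subspace -/
theorem exists_max (hF : Frm σ ε J) (hr : 2 ≤ r) (Y₀ : SGr σ J r) {x y : SGr σ J 1}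
    (h : Col x y) : ∃ l : SGr σ J r, Inc x l ∧ Inc y l := by
  have h1 : Sing σ J (x.S ⊔ y.S) :=
    ort_sup_left.2 ⟨ort_sup_right.2 ⟨x.sing, h⟩, ort_sup_right.2 ⟨Ort.symm hF h, y.sing⟩⟩
  have h2 : finrank k ↥(x.S ⊔ y.S) ≤ r := by
    have := Submodule.finrank_add_le_finrank_add_finrank x.S y.S
    rw [x.dim, y.dim] at this
    omega
  obtain ⟨Z, hZ, hZs, hZd⟩ := exists_above hF h1 Y₀.sing h2 (Y₀.dim.ge)
  exact ⟨SGr.mk' Z hZs hZd, le_sup_left.trans hZ, le_sup_right.trans hZ⟩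

theorem col_of_inc {x y : SGr σ J 1} {l : SGr σ J r} (h1 : Inc x l) (h2 : Inc y l) : Col x y :=
  Ort.mono l.sing h1 h2

/-- two points are opposite if and only if they are not perpendicular -/
theorem opp_iff_not_col {x y : SGr σ J 1} : H631.P2.OppS x y ↔ ¬ Col x y := by
  rw [← not_iff_not, not_not, H631.P2.not_opp_iff]
  constructor
  · rintro ⟨P, h1, h2⟩
    rwa [inc_iff_eq.1 h1] at h2
  · exact fun h => ⟨x, Inc.refl x, h⟩

end geo

section inc

variable {n : Type} [Fintype n] [DecidableEq n] {k : Type} [NontriviallyNormedField k]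
  [ProperSpace k] {σ : k →+* k} {ε : k} {J : Matrix n n k} [Fact (Continuous σ)]
  {r : ℕ} {E₀ Γ K : Type} [Group E₀] [TopologicalSpace E₀] [Group Γ] [NormedAddCommGroup K]
  [InnerProductSpace ℂ K] [CompleteSpace K]
  {ι : FormGroup σ J →* E₀} {π : E₀ →* (K →L[ℂ] K)} {lam : Γ →* (K →L[ℂ] K)}
  {W : Set (K →L[ℂ] K)} {Ω : K} {q : Γ → FormGroup σ J}
  {Ec : SGr σ J 1 → (C(SGr σ J 1, ℂ) →⋆ₐ[ℂ] (K →L[ℂ] K))}
  {F : SGr σ J r → (C(SGr σ J r, ℂ) →⋆ₐ[ℂ] (K →L[ℂ] K))}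

/-- what the incidence of two points needs -/
structure Pts (ι : FormGroup σ J →* E₀) (π : E₀ →* (K →L[ℂ] K)) (lam : Γ →* (K →L[ℂ] K))
    (W : Set (K →L[ℂ] K)) (Ω : K) (q : Γ → FormGroup σ J)
    (Ec : SGr σ J 1 → (C(SGr σ J 1, ℂ) →⋆ₐ[ℂ] (K →L[ℂ] K)))
    (F : SGr σ J r → (C(SGr σ J r, ℂ) →⋆ₐ[ℂ] (K →L[ℂ] K))) : Prop where
  pic : PicX π lam W Ω
  sur : Function.Surjective ι
  moore : ∀ x y : SGr σ J 1, Moore (ι '' {g | g • x = x ∧ g • y = y})
  prox : ∀ (z : SGr σ J 1) (D : Set (SGr σ J 1)), IsCompact D → (∀ y ∈ D, ¬ Col y z) →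
    ∀ U : Set (SGr σ J 1), IsOpen U → U.Nonempty → ∃ γ, ∀ y ∈ D, q γ • y ∈ U
  cm : ∀ c f, Cm W (Ec c f)
  cov : ∀ γ c f, lam γ * Ec c f * lam γ⁻¹ = Ec c (P092.CL.act (q γ) f)
  pcov : ∀ g c f, π (ι g) * Ec c f * π (ι g)⁻¹ = Ec (g • c) f
  com : ∀ c c' f g, Commute (Ec c f) (Ec c' g)
  pl : ∀ c l, Inc c l → PL Inc (Ec c) (F l)

theorem tsupport_act {X S : Type} [Group S] [TopologicalSpace X] [MulAction S X]
    [ContinuousConstSMul S X] {g : S} {f : C(X, ℂ)} {y : X}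
    (h : y ∈ tsupport ⇑(P092.CL.act g f)) : g⁻¹ • y ∈ tsupport ⇑f := by
  have h1 : tsupport ⇑(P092.CL.act g f) ⊆ (fun y => g⁻¹ • y) ⁻¹' tsupport ⇑f :=
    closure_minimal (fun x hx => subset_tsupport _ hx)
      ((isClosed_tsupport _).preimage (continuous_const_smul g⁻¹))
  exact h1 h

theorem Pts.perp (h : Pts ι π lam W Ω q Ec F) (hF : Frm σ ε J) (hr : 2 ≤ r) (Y₀ : SGr σ J r)
    {x y : SGr σ J 1} (hxy : Col x y) {f g : C(SGr σ J 1, ℂ)} (hfg : Nin Col f g) :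
    Ec x f * Ec y g = 0 := by
  obtain ⟨l, h1, h2⟩ := exists_max hF hr Y₀ hxy
  exact opp_mul inc_closed (h.pl x l h1) (h.pl y l h2) fun u hu v hv z huz hvz =>
    hfg u hu v hv (col_of_inc huz hvz)

theorem Pts.conj (h : Pts ι π lam W Ω q Ec F) (g : FormGroup σ J) (c : SGr σ J 1)
    (f : C(SGr σ J 1, ℂ)) : Ec (g • c) f * π (ι g) = π (ι g) * Ec c f := by
  have u2 : π (ι g)⁻¹ * π (ι g) = 1 := by rw [← map_mul, inv_mul_cancel, map_one]
  rw [← h.pcov, mul_assoc, u2, mul_one]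

theorem Pts.zo (h : Pts ι π lam W Ω q Ec F) (x y : SGr σ J 1) :
    (∀ f g, Nin Col f g → Ec x f * Ec y g = 0) ∨
      ∀ ζ, (∀ f g, Nin Col f g → Ec x f (Ec y g ζ) = 0) → ζ = 0 := by
  have hb : H631.P0.Bas π lam W := ⟨h.pic.adjP, h.pic.adjL, h.pic.Wadj, h.pic.erg, h.pic.inv⟩
  refine H796.zo_pair (R := Col) hb (h.moore x y) ?_ (b := fun f => Ec x f)
    (b' := fun f => Ec y f) (h.cm x) (h.cm y) (fun γ f => P092.CL.act (q γ) f) (fun γ f => h.cov γ x f)
    (fun γ f => h.cov γ y f) ?_ ?_ ?_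
  · rintro _ ⟨g, ⟨h1, h2⟩, rfl⟩
    exact ⟨g⁻¹, ⟨inv_smul_eq_iff.2 h1.symm, inv_smul_eq_iff.2 h2.symm⟩, map_inv ι g⟩
  · intro γ f g hfg u hu v hv huv
    exact hfg _ (tsupport_act hu) _ (tsupport_act hv) ((col_smul _).2 huv)
  · rintro _ ⟨g, ⟨h1, h2⟩, rfl⟩ f
    have := h.conj g x f
    rwa [h1] at this
  · rintro _ ⟨g, ⟨h1, h2⟩, rfl⟩ f
    have := h.conj g y f
    rwa [h2] at this

theorem Pts.prx (h : Pts ι π lam W Ω q Ec F) (hF : Frm σ ε J) (hσ : Continuous σ) :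
    H43.PPur.Prx q (fun z : SGr σ J 1 => {y : SGr σ J 1 | H631.P2.OppS y z}) where
  op z := H631.P2.opp_open hσ z
  all y := by
    obtain ⟨z, -, hz⟩ := H631.P2.opp_dense hF hσ (U := univ) isOpen_univ ⟨y, mem_univ _⟩ y
    exact ⟨z, hz.symm hF⟩
  meet a b := by
    obtain ⟨z, -, hz⟩ := H631.P2.opp_dense hF hσ (U := univ) isOpen_univ ⟨b, mem_univ _⟩ b
    obtain ⟨w, hw, hwa⟩ := H631.P2.opp_dense hF hσ (U := {X | H631.P2.OppS X b})
      (H631.P2.opp_open hσ b) ⟨z, hz⟩ a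
    exact ⟨w, hwa, hw⟩
  prox z D hD hc U hU hne := h.prox z D hc (fun y hy => opp_iff_not_col.1 (hD hy)) U hU hne

theorem Pts.fam (h : Pts ι π lam W Ω q Ec F) :
    H43.PPur.Fam π lam W q 1 (fun c : SGr σ J 1 => lin (Ec c)) where
  ul c := ul_lin (Ec c)
  cm c f := h.cm c f
  cov γ c f f' hf := by
    have e : f' = P092.CL.act (q γ) f := by
      ext y
      have := hf ((q γ)⁻¹ • y)
      rw [smul_inv_smul] at this
      exact this
    rw [e]
    exact h.cov γ c f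
  pst e c := by
    obtain ⟨g, rfl⟩ := h.sur e
    exact ⟨g • c, fun f => h.pcov g c f⟩

/-- two points which are not perpendicular have values which are nowhere perpendicular -/
theorem Pts.opp [Nontrivial K] (h : Pts ι π lam W Ω q Ec F) (hF : Frm σ ε J) (hσ : Continuous σ)
    (hr : 2 ≤ r) (Y₀ : SGr σ J r) {x y : SGr σ J 1} (hxy : ¬ Col x y) (ζ : K)
    (hζ : ∀ f g, Nin Col f g → Ec x f (Ec y g ζ) = 0) : ζ = 0 := by
  rcases h.zo x y with h0 | h1
  swap
  · exact h1 ζ hζ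
  exfalso
  have hall : ∀ (a b : SGr σ J 1) (f g : C(SGr σ J 1, ℂ)), Nin Col f g → Ec a f * Ec b g = 0 := by
    intro a b f g hfg
    by_cases hab : Col a b
    · exact h.perp hF hr Y₀ hab hfg
    obtain ⟨s, rfl, rfl⟩ := H631.P2.trans_opp hF (opp_iff_not_col.2 hxy) (opp_iff_not_col.2 hab)
    have u1 : π (ι s) * π (ι s)⁻¹ = 1 := by rw [← map_mul, mul_inv_cancel, map_one]
    have e1 := h.conj s y g
    have e2 := h.conj s x f
    calc Ec (s • x) f * Ec (s • y) g = Ec (s • x) f * (Ec (s • y) g * π (ι s)) * π (ι s)⁻¹ := by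
          rw [mul_assoc, mul_assoc, u1, mul_one]
      _ = (Ec (s • x) f * π (ι s)) * Ec y g * π (ι s)⁻¹ := by
          rw [e1]
          simp only [mul_assoc]
      _ = 0 := by rw [e2, mul_assoc (π (ι s)), h0 f g hfg, mul_zero, zero_mul]
  -- two opposite open sets
  obtain ⟨p, -, hp⟩ := H631.P2.opp_dense hF hσ (U := univ) isOpen_univ ⟨x, mem_univ _⟩ x
  obtain ⟨U, U', hU, hU', hpU, hxU', hUU'⟩ := isOpen_prod_iff.1 (H631.P2.opp_open₂ (J := J) hσ) p x hp
  obtain ⟨Ω', hΩ'⟩ := SP.X.toI h.pic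
  have hfam := h.fam
  haveI : Nonempty (SGr σ J 1) := ⟨x⟩
  have hop : ∀ u ∈ U, ∀ v ∈ U', H631.P2.OppS u v := fun u hu v hv => hUU' (mk_mem_prod hu hv)
  rcases SP.X.excl hΩ' hfam hfam (h.prx hF hσ) hU ⟨p, hpU⟩ hU' ⟨x, hxU'⟩
    (fun z z' f g hf hg => hall z z' f g fun u hu v hv huv =>
      opp_iff_not_col.1 (hop u (hf hu) v (hg hv)) huv) with h1 | h1
  · exact one_ne_zero h1
  · exact one_ne_zero h1

variable [MeasurableSpace (SGr σ J 1)] [BorelSpace (SGr σ J 1)]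

/-- **exact incidence of two points** -/
theorem Pts.inc [Nontrivial K] (h : Pts ι π lam W Ω q Ec F) (hF : Frm σ ε J) (hσ : Continuous σ)
    (hr : 2 ≤ r) (Y₀ : SGr σ J r) (x y : SGr σ J 1)
    (Ψ : C(Fin 2 → SGr σ J 1, ℂ) →⋆ₐ[ℂ] (K →L[ℂ] K))
    (hΨ : ∀ i f, Ψ (co i f) = Ec (![x, y] i) f) (ξ : K) :
    ∀ᵐ z ∂(ms Ψ ξ), (Col (z 0) (z 1) ↔ Col x y) := by
  have hcl : IsClosed {p : SGr σ J 1 × SGr σ J 1 | Col p.1 p.2} := col_closed hσ
  by_cases hab : Col x y
  · filter_upwards [ae_of_supp hcl (φ := Ec x) (ψ := Ec y)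
      (fun f g hfg => h.perp hF hr Y₀ hab hfg) Ψ (fun f => hΨ 0 f) (fun f => hΨ 1 f) ξ] with z hz
    exact ⟨fun _ => hab, fun _ => hz⟩
  · filter_upwards [ae_not_of_ker hcl (φ := Ec x) (ψ := Ec y)
      (fun ζ hζ => h.opp hF hσ hr Y₀ hab ζ fun f g hfg => hζ f g hfg) Ψ (fun f => hΨ 0 f)
      (fun f => hΨ 1 f) ξ] with z hz
    exact ⟨fun h' => absurd h' hz, fun h' => absurd h' hab⟩

end inc

end Vale.Agent.P092.H416.CL
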