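import Vale.Agent.P092.H416.CLcol
import Vale.Agent.P092.H370.Fo5

/-!
P092 (helper416), [CL-CLS] FOR EVERY GROUP `EU ≤ G ≤ FormGroup` AND EVERY FORM (`Wf σ ε J r`, Witt
index `r ≥ 2`: symplectic, unitary, orthogonal): exact incidence of two points, three collinear
points. The source group is any `S` with `φ : S →* FormGroup σ J` whose range contains `EU`.
-/

set_option linter.all false

namespace Vale.Agent.P092.H416.CLG

open Vale.Agent.P092.H303 (FormGroup)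
open Vale.Agent.P092.H714.Cl
open Vale.Agent.P092.H714.Sg (Fm)
open Vale.Agent.P092.H370.Po
open Vale.Agent.P092.H370.Fo (Fo Wf EU EU_le)
open Vale.Agent.P092.H820 Vale.Agent.P092.H466
open Vale.Agent.P092.H171 (co ms_restr exists_joint hom_uniq ae_ne)
open Vale.Agent.P092.H375.X2 (Jf)
open Vale.Agent.P092.H232 (Nin)
open Vale.Agent.P092.RC (Cm Moore PicX)
open Vale.Agent.P092.H796 (PL)
open Vale.Agent.P092.H416.CL (opp_mul lin ul_lin col_of_inc tsupport_act col_vec hf_sum_left pv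
  exists_vec mem_of_span measurable_col3 dst2 EP ae_EP pt pt_inj le_pt)
open TopologicalSpace Set Matrix Module MeasureTheory ContinuousLinearMap
open scoped LinearAlgebra.Projectivization Matrix InnerProductSpace

section geo

variable {n : Type} [Fintype n] [DecidableEq n] {k : Type} [Field k] {σ : k →+* k} {ε : k}
  {J : Matrix n n k} {r : ℕ}

/-- two perpendicular points lie in a common maximal subspace -/
theorem exists_max (hF : Fo σ ε J) (hr : 2 ≤ r) (Y₀ : SGr σ J r) {x y : SGr σ J 1}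
    (h : Col x y) : ∃ l : SGr σ J r, Inc x l ∧ Inc y l := by
  have h1 : Sing σ J (x.S ⊔ y.S) :=
    ort_sup_left.2 ⟨ort_sup_right.2 ⟨x.sing, h⟩,
      ort_sup_right.2 ⟨H370.Fo.ort_symm hF h, y.sing⟩⟩
  have h2 : finrank k ↥(x.S ⊔ y.S) ≤ r := by
    have := Submodule.finrank_add_le_finrank_add_finrank x.S y.S
    rw [x.dim, y.dim] at this
    omega
  obtain ⟨Z, hZ, hZs, hZd⟩ := H370.Fo.exists_above hF h1 Y₀.sing h2 (Y₀.dim.ge)
  exact ⟨SGr.mk' Z hZs hZd, le_sup_left.trans hZ, le_sup_right.trans hZ⟩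

theorem cp {x y : n → k} {hx : x ≠ 0} {hxx : hf σ J x x = 0} {hy : y ≠ 0}
    {hyy : hf σ J y y = 0} : Col (H370.Fo.ptv x hx hxx) (H370.Fo.ptv y hy hyy) ↔
      hf σ J x y = 0 := H370.Fo.col_ptv hx hxx hy hyy

theorem symm_not (hF : Fo σ ε J) {x y : SGr σ J 1} (h : ¬ Col x y) : ¬ Col y x :=
  fun h' => h (H370.Fo.col_symm hF.fm h')

/-- every point has an opposite one -/
theorem exists_opp (hF : Fo σ ε J) (x : SGr σ J 1) : ∃ y : SGr σ J 1, ¬ Col x y := by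
  obtain ⟨v, h0, hv, rfl⟩ := H370.Fo.exists_ptv x
  obtain ⟨z, hz, hzp⟩ := H370.Fo.exists_iso_prod hF (X := Submodule.span k {v})
    (H370.Fo.ptv v h0 hv).sing (LinearEquiv.toSpanNonzeroSingleton k (n → k) v h0).symm.toLinearMap
    (fun h => by
      have := LinearMap.congr_fun h ⟨v, Submodule.mem_span_singleton_self v⟩
      have h5 := (LinearEquiv.toSpanNonzeroSingleton k (n → k) v h0).symm.injective
        (this.trans (map_zero _).symm)
      exact h0 (congrArg Subtype.val h5))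
  have hv1 : hf σ J v z ≠ 0 := by
    have h6 := hzp ⟨v, Submodule.mem_span_singleton_self v⟩
    intro h7
    rw [h7] at h6
    have h5 := (LinearEquiv.toSpanNonzeroSingleton k (n → k) v h0).symm.injective
        (h6.symm.trans (map_zero _).symm)
    exact h0 (congrArg Subtype.val h5)
  have hz0 : z ≠ 0 := by
    rintro rfl
    exact hv1 (hf_zero_right σ J v)
  exact ⟨H370.Fo.ptv z hz0 hz, fun h => hv1 (cp.1 h)⟩

/-- two points have a common opposite one -/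
theorem exists_common (hF : Fo σ ε J) (a b : SGr σ J 1) :
    ∃ c : SGr σ J 1, ¬ Col c a ∧ ¬ Col c b := by
  by_cases hab : Col a b
  · by_cases hne : a = b
    · subst hne
      obtain ⟨c, hc⟩ := exists_opp hF a
      exact ⟨c, symm_not hF hc, symm_not hF hc⟩
    obtain ⟨v, h0, hv, rfl⟩ := H370.Fo.exists_ptv a
    obtain ⟨w, h0', hw, rfl⟩ := H370.Fo.exists_ptv b
    have hvw : hf σ J v w = 0 := cp.1 hab
    have hs : Sing σ J (Submodule.span k {v} ⊔ Submodule.span k {w}) :=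
      H370.Fo.sing_sup_span hF (H370.Fo.ptv v h0 hv).sing hw fun x hx => by
        obtain ⟨c, rfl⟩ := Submodule.mem_span_singleton.1 hx
        rw [hf_smul_left, hvw, mul_zero]
    obtain ⟨z₁, hz₁, hp₁⟩ : ∃ z, hf σ J v z ≠ 0 ∧ hf σ J w z ≠ 0 := by
      obtain ⟨y, hy⟩ := hF.fm.nondeg v h0
      obtain ⟨y', hy'⟩ := hF.fm.nondeg w h0'
      by_cases h1 : hf σ J w y ≠ 0
      · exact ⟨y, hy, h1⟩
      by_cases h2 : hf σ J v y' ≠ 0
      · exact ⟨y', h2, hy'⟩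
      push Not at h1 h2
      refine ⟨y + y', ?_, ?_⟩
      · rw [hf_add_right, h2, add_zero]; exact hy
      · rw [hf_add_right, h1, zero_add]; exact hy'
    let Φ : ↥(Submodule.span k {v} ⊔ Submodule.span k {w}) →ₗ[k] k :=
      { toFun := fun x => hf σ J x.1 z₁
        map_add' := fun a b => hf_add_left σ J a.1 b.1 z₁
        map_smul' := fun c a => hf_smul_left σ J c a.1 z₁ }
    have hvm : v ∈ Submodule.span k {v} ⊔ Submodule.span k {w} :=
      Submodule.mem_sup_left (Submodule.mem_span_singleton_self v)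
    have hwm : w ∈ Submodule.span k {v} ⊔ Submodule.span k {w} :=
      Submodule.mem_sup_right (Submodule.mem_span_singleton_self w)
    obtain ⟨z, hz, hzp⟩ := H370.Fo.exists_iso_prod hF hs Φ (fun h => by
      have := LinearMap.congr_fun h ⟨v, hvm⟩
      exact hz₁ this)
    have e1 : hf σ J v z ≠ 0 := by
      rw [hzp ⟨v, hvm⟩]
      exact hz₁
    have e2 : hf σ J w z ≠ 0 := by
      rw [hzp ⟨w, hwm⟩]
      exact hp₁
    have hz0 : z ≠ 0 := by
      rintro rfl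
      exact e1 (hf_zero_right σ J v)
    exact ⟨H370.Fo.ptv z hz0 hz, symm_not hF fun h => e1 (cp.1 h),
      symm_not hF fun h => e2 (cp.1 h)⟩
  · obtain ⟨v, h0, hv, rfl⟩ := H370.Fo.exists_ptv a
    obtain ⟨w, h0', hw, rfl⟩ := H370.Fo.exists_ptv b
    have hvw : hf σ J v w ≠ 0 := fun h => hab (cp.2 h)
    obtain ⟨p, hp, -, h1, h2⟩ := hF.thd ⊥ v w sing_bot hv hw
      (fun x hx => by rw [(Submodule.mem_bot k).1 hx, hf_zero_left])
      (fun x hx => by rw [(Submodule.mem_bot k).1 hx, hf_zero_left]) hvw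
    have hp0 : p ≠ 0 := by
      rintro rfl
      exact h1 (hf_zero_right σ J v)
    exact ⟨H370.Fo.ptv p hp0 hp, symm_not hF fun h => h1 (cp.1 h),
      fun h => h2 (cp.1 h)⟩

/-- transitivity on opposite points -/
theorem trans_opp1 (hF : Fo σ ε J) {x y x' y' : SGr σ J 1} (h : ¬ Col x y) (h' : ¬ Col x' y') :
    ∃ g : FormGroup σ J, g.1 ∈ EU σ ε J ∧ g • x = x' ∧ g • y = y' := by
  have op : ∀ {x y : SGr σ J 1}, ¬ Col x y → H370.Fo.Opp σ J x.S y.S := by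
    intro x y h
    obtain ⟨v, h0, hv, rfl⟩ := H370.Fo.exists_ptv x
    obtain ⟨w, h0', hw, rfl⟩ := H370.Fo.exists_ptv y
    rw [H370.Fo.col_ptv] at h
    have h' := H370.Fo.Fm.symm_ne0 hF.fm h
    constructor
    · intro y hy hx
      obtain ⟨a, rfl⟩ := Submodule.mem_span_singleton.1 hy
      have := hx v (Submodule.mem_span_singleton_self v)
      rw [hf_smul_right, mul_eq_zero, map_eq_zero] at this
      rw [this.resolve_right h, zero_smul]
    · intro y hy hx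
      obtain ⟨a, rfl⟩ := Submodule.mem_span_singleton.1 hy
      have := hx w (Submodule.mem_span_singleton_self w)
      rw [hf_smul_right, mul_eq_zero, map_eq_zero] at this
      rw [this.resolve_right h', zero_smul]
  obtain ⟨g, hg, h1, h2⟩ := H370.Fo.trans_opp hF x'.sing y'.sing x.sing y.sing (op h') (op h)
    (x'.dim.trans x.dim.symm) (x'.dim.trans y'.dim.symm) (x.dim.trans y.dim.symm)
  refine ⟨⟨g, EU_le hF.fm hg⟩, hg, SGr.ext ?_, SGr.ext ?_⟩
  · rw [smul_S, ← h1, act_inv_act]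
  · rw [smul_S, ← h2, act_inv_act]

end geo

section inc

variable {n : Type} [Fintype n] [DecidableEq n] {k : Type} [NontriviallyNormedField k]
  [ProperSpace k] {σ : k →+* k} {ε : k} {J : Matrix n n k} [Fact (Continuous σ)]
  {r : ℕ} {S E₀ Γ K : Type} [Group S] [Group E₀] [TopologicalSpace E₀] [Group Γ]
  [NormedAddCommGroup K] [InnerProductSpace ℂ K] [CompleteSpace K] {φ : S →* FormGroup σ J}
  {ι : S →* E₀} {π : E₀ →* (K →L[ℂ] K)} {lam : Γ →* (K →L[ℂ] K)}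
  {W : Set (K →L[ℂ] K)} {Ω : K} {q : Γ → S}
  {Ec : SGr σ J 1 → (C(SGr σ J 1, ℂ) →⋆ₐ[ℂ] (K →L[ℂ] K))}
  {F : SGr σ J r → (C(SGr σ J r, ℂ) →⋆ₐ[ℂ] (K →L[ℂ] K))}

/-- what the incidence of two points needs -/
structure Pts (φ : S →* FormGroup σ J) (ι : S →* E₀) (π : E₀ →* (K →L[ℂ] K))
    (lam : Γ →* (K →L[ℂ] K)) (W : Set (K →L[ℂ] K)) (Ω : K) (q : Γ → S)
    (Ec : SGr σ J 1 → (C(SGr σ J 1, ℂ) →⋆ₐ[ℂ] (K →L[ℂ] K)))
    (F : SGr σ J r → (C(SGr σ J r, ℂ) →⋆ₐ[ℂ] (K →L[ℂ] K))) : Prop where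
  pic : PicX π lam W Ω
  sur : Function.Surjective ι
  moore : ∀ x y : SGr σ J 1, Moore (ι '' {g | φ g • x = x ∧ φ g • y = y})
  prox : ∀ (z : SGr σ J 1) (D : Set (SGr σ J 1)), IsCompact D → (∀ y ∈ D, ¬ Col y z) →
    ∀ U : Set (SGr σ J 1), IsOpen U → U.Nonempty → ∃ γ, ∀ y ∈ D, φ (q γ) • y ∈ U
  cm : ∀ c f, Cm W (Ec c f)
  cov : ∀ γ c f, lam γ * Ec c f * lam γ⁻¹ = Ec c (P092.CL.act (φ (q γ)) f)
  pcov : ∀ g c f, π (ι g) * Ec c f * π (ι g)⁻¹ = Ec (φ g • c) f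
  com : ∀ c c' f g, Commute (Ec c f) (Ec c' g)
  pl : ∀ c l, Inc c l → PL Inc (Ec c) (F l)

theorem Pts.perp (h : Pts φ ι π lam W Ω q Ec F) (hF : Fo σ ε J) (hr : 2 ≤ r) (Y₀ : SGr σ J r)
    {x y : SGr σ J 1} (hxy : Col x y) {f g : C(SGr σ J 1, ℂ)} (hfg : Nin Col f g) :
    Ec x f * Ec y g = 0 := by
  obtain ⟨l, h1, h2⟩ := exists_max hF hr Y₀ hxy
  exact opp_mul inc_closed (h.pl x l h1) (h.pl y l h2) fun u hu v hv z huz hvz =>
    hfg u hu v hv (col_of_inc huz hvz)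

theorem Pts.conj (h : Pts φ ι π lam W Ω q Ec F) (g : S) (c : SGr σ J 1)
    (f : C(SGr σ J 1, ℂ)) : Ec (φ g • c) f * π (ι g) = π (ι g) * Ec c f := by
  have u2 : π (ι g)⁻¹ * π (ι g) = 1 := by rw [← map_mul, inv_mul_cancel, map_one]
  rw [← h.pcov, mul_assoc, u2, mul_one]

theorem Pts.zo (h : Pts φ ι π lam W Ω q Ec F) (x y : SGr σ J 1) :
    (∀ f g, Nin Col f g → Ec x f * Ec y g = 0) ∨
      ∀ ζ, (∀ f g, Nin Col f g → Ec x f (Ec y g ζ) = 0) → ζ = 0 := by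
  have hb : H631.P0.Bas π lam W := ⟨h.pic.adjP, h.pic.adjL, h.pic.Wadj, h.pic.erg, h.pic.inv⟩
  refine H796.zo_pair (R := Col) hb (h.moore x y) ?_ (b := fun f => Ec x f)
    (b' := fun f => Ec y f) (h.cm x) (h.cm y) (fun γ f => P092.CL.act (φ (q γ)) f)
    (fun γ f => h.cov γ x f) (fun γ f => h.cov γ y f) ?_ ?_ ?_
  · rintro _ ⟨g, ⟨h1, h2⟩, rfl⟩
    refine ⟨g⁻¹, ⟨?_, ?_⟩, map_inv ι g⟩
    · rw [map_inv]
      exact inv_smul_eq_iff.2 h1.symm
    · rw [map_inv]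
      exact inv_smul_eq_iff.2 h2.symm
  · intro γ f g hfg u hu v hv huv
    exact hfg _ (tsupport_act hu) _ (tsupport_act hv) ((col_smul _).2 huv)
  · rintro _ ⟨g, ⟨h1, h2⟩, rfl⟩ f
    have := h.conj g x f
    rwa [h1] at this
  · rintro _ ⟨g, ⟨h1, h2⟩, rfl⟩ f
    have := h.conj g y f
    rwa [h2] at this

theorem Pts.prx (h : Pts φ ι π lam W Ω q Ec F) (hF : Fo σ ε J) (hσ : Continuous σ) :
    H43.PPur.Prx (fun γ => φ (q γ)) (fun z : SGr σ J 1 => {y : SGr σ J 1 | ¬ Col y z}) where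
  op z := by
    have h1 : IsClosed {y : SGr σ J 1 | Col y z} :=
      (col_closed (J := J) hσ (i := 1) (j := 1)).preimage
        (f := fun y : SGr σ J 1 => (y, z)) (by fun_prop)
    exact h1.isOpen_compl
  all y := exists_opp hF y
  meet a b := by
    obtain ⟨c, h1, h2⟩ := exists_common hF a b
    exact ⟨c, h1, h2⟩
  prox z D hD hc U hU hne := h.prox z D hc (fun y hy => hD hy) U hU hne

theorem Pts.fam (h : Pts φ ι π lam W Ω q Ec F) :
    H43.PPur.Fam π lam W (fun γ => φ (q γ)) 1 (fun c : SGr σ J 1 => lin (Ec c)) where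
  ul c := ul_lin (Ec c)
  cm c f := h.cm c f
  cov γ c f f' hf := by
    have e : f' = P092.CL.act (φ (q γ)) f := by
      ext y
      have := hf ((φ (q γ))⁻¹ • y)
      rw [smul_inv_smul] at this
      exact this
    rw [e]
    exact h.cov γ c f
  pst e c := by
    obtain ⟨g, rfl⟩ := h.sur e
    exact ⟨φ g • c, fun f => h.pcov g c f⟩

/-- two points which are not perpendicular have values which are nowhere perpendicular -/
theorem Pts.opp [Nontrivial K] (h : Pts φ ι π lam W Ω q Ec F) (hF : Fo σ ε J)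
    (hφ : ∀ g : FormGroup σ J, g.1 ∈ EU σ ε J → ∃ s, φ s = g) (hσ : Continuous σ)
    (hr : 2 ≤ r) (Y₀ : SGr σ J r) {x y : SGr σ J 1} (hxy : ¬ Col x y) (ζ : K)
    (hζ : ∀ f g, Nin Col f g → Ec x f (Ec y g ζ) = 0) : ζ = 0 := by
  rcases h.zo x y with h0 | h1
  swap
  · exact h1 ζ hζ
  exfalso
  have hall : ∀ (a b : SGr σ J 1) (f g : C(SGr σ J 1, ℂ)), Nin Col f g → Ec a f * Ec b g = 0 := by
    intro a b f g hfg
    by_cases hab : Col a b
    · exact h.perp hF hr Y₀ hab hfg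
    obtain ⟨g₀, hg₀, rfl, rfl⟩ := trans_opp1 hF hxy hab
    obtain ⟨s, rfl⟩ := hφ g₀ hg₀
    have u1 : π (ι s) * π (ι s)⁻¹ = 1 := by rw [← map_mul, mul_inv_cancel, map_one]
    have e1 := h.conj s y g
    have e2 := h.conj s x f
    calc Ec (φ s • x) f * Ec (φ s • y) g =
          Ec (φ s • x) f * (Ec (φ s • y) g * π (ι s)) * π (ι s)⁻¹ := by
          rw [mul_assoc, mul_assoc, u1, mul_one]
      _ = (Ec (φ s • x) f * π (ι s)) * Ec y g * π (ι s)⁻¹ := by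
          rw [e1]
          simp only [mul_assoc]
      _ = 0 := by rw [e2, mul_assoc (π (ι s)), h0 f g hfg, mul_zero, zero_mul]
  -- two opposite open sets
  have hcl : IsClosed {p : SGr σ J 1 × SGr σ J 1 | Col p.1 p.2} := col_closed hσ
  obtain ⟨U, U', hU, hU', hxU, hyU', hUU'⟩ := isOpen_prod_iff.1 hcl.isOpen_compl x y hxy
  have hop : ∀ u ∈ U, ∀ v ∈ U', ¬ Col u v := fun u hu v hv => hUU' (mk_mem_prod hu hv)
  obtain ⟨Ω', hΩ'⟩ := SP.X.toI h.pic
  have hfam := h.fam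
  haveI : Nonempty (SGr σ J 1) := ⟨x⟩
  rcases SP.X.excl hΩ' hfam hfam (h.prx hF hσ) hU ⟨x, hxU⟩ hU' ⟨y, hyU'⟩
    (fun z z' f g hf hg => hall z z' f g fun u hu v hv huv =>
      hop u (hf hu) v (hg hv) huv) with h1 | h1
  · exact one_ne_zero h1
  · exact one_ne_zero h1

variable [MeasurableSpace (SGr σ J 1)] [BorelSpace (SGr σ J 1)]

/-- **exact incidence of two points** -/
theorem Pts.inc [Nontrivial K] (h : Pts φ ι π lam W Ω q Ec F) (hF : Fo σ ε J)
    (hφ : ∀ g : FormGroup σ J, g.1 ∈ EU σ ε J → ∃ s, φ s = g) (hσ : Continuous σ)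
    (hr : 2 ≤ r) (Y₀ : SGr σ J r) (x y : SGr σ J 1)
    (Ψ : C(Fin 2 → SGr σ J 1, ℂ) →⋆ₐ[ℂ] (K →L[ℂ] K))
    (hΨ : ∀ i f, Ψ (co i f) = Ec (![x, y] i) f) (ξ : K) :
    ∀ᵐ z ∂(ms Ψ ξ), (Col (z 0) (z 1) ↔ Col x y) := by
  have hcl : IsClosed {p : SGr σ J 1 × SGr σ J 1 | Col p.1 p.2} := col_closed hσ
  by_cases hab : Col x y
  · filter_upwards [ae_of_supp hcl (φ := Ec x) (ψ := Ec y)
      (fun f g hfg => h.perp hF hr Y₀ hab hfg) Ψ (fun f => hΨ 0 f) (fun f => hΨ 1 f) ξ] with z hz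
    exact ⟨fun _ => hab, fun _ => hz⟩
  · filter_upwards [ae_not_of_ker hcl (φ := Ec x) (ψ := Ec y)
      (fun ζ hζ => h.opp hF hφ hσ hr Y₀ hab ζ fun f g hfg => hζ f g hfg) Ψ (fun f => hΨ 0 f)
      (fun f => hΨ 1 f) ξ] with z hz
    exact ⟨fun h' => absurd h' hz, fun h' => absurd h' hab⟩

/-- the exact pattern of a finite family of points -/
theorem Pts.pattern [Nontrivial K] (h : Pts φ ι π lam W Ω q Ec F) (hF : Fo σ ε J)
    (hφ : ∀ g : FormGroup σ J, g.1 ∈ EU σ ε J → ∃ s, φ s = g) (hσ : Continuous σ) (hr : 2 ≤ r)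
    (Y₀ : SGr σ J r) {κ : Type} [Fintype κ]
    {A : κ → SGr σ J 1} {Ψ : C(κ → SGr σ J 1, ℂ) →⋆ₐ[ℂ] (K →L[ℂ] K)}
    (hΨ : Jf (fun i => Ec (A i)) Ψ) (ξ : K) :
    ∀ᵐ z ∂(ms Ψ ξ), ∀ s t, (Col (z s) (z t) ↔ Col (A s) (A t)) := by
  refine ae_all_iff.2 fun s => ae_all_iff.2 fun t => ?_
  obtain ⟨Θ, hΘ⟩ := exists_joint (fun i => Ec (![A s, A t] i)) fun i j f g => h.com _ _ f g
  exact hΨ.pull (φ' := fun i : Fin 2 => Ec (![A s, A t] i)) hΘ ![s, t]
    (fun i f => by fin_cases i <;> rfl) (p := fun z => Col (z 0) (z 1) ↔ Col (A s) (A t)) ξ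
    (h.inc hF hφ hσ hr Y₀ (A s) (A t) Θ hΘ ξ)

end inc

end Vale.Agent.P092.H416.CLG
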