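import Vale.Agent.P092.H416.P2Cls
import Vale.Agent.P092.H375.X2.Inc

/-!
P092 (helper416), [CL-CLS], part 3: THREE COLLINEAR POINTS STAY COLLINEAR, any form, any Witt index
`r ≥ 2`, from the exact incidence of pairs of points; no calculi of lines.
-/

set_option linter.all false

namespace Vale.Agent.P092.H416.CL

open Vale.Agent.P092.H303 (FormGroup)
open Vale.Agent.P092.H714.Cl
open Vale.Agent.P092.H370.Po
open Vale.Agent.P092.H820 Vale.Agent.P092.H466
open Vale.Agent.P092.H171 (co ms_restr exists_joint hom_uniq ae_ne)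
open Vale.Agent.P092.H375.X2 (Jf)
open Vale.Agent.P092.H100.Gr (Gr)
open Vale.Agent.P092.RC (Cm Moore PicX)
open TopologicalSpace Set Matrix Module MeasureTheory
open scoped LinearAlgebra.Projectivization Matrix InnerProductSpace

section alg

variable {n : Type} [Fintype n] [DecidableEq n] {k : Type} [NontriviallyNormedField k]
  {σ : k →+* k} {ε : k} {J : Matrix n n k}

theorem col_vec {X Y : SGr σ J 1} {x y : n → k} (hX : X.S = Submodule.span k {x})
    (hY : Y.S = Submodule.span k {y}) : Col X Y ↔ hf σ J x y = 0 := by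
  constructor
  · intro h
    exact h x (mem_of_span hX) y (mem_of_span hY)
  · intro h a ha b hb
    rw [hX] at ha
    rw [hY] at hb
    obtain ⟨c, rfl⟩ := Submodule.mem_span_singleton.1 ha
    obtain ⟨d, rfl⟩ := Submodule.mem_span_singleton.1 hb
    rw [hf_smul_left, hf_smul_right, h, mul_zero, mul_zero]

theorem hf_sum_left {κ : Type*} (s : Finset κ) (f : κ → n → k) (y : n → k) :
    hf σ J (∑ i ∈ s, f i) y = ∑ i ∈ s, hf σ J (f i) y := by
  classical
  induction s using Finset.induction_on with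
  | empty => rw [Finset.sum_empty, Finset.sum_empty, hf_zero_left]
  | insert a s ha ih => rw [Finset.sum_insert ha, Finset.sum_insert ha, hf_add_left, ih]

/-- a point perpendicular to a maximal singular frame and to all but two of the dual points lies
on the line of these two -/
theorem col_alg {κ : Type} [Fintype κ] (hF : Frm σ ε J)
    (hW : ∀ Y, Sing σ J Y → finrank k Y ≤ Fintype.card κ) {A B : κ → SGr σ J 1}
    {c : SGr σ J 1} {i₀ i₁ : κ} (h1 : ∀ i j, Col (A i) (A j))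
    (h2 : ∀ i j, Col (A i) (B j) ↔ i ≠ j) (h3 : ∀ i, Col (A i) c)
    (h4 : ∀ j, j ≠ i₀ → j ≠ i₁ → Col c (B j)) : c.S ≤ (A i₀).S ⊔ (A i₁).S := by
  classical
  choose a ha0 ha using fun i => exists_vec (A i)
  choose b hb0 hb using fun i => exists_vec (B i)
  obtain ⟨v, hv0, hv⟩ := exists_vec c
  have e1 : ∀ i j, hf σ J (a i) (a j) = 0 := fun i j => (col_vec (ha i) (ha j)).1 (h1 i j)
  have e2 : ∀ i j, hf σ J (a i) (b j) = 0 ↔ i ≠ j := fun i j =>
    (col_vec (ha i) (hb j)).symm.trans (h2 i j)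
  have e3 : ∀ i, hf σ J (a i) v = 0 := fun i => (col_vec (ha i) hv).1 (h3 i)
  have e4 : ∀ j, j ≠ i₀ → j ≠ i₁ → hf σ J v (b j) = 0 := fun j h h' =>
    (col_vec hv (hb j)).1 (h4 j h h')
  have key : ∀ (x : κ → k) (j : κ), hf σ J (∑ i, x i • a i) (b j) = x j * hf σ J (a j) (b j) := by
    intro x j
    rw [hf_sum_left, Finset.sum_eq_single j]
    · rw [hf_smul_left]
    · intro i _ hij
      rw [hf_smul_left, (e2 i j).2 hij, mul_zero]
    · exact fun h => absurd (Finset.mem_univ j) h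
  have hne : ∀ j, hf σ J (a j) (b j) ≠ 0 := fun j h => (e2 j j).1 h rfl
  have hli : LinearIndependent k a := by
    rw [Fintype.linearIndependent_iff]
    intro x hx j
    have h5 := key x j
    rw [hx, hf_zero_left] at h5
    exact (mul_eq_zero.1 h5.symm).resolve_right (hne j)
  obtain ⟨Y, hYd⟩ : ∃ Y, Y = Submodule.span k (range a) := ⟨_, rfl⟩
  have hYr : finrank k Y = Fintype.card κ := by rw [hYd, finrank_span_eq_card hli]
  have hYv : ∀ x ∈ Y, hf σ J x v = 0 := by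
    intro x hx
    rw [hYd] at hx
    induction hx using Submodule.span_induction with
    | mem x hx => obtain ⟨i, rfl⟩ := hx; exact e3 i
    | zero => exact hf_zero_left σ J _
    | add x y _ _ hx hy => rw [hf_add_left, hx, hy, add_zero]
    | smul c x _ hx => rw [hf_smul_left, hx, mul_zero]
  have hYs : Sing σ J Y := by
    have hYa : ∀ i, ∀ x ∈ Y, hf σ J x (a i) = 0 := by
      intro i x hx
      rw [hYd] at hx
      induction hx using Submodule.span_induction with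
      | mem x hx => obtain ⟨j, rfl⟩ := hx; exact e1 j i
      | zero => exact hf_zero_left σ J _
      | add x y _ _ hx hy => rw [hf_add_left, hx, hy, add_zero]
      | smul c x _ hx => rw [hf_smul_left, hx, mul_zero]
    intro x hx y hy
    rw [hYd] at hy
    induction hy using Submodule.span_induction with
    | mem y hy => obtain ⟨j, rfl⟩ := hy; exact hYa j x hx
    | zero => exact hf_zero_right σ J _
    | add y z _ _ h h' => rw [hf_add_right, h, h', add_zero]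
    | smul c y _ h => rw [hf_smul_right, h, mul_zero]
  have hvY : v ∈ Y := by
    by_contra hvn
    have h5 := hW _ (sing_sup_span hF hYs (c.sing.zero (mem_of_span hv)) hYv)
    rw [finrank_sup_span hvn, hYr] at h5
    omega
  rw [hYd] at hvY
  obtain ⟨x, hx⟩ := (Submodule.mem_span_range_iff_exists_fun k).1 hvY
  have hxj : ∀ j, j ≠ i₀ → j ≠ i₁ → x j = 0 := by
    intro j h h'
    have h5 := key x j
    rw [hx, e4 j h h'] at h5
    exact (mul_eq_zero.1 h5.symm).resolve_right (hne j)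
  rw [hv, Submodule.span_singleton_le_iff_mem, ← hx]
  refine Submodule.sum_mem _ fun i _ => ?_
  by_cases hi0 : i = i₀
  · subst hi0
    exact Submodule.mem_sup_left (Submodule.smul_mem _ _ (mem_of_span (ha i)))
  by_cases hi1 : i = i₁
  · subst hi1
    exact Submodule.mem_sup_right (Submodule.smul_mem _ _ (mem_of_span (ha i)))
  · rw [hxj i hi0 hi1, zero_smul]
    exact Submodule.zero_mem _

/-- the frame in the source -/
theorem exists_fr (hF : Frm σ ε J) {r : ℕ} (hr : 2 ≤ r) (Y₀ : SGr σ J r) {a b c : SGr σ J 1}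
    (hab : a ≠ b) (hcol : Col a b) (hc : c.S ≤ a.S ⊔ b.S) :
    ∃ (κ : Type) (_ : Fintype κ) (A B : κ → SGr σ J 1) (i₀ i₁ : κ), Fintype.card κ = r ∧
      A i₀ = a ∧ A i₁ = b ∧ (∀ i j, Col (A i) (A j)) ∧ (∀ i j, Col (A i) (B j) ↔ i ≠ j) ∧
      (∀ i, Col (A i) c) ∧ ∀ j, j ≠ i₀ → j ≠ i₁ → Col c (B j) := by
  classical
  obtain ⟨Y, haY, hbY⟩ := exists_max hF hr Y₀ hcol
  obtain ⟨x, hx0, hx⟩ := exists_vec a
  obtain ⟨y, hy0, hy⟩ := exists_vec b
  have hxY : x ∈ Y.S := haY (mem_of_span hx)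
  have hyY : y ∈ Y.S := hbY (mem_of_span hy)
  have hli2 : LinearIndependent k ![(⟨x, hxY⟩ : Y.S), ⟨y, hyY⟩] := by
    rw [LinearIndependent.pair_iff' (fun h => hx0 (congrArg Subtype.val h))]
    intro t ht
    apply hab
    refine (SGr.eq_of_le (X := b) (Y := a) ?_).symm
    have h5 : t • x = y := congrArg Subtype.val ht
    rw [hx, hy, Submodule.span_singleton_le_iff_mem, ← h5]
    exact Submodule.smul_mem _ _ (Submodule.mem_span_singleton_self x)
  have hs : LinearIndepOn k id (range ![(⟨x, hxY⟩ : Y.S), ⟨y, hyY⟩]) := hli2.linearIndepOn_id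
  obtain ⟨κ, hκ⟩ : ∃ κ, κ = ↥(hs.extend (subset_univ _)) := ⟨_, rfl⟩
  subst hκ
  let bs := Basis.extend hs
  haveI : Fintype ↥(hs.extend (subset_univ _)) := Fintype.ofFinite _
  have hcard : Fintype.card ↥(hs.extend (subset_univ _)) = r := by
    rw [← Module.finrank_eq_card_basis bs, Y.dim]
  have hm0 : (⟨x, hxY⟩ : Y.S) ∈ hs.extend (subset_univ _) :=
    Basis.subset_extend hs ⟨0, rfl⟩
  have hm1 : (⟨y, hyY⟩ : Y.S) ∈ hs.extend (subset_univ _) :=
    Basis.subset_extend hs ⟨1, rfl⟩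
  have hbs : ∀ i, bs i = i.1 := fun i => Basis.extend_apply_self hs i
  have hbn : ∀ i, ((bs i : Y.S) : n → k) ≠ 0 := fun i h => bs.ne_zero i (Subtype.ext h)
  have hbz : ∀ i, hf σ J (bs i : Y.S) (bs i : Y.S) = 0 := fun i => Y.sing.zero (bs i).2
  choose z hz1 hz2 using fun j => exists_iso_prod hF Y.sing (bs.coord j) (fun h => by
    have h5 := LinearMap.congr_fun h (bs j)
    rw [Basis.coord_apply, Basis.repr_self, Finsupp.single_eq_same] at h5
    exact one_ne_zero h5)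
  have hzb : ∀ i j, hf σ J (bs i : Y.S) (z j) = if i = j then 1 else 0 := by
    intro i j
    rw [hz2 j (bs i), Basis.coord_apply, Basis.repr_self, Finsupp.single_apply]
  have hzn : ∀ j, z j ≠ 0 := by
    intro j h
    have h5 := hzb j j
    rw [h, hf_zero_right, if_pos rfl] at h5
    exact zero_ne_one h5
  have hcY : c.S ≤ Y.S := hc.trans (sup_le haY hbY)
  refine ⟨_, inferInstance, fun i => pv σ J _ (hbn i) (hbz i), fun j => pv σ J _ (hzn j) (hz1 j),
    ⟨_, hm0⟩, ⟨_, hm1⟩, hcard, ?_, ?_, fun i j => ?_, fun i j => ?_, fun i => ?_, fun j h0 h1 => ?_⟩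
  · apply SGr.ext
    change Submodule.span k {((bs ⟨_, hm0⟩ : Y.S) : n → k)} = a.S
    rw [hbs, hx]
  · apply SGr.ext
    change Submodule.span k {((bs ⟨_, hm1⟩ : Y.S) : n → k)} = b.S
    rw [hbs, hy]
  · exact (col_vec rfl rfl).2 (Y.sing _ (bs i).2 _ (bs j).2)
  · rw [col_vec (σ := σ) (J := J) (x := ((bs i : Y.S) : n → k)) (y := z j) rfl rfl, hzb]
    by_cases hij : i = j
    · simp [hij]
    · simp [hij]
  · intro u hu w hw
    have hu' : u ∈ Y.S := by
      obtain ⟨t, rfl⟩ := Submodule.mem_span_singleton.1 hu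
      exact Submodule.smul_mem _ _ (bs i).2
    exact Y.sing u hu' w (hcY hw)
  · obtain ⟨w, hw0, hw⟩ := exists_vec c
    rw [col_vec (σ := σ) (J := J) hw (Y := pv σ J _ (hzn j) (hz1 j)) (y := z j) rfl]
    have hwY : w ∈ Y.S := hcY (mem_of_span hw)
    have hwm := hc (mem_of_span hw)
    rw [hx, hy] at hwm
    obtain ⟨p, hp, p', hp', rfl⟩ := Submodule.mem_sup.1 hwm
    obtain ⟨α, rfl⟩ := Submodule.mem_span_singleton.1 hp
    obtain ⟨β, rfl⟩ := Submodule.mem_span_singleton.1 hp'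
    rw [hf_add_left, hf_smul_left, hf_smul_left]
    have g0 : hf σ J x (z j) = 0 := by
      have := hzb ⟨_, hm0⟩ j
      rw [hbs, if_neg (fun h => h0 h.symm)] at this
      exact this
    have g1 : hf σ J y (z j) = 0 := by
      have := hzb ⟨_, hm1⟩ j
      rw [hbs, if_neg (fun h => h1 h.symm)] at this
      exact this
    rw [g0, g1, mul_zero, mul_zero, add_zero]

end alg

/-! ### Almost everywhere -/

section meas

variable {n : Type} [Fintype n] [DecidableEq n] {k : Type} [NontriviallyNormedField k]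
  [ProperSpace k] {σ : k →+* k} {J : Matrix n n k} [Fact (Continuous σ)]
  [MeasurableSpace (SGr σ J 1)] [BorelSpace (SGr σ J 1)]

/-- collinearity of three points is a Borel relation -/
theorem measurable_col3 :
    MeasurableSet {z : Fin 3 → SGr σ J 1 | (z 2).S ≤ (z 0).S ⊔ (z 1).S} := by
  have hD : IsClosed {z : Fin 3 → SGr σ J 1 | z 0 = z 1} :=
    isClosed_eq (continuous_apply 0) (continuous_apply 1)
  have hE : IsClosed {z : Fin 3 → SGr σ J 1 | z 2 = z 0} :=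
    isClosed_eq (continuous_apply 2) (continuous_apply 0)
  have hL : IsClosed {z : Fin 3 → SGr σ J 1 |
      ∃ l : Gr k n 2, (z 0).S ≤ l.1 ∧ (z 1).S ≤ l.1 ∧ (z 2).S ≤ l.1} := by
    have e : {z : Fin 3 → SGr σ J 1 |
        ∃ l : Gr k n 2, (z 0).S ≤ l.1 ∧ (z 1).S ≤ l.1 ∧ (z 2).S ≤ l.1} =
        Prod.fst '' {p : (Fin 3 → SGr σ J 1) × Gr k n 2 | (p.1 0).S ≤ p.2.1 ∧
          (p.1 1).S ≤ p.2.1 ∧ (p.1 2).S ≤ p.2.1} := by
      ext z
      constructor
      · rintro ⟨l, h⟩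
        exact ⟨(z, l), h, rfl⟩
      · rintro ⟨⟨z', l⟩, h, rfl⟩
        exact ⟨l, h⟩
    rw [e]
    have hc : ∀ i : Fin 3, IsClosed {p : (Fin 3 → SGr σ J 1) × Gr k n 2 |
        (p.1 i).S ≤ p.2.1} := fun i =>
      (H100.Gr.incG_closed (k := k) (ι := n) (i := 1) (j := 2)).preimage
        (f := fun p : (Fin 3 → SGr σ J 1) × Gr k n 2 => ((p.1 i).1, p.2))
        ((SGr.val_cont.comp ((continuous_apply i).comp continuous_fst)).prodMk continuous_snd)
    exact (((hc 0).inter ((hc 1).inter (hc 2))).isCompact.image continuous_fst).isClosed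
  have e : {z : Fin 3 → SGr σ J 1 | (z 2).S ≤ (z 0).S ⊔ (z 1).S} =
      ({z | z 0 = z 1} ∩ {z | z 2 = z 0}) ∪ ({z | z 0 = z 1}ᶜ ∩
        {z | ∃ l : Gr k n 2, (z 0).S ≤ l.1 ∧ (z 1).S ≤ l.1 ∧ (z 2).S ≤ l.1}) := by
    ext z
    simp only [mem_setOf_eq, mem_union, mem_inter_iff, mem_compl_iff]
    by_cases h01 : z 0 = z 1
    · simp only [h01, true_and, not_true_eq_false, false_and, or_false, sup_idem]
      exact ⟨fun h => SGr.eq_of_le h, fun h => by rw [h]⟩
    · simp only [h01, false_and, not_false_eq_true, true_and, false_or]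
      have hd : finrank k ↥((z 0).S ⊔ (z 1).S) = 2 := by
        obtain ⟨v, hv0, hv⟩ := exists_vec (z 1)
        have hvn : v ∉ (z 0).S := fun h => h01 (by
          refine (SGr.eq_of_le (X := z 1) (Y := z 0) ?_).symm
          rw [hv, Submodule.span_singleton_le_iff_mem]
          exact h)
        rw [hv, finrank_sup_span hvn, (z 0).dim]
      constructor
      · intro h
        exact ⟨⟨_, hd⟩, le_sup_left, le_sup_right, h⟩
      · rintro ⟨l, h0, h1, h2⟩
        have h5 : (z 0).S ⊔ (z 1).S = l.1 :=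
          Submodule.eq_of_le_of_finrank_eq (sup_le h0 h1) (hd.trans l.2.symm)
        rw [h5]
        exact h2
  rw [e]
  exact (hD.inter hE).measurableSet.union (hD.measurableSet.compl.inter hL.measurableSet)

variable {ε : k} {r : ℕ} {E₀ Γ K : Type} [Group E₀] [TopologicalSpace E₀] [Group Γ]
  [NormedAddCommGroup K] [InnerProductSpace ℂ K] [CompleteSpace K]
  {ι : FormGroup σ J →* E₀} {π : E₀ →* (K →L[ℂ] K)} {lam : Γ →* (K →L[ℂ] K)}
  {W : Set (K →L[ℂ] K)} {Ω : K} {q : Γ → FormGroup σ J}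
  {Ec : SGr σ J 1 → (C(SGr σ J 1, ℂ) →⋆ₐ[ℂ] (K →L[ℂ] K))}
  {F : SGr σ J r → (C(SGr σ J r, ℂ) →⋆ₐ[ℂ] (K →L[ℂ] K))}

/-- the exact pattern of a finite family of points -/
theorem Pts.pattern [Nontrivial K] (h : Pts ι π lam W Ω q Ec F) (hF : Frm σ ε J)
    (hσ : Continuous σ) (hr : 2 ≤ r) (Y₀ : SGr σ J r) {κ : Type} [Fintype κ]
    {A : κ → SGr σ J 1} {Ψ : C(κ → SGr σ J 1, ℂ) →⋆ₐ[ℂ] (K →L[ℂ] K)}
    (hΨ : Jf (fun i => Ec (A i)) Ψ) (ξ : K) :
    ∀ᵐ z ∂(ms Ψ ξ), ∀ s t, (Col (z s) (z t) ↔ Col (A s) (A t)) := by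
  refine ae_all_iff.2 fun s => ae_all_iff.2 fun t => ?_
  obtain ⟨Θ, hΘ⟩ := exists_joint (fun i => Ec (![A s, A t] i)) fun i j f g => h.com _ _ f g
  exact hΨ.pull (φ' := fun i : Fin 2 => Ec (![A s, A t] i)) hΘ ![s, t]
    (fun i f => by fin_cases i <;> rfl) (p := fun z => Col (z 0) (z 1) ↔ Col (A s) (A t)) ξ
    (h.inc hF hσ hr Y₀ (A s) (A t) Θ hΘ ξ)

/-- **three collinear points stay collinear** -/
theorem Pts.col3 [Nontrivial K] (h : Pts ι π lam W Ω q Ec F) (hF : Frm σ ε J)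
    (hσ : Continuous σ) (hW : WI σ J r) (hr : 2 ≤ r) (Y₀ : SGr σ J r) {a b c : SGr σ J 1}
    (hab : a ≠ b) (hcol : Col a b) (hc : c.S ≤ a.S ⊔ b.S)
    (Ψ : C(Fin 3 → SGr σ J 1, ℂ) →⋆ₐ[ℂ] (K →L[ℂ] K))
    (hΨ : ∀ i f, Ψ (co i f) = Ec (![a, b, c] i) f) (ξ : K) :
    ∀ᵐ z ∂(ms Ψ ξ), (z 2).S ≤ (z 0).S ⊔ (z 1).S := by
  obtain ⟨κ, hκ, A, B, i₀, i₁, hcard, hA0, hA1, h1, h2, h3, h4⟩ :=
    exists_fr hF hr Y₀ hab hcol hc
  let D : (κ ⊕ κ) ⊕ Unit → SGr σ J 1 := Sum.elim (Sum.elim A B) (fun _ => c)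
  obtain ⟨Θ, hΘ⟩ := exists_joint (fun i => Ec (D i)) fun i j f g => h.com _ _ f g
  have hΘ' : Jf (fun i => Ec (D i)) Θ := hΘ
  have hΨ' : Jf (fun i => Ec (![a, b, c] i)) Ψ := hΨ
  refine hΘ'.push hΨ' ![.inl (.inl i₀), .inl (.inl i₁), .inr ()] (fun i f => ?_)
    (p := fun z => (z 2).S ≤ (z 0).S ⊔ (z 1).S) measurable_col3 ξ ?_
  · fin_cases i
    · change Ec a f = Ec (A i₀) f
      rw [hA0]
    · change Ec b f = Ec (A i₁) f
      rw [hA1]
    · rfl
  · filter_upwards [h.pattern hF hσ hr Y₀ hΘ' ξ] with z hz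
    refine col_alg hF (fun Y hY => (hW.2 Y hY).trans_eq hcard.symm)
      (A := fun i => z (.inl (.inl i))) (B := fun i => z (.inl (.inr i))) (c := z (.inr ()))
      (i₀ := i₀) (i₁ := i₁) (fun i j => (hz _ _).2 (h1 i j))
      (fun i j => (hz (.inl (.inl i)) (.inl (.inr j))).trans (h2 i j))
      (fun i => (hz _ _).2 (h3 i)) (fun j h0 h0' => (hz _ _).2 (h4 j h0 h0'))

/-- two different points stay different -/
theorem dst2 (agr : ∀ v v', v ≠ v' → ∀ ξ, (∀ f, Ec v f ξ = Ec v' f ξ) → ξ = 0)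
    {a b : SGr σ J 1} (hab : a ≠ b) (Ψ : C(Fin 2 → SGr σ J 1, ℂ) →⋆ₐ[ℂ] (K →L[ℂ] K))
    (hΨ : ∀ i f, Ψ (co i f) = Ec (![a, b] i) f) (ξ : K) : ∀ᵐ z ∂(ms Ψ ξ), z 0 ≠ z 1 :=
  ae_ne (φ := fun i => Ec (![a, b] i)) hΨ (i := 0) (j := 1) (fun ξ hξ => agr a b hab ξ hξ) ξ

end meas

/-! ### On the projective space -/

section proj

variable {n : Type} [Fintype n] [DecidableEq n] {k : Type} [NontriviallyNormedField k]
  {σ : k →+* k} {J : Matrix n n k} {N : ℕ}

/-- the coordinates as a linear equivalence -/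
def corE (e : n ≃ Fin (N + 1)) : (n → k) ≃ₗ[k] (Fin (N + 1) → k) where
  toFun := cor e
  invFun := roc e
  map_add' := cor_add e
  map_smul' := cor_smul e
  left_inv := roc_cor e
  right_inv := cor_roc e

theorem pt_submodule (e : n ≃ Fin (N + 1)) (X : SGr σ J 1) :
    (pt e X).submodule = X.S.map (corE e).toLinearMap := by
  obtain ⟨x, hx, hX⟩ := exists_vec X
  rw [pt_eq e hx (mem_of_span hX), hX, Submodule.map_span, image_singleton]
  exact Projectivization.submodule_mk _ _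

theorem le_pt (e : n ≃ Fin (N + 1)) (X Y Z : SGr σ J 1) :
    (pt e X).submodule ≤ (pt e Y).submodule ⊔ (pt e Z).submodule ↔ X.S ≤ Y.S ⊔ Z.S := by
  rw [pt_submodule, pt_submodule, pt_submodule, ← Submodule.map_sup]
  exact Submodule.map_le_map_iff_of_injective (corE e).injective _ _

variable [ProperSpace k] [Fact (Continuous σ)] [MeasurableSpace (SGr σ J 1)]
  [BorelSpace (SGr σ J 1)] {ε : k} {r : ℕ} {E₀ Γ K : Type} [Group E₀] [TopologicalSpace E₀]
  [Group Γ] [NormedAddCommGroup K] [InnerProductSpace ℂ K] [CompleteSpace K]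
  {ι : FormGroup σ J →* E₀} {π : E₀ →* (K →L[ℂ] K)} {lam : Γ →* (K →L[ℂ] K)}
  {W : Set (K →L[ℂ] K)} {Ω : K} {q : Γ → FormGroup σ J}
  {Ec : SGr σ J 1 → (C(SGr σ J 1, ℂ) →⋆ₐ[ℂ] (K →L[ℂ] K))}
  {F : SGr σ J r → (C(SGr σ J r, ℂ) →⋆ₐ[ℂ] (K →L[ℂ] K))}

/-- the field `dst` of `PL` -/
theorem dst_pt (e : n ≃ Fin (N + 1)) (com : ∀ c c' f g, Commute (Ec c f) (Ec c' g))
    (agr : ∀ v v', v ≠ v' → ∀ ξ, (∀ f, Ec v f ξ = Ec v' f ξ) → ξ = 0)
    {a b : SGr σ J 1} (hab : a ≠ b)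
    (Φ : C(Fin 2 → ℙ k (Fin (N + 1) → k), ℂ) →⋆ₐ[ℂ] (K →L[ℂ] K))
    (hΦ : ∀ i f, Φ (co i f) = EP e Ec (![a, b] i) f) (ξ : K) : ∀ᵐ z ∂(ms Φ ξ), z 0 ≠ z 1 := by
  obtain ⟨Ψ, hΨ⟩ := exists_joint (fun i => Ec (![a, b] i)) fun i j f g => com _ _ f g
  rw [ae_EP e hΦ hΨ ξ]
  filter_upwards [dst2 agr hab Ψ hΨ ξ] with z hz h'
  exact hz (pt_inj e h')

/-- the field `col` of `PL` -/
theorem Pts.col_pt3 [Nontrivial K] (h : Pts ι π lam W Ω q Ec F) (hF : Frm σ ε J)
    (hσ : Continuous σ) (hW : WI σ J r) (hr : 2 ≤ r) (Y₀ : SGr σ J r) (e : n ≃ Fin (N + 1))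
    {a b c : SGr σ J 1} (hab : a ≠ b) (hcol : Col a b)
    (hc : (pt e c).submodule ≤ (pt e a).submodule ⊔ (pt e b).submodule)
    (Φ : C(Fin 3 → ℙ k (Fin (N + 1) → k), ℂ) →⋆ₐ[ℂ] (K →L[ℂ] K))
    (hΦ : ∀ i f, Φ (co i f) = EP e Ec (![a, b, c] i) f) (ξ : K) :
    ∀ᵐ z ∂(ms Φ ξ), (z 2).submodule ≤ (z 0).submodule ⊔ (z 1).submodule := by
  obtain ⟨Ψ, hΨ⟩ := exists_joint (fun i => Ec (![a, b, c] i)) fun i j f g => h.com _ _ f g
  rw [ae_EP e hΦ hΨ ξ]
  filter_upwards [h.col3 hF hσ hW hr Y₀ hab hcol ((le_pt e _ _ _).1 hc) Ψ hΨ ξ] with z hz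
  exact (le_pt e _ _ _).2 hz

end proj

end Vale.Agent.P092.H416.CL
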