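import Vale.Agent.P092.CL.Defs
import Vale.Agent.P092.H370.Po4

/-!
P092 (helper416), [CL-CLS], part 2: the isometries which fix two vectors perpendicular to an
isotropic one are unbounded (transvections), every form; Moore sets in the letters of CL/Defs.
-/

set_option linter.all false

namespace Vale.Agent.P092.H416.CL

open Vale.Agent.P092.H303 (FormGroup)
open Vale.Agent.P092.H714.Cl
open Vale.Agent.P092.H370.Po
open Vale.Agent.P092.RC (Cm Moore PicX)
open TopologicalSpace Set Matrix Module Filter Topology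
open scoped Matrix

section alg

variable {n : Type} [Fintype n] [DecidableEq n] {k : Type} [NontriviallyNormedField k]
  {σ : k →+* k} {ε : k} {J : Matrix n n k}

/-- unbounded scalars for transvections -/
theorem exists_cc (hF : Frm σ ε J) (hσ : Continuous σ) (C : ℝ) :
    ∃ c : k, c + ε * σ c = 0 ∧ C ≤ ‖c‖ := by
  obtain ⟨c₀, h0, hc₀⟩ := hF.cc
  obtain ⟨s, hs⟩ := NormedField.exists_one_lt_norm k
  have hs0 : s ≠ 0 := fun h => by rw [h, norm_zero] at hs; exact absurd hs (by norm_num)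
  -- `σ s` is big
  have h1 : 1 < ‖σ s‖ := by
    have t1 : Tendsto (fun m : ℕ => s⁻¹ ^ m) atTop (𝓝 0) := by
      refine tendsto_pow_atTop_nhds_zero_of_norm_lt_one ?_
      rw [norm_inv]
      exact inv_lt_one_of_one_lt₀ hs
    have t2 : Tendsto (fun m : ℕ => σ (s⁻¹ ^ m)) atTop (𝓝 (σ 0)) :=
      (hσ.tendsto 0).comp t1
    rw [map_zero] at t2
    have t3 : ∀ᶠ m : ℕ in atTop, ‖σ (s⁻¹ ^ m)‖ < 1 := by
      have := t2.norm
      rw [norm_zero] at this
      exact this.eventually_lt_const one_pos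
    obtain ⟨m, hm⟩ := t3.exists
    rw [map_pow, map_inv₀, norm_pow, norm_inv] at hm
    by_contra hcon
    rw [not_lt] at hcon
    have h2 : 0 < ‖σ s‖ := norm_pos_iff.2 fun h => hs0 ((map_eq_zero σ).1 h)
    have h3 : 1 ≤ ‖σ s‖⁻¹ := (one_le_inv₀ h2).2 hcon
    exact absurd hm (not_lt.2 (one_le_pow₀ h3))
  have ha : 1 < ‖s * σ s‖ := by
    rw [norm_mul]
    nlinarith
  have hfix : σ (s * σ s) = s * σ s := by rw [map_mul, hF.inv, mul_comm]
  have hc0 : 0 < ‖c₀‖ := norm_pos_iff.2 h0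
  obtain ⟨m, hm⟩ := pow_unbounded_of_one_lt (C / ‖c₀‖) ha
  refine ⟨(s * σ s) ^ m * c₀, ?_, ?_⟩
  · rw [map_mul, map_pow, hfix]
    calc (s * σ s) ^ m * c₀ + ε * ((s * σ s) ^ m * σ c₀)
        = (s * σ s) ^ m * (c₀ + ε * σ c₀) := by ring
      _ = 0 := by rw [hc₀, mul_zero]
  · rw [norm_mul, norm_pow]
    rw [div_lt_iff₀ hc0] at hm
    exact hm.le

/-- **unbounded fixators**: `u` isotropic, perpendicular to a set of vectors -/
theorem fix_unbdd (hF : Frm σ ε J) (hσ : Continuous σ) {u : n → k} (hu0 : u ≠ 0)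
    (hu : hf σ J u u = 0) (C : ℝ) : ∃ g : FormGroup σ J,
      (∀ v, hf σ J v u = 0 → v ᵥ* g.1.1 = v) ∧ ∃ i j, C ≤ ‖g.1.1 i j‖ := by
  -- the row and the column
  obtain ⟨j, hj⟩ := Function.ne_iff.1 hu0
  have h1 : ∃ i, (J *ᵥ fun i => σ (u i)) i ≠ 0 := by
    by_contra hcon
    push Not at hcon
    obtain ⟨y, hy⟩ := hF.nondeg u hu0
    have h2 : hf σ J y u = 0 := by
      unfold hf
      rw [dotProduct]
      exact Finset.sum_eq_zero fun i _ => by rw [hcon i, mul_zero]
    have h3 := hF.herm y u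
    rw [h2, map_zero, mul_zero] at h3
    exact hy h3
  obtain ⟨i, hi⟩ := h1
  have hp : 0 < ‖(J *ᵥ fun i => σ (u i)) i‖ * ‖u j‖ :=
    mul_pos (norm_pos_iff.2 hi) (norm_pos_iff.2 hj)
  obtain ⟨c, hc, hcC⟩ := exists_cc hF hσ ((C + 1) / (‖(J *ᵥ fun i => σ (u i)) i‖ * ‖u j‖))
  refine ⟨⟨tv σ J u c, tv_mem hF hu hc⟩, fun v hv => ?_, i, j, ?_⟩
  · change v ᵥ* (tv σ J u c).1 = v
    rw [vecMul_tv hu, hv, mul_zero, zero_smul, add_zero]
  · change C ≤ ‖(tv σ J u c).1 i j‖
    rw [tv_val hu]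
    have e : tvm σ J u c i j = (1 : Matrix n n k) i j + (J *ᵥ fun i => σ (u i)) i * (c * u j) := by
      unfold tvm
      rw [Matrix.add_apply, vecMulVec_apply]
      rfl
    rw [e]
    have h4 : ‖(1 : Matrix n n k) i j‖ ≤ 1 := by
      rw [Matrix.one_apply]
      split_ifs
      · exact norm_one.le
      · rw [norm_zero]; exact zero_le_one
    have h5 : C + 1 ≤ ‖(J *ᵥ fun i => σ (u i)) i * (c * u j)‖ := by
      rw [norm_mul, norm_mul]
      rw [div_le_iff₀ hp] at hcC
      calc C + 1 ≤ ‖c‖ * (‖(J *ᵥ fun i => σ (u i)) i‖ * ‖u j‖) := hcC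
        _ = _ := by ring
    have h6 := norm_sub_le_norm_add ((J *ᵥ fun i => σ (u i)) i * (c * u j))
      ((1 : Matrix n n k) i j)
    rw [add_comm] at h6
    linarith

/-- the inverse fixes the same vectors -/
theorem fix_inv {g : FormGroup σ J} {v : n → k} (h : v ᵥ* g.1.1 = v) : v ᵥ* (g.1⁻¹).1 = v := by
  conv_lhs => rw [← h]
  exact vecMul_cancel_inv v g.1

/-- a nonzero vector perpendicular to two vectors -/
theorem exists_perp (v w : n → k) (hn : 2 < Fintype.card n) (hF : Frm σ ε J) :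
    ∃ u : n → k, u ≠ 0 ∧ hf σ J u v = 0 ∧ hf σ J u w = 0 := by
  let φ : (n → k) →ₗ[k] (k × k) :=
    { toFun := fun u => (hf σ J u v, hf σ J u w)
      map_add' := fun a b => by rw [hf_add_left, hf_add_left]; rfl
      map_smul' := fun c a => by rw [hf_smul_left, hf_smul_left]; rfl }
  have h1 : ∃ u, u ≠ 0 ∧ φ u = 0 := by
    by_contra hcon
    push Not at hcon
    have hinj : Function.Injective φ := (injective_iff_map_eq_zero φ).2 fun u hu => by
      by_contra h0
      exact hcon u h0 hu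
    have h2 := LinearMap.finrank_le_finrank_of_injective hinj
    rw [finrank_pi, Module.finrank_prod, finrank_self] at h2
    omega
  obtain ⟨u, hu0, hu⟩ := h1
  exact ⟨u, hu0, congrArg Prod.fst hu, congrArg Prod.snd hu⟩

end alg

section moore

variable {n : Type} [Fintype n] [DecidableEq n] {k : Type} [NontriviallyNormedField k]
  {σ : k →+* k} {ε : k} {J : Matrix n n k} {P M V₁ V₂ : Type} [MeasurableSpace V₁]
  [MeasurableSpace V₂] [MulAction (FormGroup σ J) P] [TopologicalSpace P]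
  [CompactSpace P] [ContinuousConstSMul (FormGroup σ J) P] [MulAction (FormGroup σ J) M]
  [TopologicalSpace M] [CompactSpace M] [ContinuousConstSMul (FormGroup σ J) M]
  [NormedAddCommGroup V₁] [NormedAddCommGroup V₂]
  {L : P092.CL.Lt (FormGroup σ J) P M V₁ V₂} {E₀ : Type} [Group E₀] [TopologicalSpace E₀]
  {ι : FormGroup σ J →* E₀}

/-- sets with unbounded entries are Moore sets -/
theorem moore_of (hG : P092.CL.Geo L) (hA : P092.CL.Adm L ι) {T : Set (FormGroup σ J)}
    (hT : ∀ C : ℝ, ∃ g ∈ T, ∃ i j, C ≤ ‖g.1.1 i j‖) : Moore (ι '' T) := by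
  refine hA.moore T fun C => ?_
  by_contra hcon
  push Not at hcon
  have hK := hG.nm_cpt C
  have hc : Continuous fun g : FormGroup σ J => ∑ i, ∑ j, ‖g.1.1 i j‖ := by
    refine continuous_finset_sum _ fun i _ => continuous_finset_sum _ fun j _ => ?_
    have h1 : Continuous fun g : FormGroup σ J => g.1.1 :=
      continuous_subtype_val.comp continuous_subtype_val
    exact (h1.matrix_elem i j).norm
  obtain ⟨B, hB⟩ := hK.bddAbove_image hc.continuousOn
  obtain ⟨g, hg, i, j, hij⟩ := hT (B + 1)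
  have h2 : ∑ i, ∑ j, ‖g.1.1 i j‖ ≤ B := hB ⟨g, (hcon g hg).le, rfl⟩
  have h3 : ‖g.1.1 i j‖ ≤ ∑ i, ∑ j, ‖g.1.1 i j‖ :=
    (Finset.single_le_sum (f := fun j => ‖g.1.1 i j‖) (fun j _ => norm_nonneg _)
      (Finset.mem_univ j)).trans
      (Finset.single_le_sum (f := fun i => ∑ j, ‖g.1.1 i j‖)
        (fun i _ => Finset.sum_nonneg fun j _ => norm_nonneg _) (Finset.mem_univ i))
  linarith

/-- the fixator of the vectors perpendicular to an isotropic one is a Moore set -/
theorem moore_fix (hG : P092.CL.Geo L) (hA : P092.CL.Adm L ι) (hF : Frm σ ε J)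
    (hσ : Continuous σ) {u : n → k} (hu0 : u ≠ 0) (hu : hf σ J u u = 0)
    {T : Set (FormGroup σ J)}
    (hT : ∀ g : FormGroup σ J, (∀ v, hf σ J v u = 0 → v ᵥ* g.1.1 = v) → g ∈ T) :
    Moore (ι '' T) := by
  refine moore_of hG hA fun C => ?_
  obtain ⟨g, h1, h2⟩ := fix_unbdd hF hσ hu0 hu C
  exact ⟨g, hT g h1, h2⟩

end moore

end Vale.Agent.P092.H416.CL
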