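import Vale.Agent.P092.H416.CLas

/-!
P092 (helper416), [CLO-CLS]: Moore sets of any source group mapped continuously into the isometry
group.
-/

set_option linter.all false

namespace Vale.Agent.P092.H416.CLG

open Vale.Agent.P092.H303 (FormGroup)
open Vale.Agent.P092.RC (Cm Moore PicX)
open Vale.Agent.P092.H714.Cl
open Vale.Agent.P092.H370.Po
open TopologicalSpace Set Matrix Module Filter Topology
open scoped Matrix

section moore

variable {n : Type} [Fintype n] [DecidableEq n] {k : Type} [NontriviallyNormedField k]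
  {σ : k →+* k} {J : Matrix n n k} {P M V₁ V₂ : Type} [MeasurableSpace V₁]
  [MeasurableSpace V₂] {S : Type} [Group S] [TopologicalSpace S] [MulAction S P]
  [TopologicalSpace P] [CompactSpace P] [ContinuousConstSMul S P] [MulAction S M]
  [TopologicalSpace M] [CompactSpace M] [ContinuousConstSMul S M]
  [NormedAddCommGroup V₁] [NormedAddCommGroup V₂]
  {L : P092.CL.Lt S P M V₁ V₂} {E₀ : Type} [Group E₀] [TopologicalSpace E₀]
  {ι : S →* E₀} {φ : S →* FormGroup σ J}

/-- sets with unbounded entries are Moore sets -/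
theorem moore_gen (hG : P092.CL.Geo L) (hA : P092.CL.Adm L ι) (hφ : Continuous φ) {T : Set S}
    (hT : ∀ C : ℝ, ∃ g ∈ T, ∃ i j, C ≤ ‖(φ g).1.1 i j‖) : Moore (ι '' T) := by
  refine hA.moore T fun C => ?_
  by_contra hcon
  push Not at hcon
  have hK := hG.nm_cpt C
  have hc : Continuous fun g : S => ∑ i, ∑ j, ‖(φ g).1.1 i j‖ := by
    refine continuous_finset_sum _ fun i _ => continuous_finset_sum _ fun j _ => ?_
    have h0 : Continuous fun g : FormGroup σ J => g.1.1 :=
      continuous_subtype_val.comp continuous_subtype_val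
    have h1 : Continuous fun g : S => (φ g).1.1 := h0.comp hφ
    exact (h1.matrix_elem i j).norm
  obtain ⟨B, hB⟩ := hK.bddAbove_image hc.continuousOn
  obtain ⟨g, hg, i, j, hij⟩ := hT (B + 1)
  have h2 : ∑ i, ∑ j, ‖(φ g).1.1 i j‖ ≤ B := hB ⟨g, (hcon g hg).le, rfl⟩
  have h3 : ‖(φ g).1.1 i j‖ ≤ ∑ i, ∑ j, ‖(φ g).1.1 i j‖ :=
    (Finset.single_le_sum (f := fun j => ‖(φ g).1.1 i j‖) (fun j _ => norm_nonneg _)
      (Finset.mem_univ j)).trans
      (Finset.single_le_sum (f := fun i => ∑ j, ‖(φ g).1.1 i j‖)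
        (fun i _ => Finset.sum_nonneg fun j _ => norm_nonneg _) (Finset.mem_univ i))
  linarith

end moore

end Vale.Agent.P092.H416.CLG
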