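import Vale.Agent.P092.CL.Main
import Vale.Agent.P092.H416.CLas

/-!
P092 (helper416), [CL-CLS] in the literal of CL/Main: `ClsStmt e L`.
-/

set_option linter.all false

namespace Vale.Agent.P092.CL

open Vale.Agent.P092.H303 (FormGroup hyp Idx)
open Vale.Agent.P092.H714.Cl (Frm)
open Vale.Agent.P092.H370.Po
open Vale.Agent.P092.H370.Fo (Wf)
open MeasureTheory

section abs

variable {n : Type} [Fintype n] [DecidableEq n] {k : Type} [NontriviallyNormedField k]
  [ProperSpace k] {σ : k →+* k} [Fact (Continuous σ)] {ε : k} {J : Matrix n n k} {N r : ℕ}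
  {V₁ V₂ : Type} [MeasurableSpace V₁] [MeasurableSpace V₂] [NormedAddCommGroup V₁]
  [NormedAddCommGroup V₂] {L : Lt (FormGroup σ J) (SGr σ J 1) (SGr σ J r) V₁ V₂}

/-- **[CL-CLS]**, every form -/
theorem clsStmt (hG : Geo L) (hIn : L.In = Inc) (e : n ≃ Fin (N + 1)) (hF : Wf σ ε J r)
    (hr : 2 ≤ r) : ClsStmt e L :=
  fun 𝒰 ι π lam W Ω m q Ec F h => H416.CLG.clsCLw hG hIn e hF hr h

end abs

end Vale.Agent.P092.CL
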