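import Vale.Agent.P092.CL.MainO
import Vale.Agent.P092.CL.LtO2
import Vale.Agent.P092.H416.CLtau

/-!
P092 (helper416), [CLO-CLS] in the literal of CL/MainO: `ClsStmtP e φ L`, and for the orthogonal
letters `ltO`.
-/

set_option linter.all false

namespace Vale.Agent.P092.CL

open Vale.Agent.P092.H303 (FormGroup hyp Idx)
open Vale.Agent.P092.H370.Po
open Vale.Agent.P092.H370.Fo (Wf EU)
open MeasureTheory

section abs

variable {n : Type} [Fintype n] [DecidableEq n] {k : Type} [NontriviallyNormedField k]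
  [ProperSpace k] {σ : k →+* k} [Fact (Continuous σ)] {ε : k} {J : Matrix n n k} {N r : ℕ}
  {V₁ V₂ : Type} [MeasurableSpace V₁] [MeasurableSpace V₂] [NormedAddCommGroup V₁]
  [NormedAddCommGroup V₂] {S : Type} [Group S] [TopologicalSpace S]
  [MulAction S (SGr σ J 1)] [ContinuousConstSMul S (SGr σ J 1)] [MulAction S (SGr σ J r)]
  [ContinuousConstSMul S (SGr σ J r)] {φ : S →* FormGroup σ J}
  {L : Lt S (SGr σ J 1) (SGr σ J r) V₁ V₂}

/-- **[CLO-CLS]**, every form, every group between `EU` and the isometry group -/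
theorem clsStmtP (hG : Geo L) (hIn : L.In = Inc) (hφc : Continuous φ)
    (hφ : ∀ g : FormGroup σ J, g.1 ∈ EU σ ε J → ∃ s, φ s = g)
    (hact : ∀ (g : S) (x : SGr σ J 1), g • x = φ g • x) (e : n ≃ Fin (N + 1)) (hF : Wf σ ε J r)
    (hr : 2 ≤ r) : ClsStmtP e φ L :=
  fun 𝒰 ι π lam W Ω m q Ec F h => H416.CLG.clsG hG hIn hφc hφ hact e hF hr h

end abs

section lt_

variable {k : Type} [NontriviallyNormedField k] [ProperSpace k] [MeasurableSpace k] {ι₀ : Type}
  [Fintype ι₀] [DecidableEq ι₀] {s N : ℕ} {J₀ : Matrix ι₀ ι₀ k}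

/-- **[CLO-CLS]** for the orthogonal letters -/
theorem clsStmtO (e : Idx (s + 2) ι₀ ≃ Fin (N + 1)) (h : OF J₀) {a : k} (ha : a ≠ 0)
    (μ₁ : Measure k) (μ₂ : Measure (ι₀ → k)) (hG : Geo (ltO h s ha μ₁ μ₂)) :
    ClsStmtP e (phiO s J₀) (ltO h s ha μ₁ μ₂) :=
  clsStmtP hG rfl continuous_subtype_val (hphiO (s := s)) (fun _ _ => rfl) e (h.wf s)
    (Nat.le_add_left 2 s)

end lt_

end Vale.Agent.P092.CL
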