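import Vale.Agent.P092.H416.SpCls
import Vale.Agent.P092.H483.Inc
import Vale.Agent.P092.SP.Com
import Vale.Agent.P092.SP.Blocks2

/-!
P092 (helper416), TEAM P: `SP.ClsStmt`: a straight leg of `Sp_4(k)` in which all calculi commute is
classical. Incidence of two points from helper483's exact pattern.
-/

set_option linter.all false

namespace Vale.Agent.P092.H416

open Vale.Agent.P092.H820 Vale.Agent.P092.H466 Vale.Agent.P092.H171
open Vale.Agent.P092.H789 (PG YY)
open Vale.Agent.P092.SP4
open TopologicalSpace Set MeasureTheory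
open scoped LinearAlgebra.Projectivization InnerProductSpace ZeroAtInfty

section geo

variable {k : Type} [NontriviallyNormedField k]

theorem sq_on : H831.SQ (on : YY k 3 → LL k → Prop) where
  uniq := SP.gq_on.uniq
  proj p l := by
    by_cases h : on p l
    · exact ⟨p, l, h, h, h⟩
    · obtain ⟨y, m, h1, h2, h3⟩ := SP.gq_on.foot p l h
      exact ⟨y, m, h3, h1, h2⟩
  tri p l q q' m m' hn h1 h2 h3 h4 h5 h6 := SP.gq_on.tri q q' p l m m' hn h3 h2 h6 h5 h1 h4
  two := SP.gq_on.ln2
  two' := SP.gq_on.pt2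

theorem tq_on : H831.TQ (on : YY k 3 → LL k → Prop) where
  closed := on_closed
  uniq := SP.gq_on.uniq
  tri := SP.gq_on.tri

/-- two points are perpendicular if and only if they are on a common line -/
theorem prp_iff_ln (x y : YY k 3) : prp x y ↔ ∃ l : LL k, on x l ∧ on y l := by
  constructor
  · intro h
    rcases eq_or_ne x y with rfl | hne
    · obtain ⟨l, -, -, h1, -⟩ := SP.gq_on.ln2 x
      exact ⟨l, h1, h1⟩
    · exact exists_ln hne h
  · rintro ⟨l, h1, h2⟩
    exact prp_of_on h1 h2

end geo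

section cls

variable {k : Type} [NontriviallyNormedField k] [ProperSpace k]

/-- **[P-CLS]** -/
theorem clsStmt [MeasurableSpace k] (μ : Measure k) : SP.ClsStmt k μ := by
  intro E Γ K _ _ _ _ _ _ w 𝒰 ι a π lam W Ω m q Ec F h
  have hF : H831.Fam (on : YY k 3 → LL k → Prop) (on : YY k 3 → LL k → Prop) Ec F :=
    { flg := fun p l hpl => ⟨(h.leg.pl p l hpl).com, (h.leg.pl p l hpl).inc⟩
      col := fun p p' l hne h1 h2 => ⟨h.com.ee p p', h.leg.e.agr p p' hne⟩
      cop := fun l l' p hne h1 h2 => ⟨h.com.ff l l', h.leg.f.agr l l' hne⟩ }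
  refine clsN_of_inc h.leg.base.adm h.leg.base.pic h.leg.e.cm h.leg.e.cov h.leg.e.pcov h.com.ee
    fun x y Φ hΦ ξ => ?_
  filter_upwards [H483.Inc.ae_two sq_on tq_on hF x y Φ hΦ ξ] with z hz
  rw [prp_iff_ln, prp_iff_ln]
  exact hz

end cls

end Vale.Agent.P092.H416
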