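import Vale.Agent.P092.H375.ClsG
import Vale.Agent.P092.H789.Fr

/-!
P092 (helper416), [Sp-CLS]: a commuting leg whose source is ANY group `S` of projective
transformations (`Sp_2n(k)`, `SL_n(k)`, ..); the random configuration of helper375 for it.
-/

set_option linter.all false

namespace Vale.Agent.P092.H416

open Vale.Agent.P092.H820 Vale.Agent.P092.H466 Vale.Agent.P092.H171 Vale.Agent.P092.H375.Cls
open Vale.Agent.P092.H789 (PG)
open TopologicalSpace Set MeasureTheory Matrix Module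
open scoped LinearAlgebra.Projectivization Matrix InnerProductSpace

variable {k : Type} [NontriviallyNormedField k] [ProperSpace k] {n : ℕ}
  {S Γ K : Type} [Group S] [Group Γ] [NormedAddCommGroup K] [InnerProductSpace ℂ K]
  [CompleteSpace K]

/-- commuting points with their covariances; the source is a group `S` acting on the projective
space through `ρ : S →* PGL_n(k)` -/
structure PreG (ρ : S →* PG k n) (π : S →* (K →L[ℂ] K))
    (lam : Γ →* (K →L[ℂ] K)) (W : Set (K →L[ℂ] K)) (q : Γ → SpecialLinearGroup (Fin n) k)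
    (E : ℙ k (Fin n → k) → (C(ℙ k (Fin n → k), ℂ) →⋆ₐ[ℂ] (K →L[ℂ] K))) : Prop where
  cm : ∀ a f, ∀ w ∈ W, E a f * w = w * E a f
  cov : ∀ γ a f, lam γ * E a f * lam γ⁻¹ = E a (tr (q γ) f)
  pcov : ∀ g a f, π g * E a f * π g⁻¹ = E (ρ g • a) f
  com : ∀ a b f g, Commute (E a f) (E b g)

/-- A leg in which all points commute and which preserves the matroids; the source is a group `S`
acting on the projective space through `ρ`. `W` and `lam` are only used for the ergodicity. -/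
structure LegG (ρ : S →* PG k n) (π : S →* (K →L[ℂ] K))
    (lam : Γ →* (K →L[ℂ] K)) (W : Set (K →L[ℂ] K)) (q : Γ → SpecialLinearGroup (Fin n) k)
    (E : ℙ k (Fin n → k) → (C(ℙ k (Fin n → k), ℂ) →⋆ₐ[ℂ] (K →L[ℂ] K))) : Prop
    extends PreG ρ π lam W q E where
  /-- the stabiliser of four points on a coordinate line is ergodic -/
  erg : ∀ {i j : Fin n} (hij : i ≠ j) (s : k) (T : K →L[ℂ] K), (∀ w ∈ W, T * w = w * T) →
    (∀ γ, T * lam γ = lam γ * T) →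
    (∀ g : S, (∀ x, ρ g • qd hij s x = qd hij s x) → T * π g = π g * T) →
    ∃ c : ℂ, T = c • (1 : K →L[ℂ] K)
  mt : ∀ {ι : Type} [Fintype ι] (a : ι → ℙ k (Fin n → k))
    (Φ : C(ι → ℙ k (Fin n → k), ℂ) →⋆ₐ[ℂ] (K →L[ℂ] K)), (∀ i f, Φ (co i f) = E (a i) f) →
    ∀ ξ, ∀ᵐ z ∂(ms Φ ξ), Mt a z

variable {ρ : S →* PG k n} {π : S →* (K →L[ℂ] K)} {lam : Γ →* (K →L[ℂ] K)}
  {W : Set (K →L[ℂ] K)} {q : Γ → SpecialLinearGroup (Fin n) k}
  {E : ℙ k (Fin n → k) → (C(ℙ k (Fin n → k), ℂ) →⋆ₐ[ℂ] (K →L[ℂ] K))}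

theorem PreG.joint (hL : PreG ρ π lam W q E) {ι : Type} (a : ι → ℙ k (Fin n → k)) :
    ∃ Φ : C(ι → ℙ k (Fin n → k), ℂ) →⋆ₐ[ℂ] (K →L[ℂ] K), ∀ i f, Φ (co i f) = E (a i) f :=
  exists_joint (fun i => E (a i)) fun i j f g => hL.com _ _ f g

theorem hom_mul {S' : Type} [Group S'] (π : S' →* (K →L[ℂ] K)) (g : S') :
    π g * π g⁻¹ = 1 ∧ π g⁻¹ * π g = 1 := by
  rw [← map_mul, ← map_mul, mul_inv_cancel, inv_mul_cancel, map_one]
  exact ⟨rfl, rfl⟩

/-- conjugation by `π g` moves the points -/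
theorem PreG.pi_conj (hL : PreG ρ π lam W q E) {ι : Type} {a : ι → ℙ k (Fin n → k)}
    {Φ Φ' : C(ι → ℙ k (Fin n → k), ℂ) →⋆ₐ[ℂ] (K →L[ℂ] K)} (g : S)
    (h : Jn E a Φ) (h' : Jn E (fun i => ρ g • a i) Φ') (F : C(ι → ℙ k (Fin n → k), ℂ)) :
    π g * Φ F * π g⁻¹ = Φ' F := by
  have := conj_eq Φ Φ' (ContinuousMap.id _) (U := π g) (V := π g⁻¹) (hom_mul π g).1
    (hom_mul π g).2 (fun i f => by
      rw [h i f, hL.pcov, ← h' i f]
      rfl) F
  exact this

theorem PreG.lam_conj (hL : PreG ρ π lam W q E) {ι : Type} {a : ι → ℙ k (Fin n → k)}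
    {Φ : C(ι → ℙ k (Fin n → k), ℂ) →⋆ₐ[ℂ] (K →L[ℂ] K)} (h : Jn E a Φ) (γ : Γ)
    (F : C(ι → ℙ k (Fin n → k), ℂ)) :
    lam γ * Φ F * lam γ⁻¹ = Φ (F.comp ⟨fun z i => (q γ)⁻¹ • z i, by fun_prop⟩) := by
  refine conj_eq Φ Φ ⟨fun z i => (q γ)⁻¹ • z i, by fun_prop⟩ (U := lam γ) (V := lam γ⁻¹) ?_ ?_
    (fun i f => ?_) F
  · rw [← map_mul, mul_inv_cancel, map_one]
  · rw [← map_mul, inv_mul_cancel, map_one]
  · rw [h i f, hL.cov, ← h i]
    rfl

/-- **zero-one law for `Γ`-invariant sets of configurations** fixed by an ergodic set of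
transformations -/
theorem PreG.zero_one [Nontrivial K] (hL : PreG ρ π lam W q E) {ι : Type} [Fintype ι]
    {a : ι → ℙ k (Fin n → k)}
    {Φ : C(ι → ℙ k (Fin n → k), ℂ) →⋆ₐ[ℂ] (K →L[ℂ] K)} (hΦ : Jn E a Φ)
    {A : Set (ι → ℙ k (Fin n → k))}
    (hA : ∀ γ z, (fun i => q γ • z i) ∈ A ↔ z ∈ A)
    (herg : ∀ T : K →L[ℂ] K, (∀ w ∈ W, T * w = w * T) → (∀ γ, T * lam γ = lam γ * T) →
      (∀ g : S, (∀ x, ρ g • a x = a x) → T * π g = π g * T) →
      ∃ c : ℂ, T = c • (1 : K →L[ℂ] K)) : pv Φ A = 0 ∨ pv Φ A = 1 := by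
  -- commutation with `W`
  have c1 : ∀ w ∈ W, pv Φ A * w = w * pv Φ A := by
    intro w hw
    refine (pv_commute Φ (T := w) (fun f => ?_) _).symm
    exact comm_all Φ (T := w) (fun i f => by
      rw [hΦ]; exact (hL.cm _ _ w hw).symm) f
  -- commutation with `lam`
  have c2 : ∀ γ, pv Φ A * lam γ = lam γ * pv Φ A := by
    intro γ
    have u1 : lam γ * lam γ⁻¹ = 1 := by rw [← map_mul, mul_inv_cancel, map_one]
    have u2 : lam γ⁻¹ * lam γ = 1 := by rw [← map_mul, inv_mul_cancel, map_one]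
    let g : (ι → ℙ k (Fin n → k)) ≃ₜ (ι → ℙ k (Fin n → k)) :=
      { toFun := fun z x => q γ • z x
        invFun := fun z x => (q γ)⁻¹ • z x
        left_inv := fun z => funext fun x => inv_smul_smul _ _
        right_inv := fun z => funext fun x => smul_inv_smul _ _
        continuous_toFun := by fun_prop
        continuous_invFun := by fun_prop }
    have h2 := pv_cov Φ u1 u2 g (fun f => hL.lam_conj hΦ γ f) A
    have h3 : g '' A = A := by
      ext z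
      constructor
      · rintro ⟨z', hz', rfl⟩
        exact (hA γ z').2 hz'
      · intro hz
        refine ⟨g.symm z, ?_, g.apply_symm_apply z⟩
        refine (hA γ (g.symm z)).1 ?_
        have e : (fun i => q γ • g.symm z i) = z := g.apply_symm_apply z
        rw [e]
        exact hz
    rw [h3] at h2
    calc pv Φ A * lam γ = (lam γ * pv Φ A * lam γ⁻¹) * lam γ := by rw [h2]
      _ = lam γ * pv Φ A * (lam γ⁻¹ * lam γ) := by simp only [mul_assoc]
      _ = lam γ * pv Φ A := by rw [u2, mul_one]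
  -- commutation with the stabiliser
  have c3 : ∀ g : S, (∀ x, ρ g • a x = a x) → pv Φ A * π g = π g * pv Φ A := by
    intro g hg
    refine (pv_commute Φ (T := π g) (fun f => ?_) _).symm
    have h2 := hL.pi_conj g hΦ (Φ' := Φ) (by
        intro x f
        change Φ (co x f) = E (ρ g • a x) f
        rw [hg x]
        exact hΦ x f) f
    have u := (hom_mul π g).2
    calc π g * Φ f = π g * Φ f * (π g⁻¹ * π g) := by rw [u, mul_one]
      _ = (π g * Φ f * π g⁻¹) * π g := by simp only [mul_assoc]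
      _ = _ := by rw [h2]
  obtain ⟨c, hc⟩ := herg _ c1 c2 c3
  have hid := pv_idem Φ A
  rw [hc] at hid ⊢
  rw [smul_mul_smul_comm, mul_one] at hid
  have hcc : c * c = c := by
    have h1 : (1 : K →L[ℂ] K) ≠ 0 := one_ne_zero
    have h2 : (c * c - c) • (1 : K →L[ℂ] K) = 0 := by rw [sub_smul, hid, sub_self]
    rcases smul_eq_zero.1 h2 with h3 | h3
    · exact sub_eq_zero.1 h3
    · exact absurd h3 h1
  rcases eq_or_ne c 0 with rfl | hc0
  · left; rw [zero_smul]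
  · right
    have : c = 1 := mul_left_cancel₀ hc0 (by rw [hcc, mul_one])
    rw [this, one_smul]

/-- **the cross ratio is a scalar** -/
theorem LegG.cr_const [Nontrivial K] (hL : LegG ρ π lam W q E) {i j : Fin n} (hij : i ≠ j)
    (s : k) :
    ∃ t : k, ∀ Φ : C(Fin 4 → ℙ k (Fin n → k), ℂ) →⋆ₐ[ℂ] (K →L[ℂ] K), Jn E (qd hij s) Φ →
      ∀ ξ, ∀ᵐ z ∂(ms Φ ξ), Rl z t := by
  letI : MeasurableSpace k := borel k
  haveI : BorelSpace k := ⟨rfl⟩
  obtain ⟨Φ, hΦ⟩ := hL.joint (qd hij s)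
  have hΦ' : Jn E (qd hij s) Φ := hΦ
  have h1 : ∀ ξ, ∀ᵐ z ∂(ms Φ ξ), z ∈ CS (univ : Set k) := by
    intro ξ
    filter_upwards [hL.mt (qd hij s) Φ hΦ ξ] with z hz
    exact cs_of_mt hij hz
  obtain ⟨t, ht⟩ := cs_const Φ h1 (fun A hA =>
    hL.zero_one hΦ' (fun γ z => cs_gsmul (q γ)) (hL.erg hij s))
  refine ⟨t, fun Φ' hΦ'' ξ => ?_⟩
  have : Φ' = Φ := hom_uniq fun i f => by rw [hΦ'' i f, hΦ i f]
  rw [this]
  exact ht ξ

/-- **the random configuration** -/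
theorem LegG.cfg_const [Nontrivial K] (hL : LegG ρ π lam W q E) {i j l : Fin n} (hij : i ≠ j)
    (hli : l ≠ i) (hlj : l ≠ j) (s : k) :
    ∃ t : k, ∀ Φ : C(Fin n ⊕ Fin 5 → ℙ k (Fin n → k), ℂ) →⋆ₐ[ℂ] (K →L[ℂ] K),
      Jn E (ac hij s) Φ → ∀ ξ, ∀ᵐ z ∂(ms Φ ξ), ∃ g : GL (Fin n) k, ∀ x, z x = g • ac hij t x := by
  obtain ⟨t, ht⟩ := hL.cr_const hij s
  refine ⟨t, fun Φ hΦ ξ => ?_⟩
  obtain ⟨Φ4, hΦ4⟩ := hL.joint (qd hij s)
  have h1 := hΦ.ae_pull (a' := qd hij s) (Φ' := Φ4) hΦ4 (qi i j) (fun x => qd_eq hij s x)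
    (ht Φ4 hΦ4) ξ
  filter_upwards [h1, hL.mt (ac hij s) Φ hΦ ξ] with z hz1 hz2
  refine exists_cfg hij hli hlj hz2 ?_
  convert hz1 using 1
  funext x
  fin_cases x <;> rfl

end Vale.Agent.P092.H416
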