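import Vale.Agent.P092.H416.OutG

/-!
P092 (helper416), [Sp-CLS], part 2: the matroid of a finite family of points is determined by the
orthogonality relation of the points of a larger finite family (dual points are adjoined), so
`exact incidence ⟹ Mt`, for any nondegenerate bilinear form.
-/

set_option linter.all false

namespace Vale.Agent.P092.H416

open Vale.Agent.P092.H820 Vale.Agent.P092.H466 Vale.Agent.P092.H171 Vale.Agent.P092.H375.Cls
open TopologicalSpace Set MeasureTheory Matrix Module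
open scoped LinearAlgebra.Projectivization Matrix InnerProductSpace

section alg

variable {k : Type} [NontriviallyNormedField k] {n : ℕ}

/-- perpendicular points -/
def orB (B : LinearMap.BilinForm k (Fin n → k)) (x y : ℙ k (Fin n → k)) : Prop :=
  B x.rep y.rep = 0

theorem orB_pj (B : LinearMap.BilinForm k (Fin n → k)) (v w : {v : Fin n → k // v ≠ 0}) :
    orB B (pj k (Fin n) v) (pj k (Fin n) w) ↔ B v.1 w.1 = 0 := by
  have h1 : pj k (Fin n) v = pj k (Fin n) ⟨(pj k (Fin n) v).rep, (pj k (Fin n) v).rep_nonzero⟩ :=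
    (Projectivization.mk_rep _).symm
  have h2 : pj k (Fin n) w = pj k (Fin n) ⟨(pj k (Fin n) w).rep, (pj k (Fin n) w).rep_nonzero⟩ :=
    (Projectivization.mk_rep _).symm
  obtain ⟨c, hc⟩ := (pj_eq _ _).1 h1
  obtain ⟨d, hd⟩ := (pj_eq _ _).1 h2
  change c • (pj k (Fin n) v).rep = v.1 at hc
  change d • (pj k (Fin n) w).rep = w.1 at hd
  rw [orB, ← hc, ← hd, Units.smul_def, Units.smul_def, map_smul, map_smul, LinearMap.smul_apply,
    smul_eq_mul, smul_eq_mul]
  simp

theorem orB_rep {B : LinearMap.BilinForm k (Fin n → k)} {ι : Type*} {u : ι → Fin n → k}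
    {z : ι → ℙ k (Fin n → k)} (h : Rep u z) (i j : ι) :
    orB B (z i) (z j) ↔ B (u i) (u j) = 0 := by
  obtain ⟨h1, e1⟩ := h i
  obtain ⟨h2, e2⟩ := h j
  rw [e1, e2]
  exact orB_pj B _ _

theorem dual_indep {B : LinearMap.BilinForm k (Fin n → k)} {ι : Type*} {d d' : ι → Fin n → k}
    (h : ∀ i j, B (d i) (d' j) = 0 ↔ i ≠ j) : LinearIndependent k d := by
  classical
  rw [linearIndependent_iff']
  intro s c hc j hj
  have h1 : B (∑ i ∈ s, c i • d i) (d' j) = c j * B (d j) (d' j) := by
    rw [map_sum, LinearMap.sum_apply, Finset.sum_eq_single j]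
    · rw [map_smul, LinearMap.smul_apply, smul_eq_mul]
    · intro i _ hi
      rw [map_smul, LinearMap.smul_apply, (h i j).2 hi, smul_zero]
    · exact fun h' => absurd hj h'
  rw [hc, map_zero, LinearMap.zero_apply] at h1
  refine (mul_eq_zero.1 h1.symm).resolve_right fun h2 => ?_
  exact (h j j).1 h2 rfl

theorem exists_dual {B : LinearMap.BilinForm k (Fin n → k)} (hB : B.Nondegenerate) {ι : Type*}
    {d : ι → Fin n → k} (hd : LinearIndependent k d) :
    ∃ d' : ι → Fin n → k, ∀ i j, B (d i) (d' j) = 0 ↔ i ≠ j := by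
  classical
  have hinj : LinearMap.ker (Finsupp.linearCombination k d) = ⊥ := LinearMap.ker_eq_bot.2 hd
  obtain ⟨g, hg⟩ := LinearMap.exists_leftInverse_of_injective _ hinj
  have hg' : ∀ i, g (d i) = Finsupp.single i 1 := by
    intro i
    have := LinearMap.congr_fun hg (Finsupp.single i 1)
    simpa using this
  refine ⟨fun j => (B.flip.toDual hB.flip).symm ((Finsupp.lapply j).comp g), fun i j => ?_⟩
  have e : B (d i) ((B.flip.toDual hB.flip).symm ((Finsupp.lapply j).comp g)) =
      (Finsupp.single i (1 : k)) j := by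
    have := LinearMap.BilinForm.apply_toDual_symm_apply (hB := hB.flip)
      (Finsupp.lapply (R := k) (M := k) j ∘ₗ g) (d i)
    rw [LinearMap.comp_apply, hg'] at this
    exact this
  rw [e, Finsupp.single_apply]
  by_cases hij : i = j
  · simp [hij]
  · simp [hij]

theorem ne_of_dual {B : LinearMap.BilinForm k (Fin n → k)} {ι : Type*} {d d' : ι → Fin n → k}
    (h : ∀ i j, B (d i) (d' j) = 0 ↔ i ≠ j) (i : ι) : d' i ≠ 0 := by
  intro h0
  have := (h i i).1 (by rw [h0, map_zero])
  exact this rfl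

/-- same orthogonality pattern -/
def Pt (B : LinearMap.BilinForm k (Fin n → k)) {ι : Type*} (a z : ι → ℙ k (Fin n → k)) : Prop :=
  ∀ s t, orB B (z s) (z t) ↔ orB B (a s) (a t)

theorem exists_big {B : LinearMap.BilinForm k (Fin n → k)} (hB : B.Nondegenerate) {ι : Type}
    [Fintype ι] (a : ι → ℙ k (Fin n → k)) (A : Finset ι) :
    ∃ (κ : Type) (_ : Fintype κ) (a' : ι ⊕ κ → ℙ k (Fin n → k)), (∀ i, a' (.inl i) = a i) ∧
      ∀ y, Pt B a' y → rk (fun i => y (.inl i)) A = rk a A := by
  classical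
  obtain ⟨ua, hua⟩ := exists_rep a
  obtain ⟨b, hbA, -, hb2, hb3⟩ := exists_linearIndepOn_extension (K := k) (v := ua)
    (linearIndepOn_empty k ua) (empty_subset (A : Set ι))
  have hd1 : LinearIndependent k (fun x : b => ua x) := hb3
  obtain ⟨d1, h1⟩ := exists_dual hB hd1
  let U := Submodule.span k (ua '' (A : Set ι))
  let O := B.orthogonal U
  let r := finrank k O
  let bO := finBasis k O
  have hd2 : LinearIndependent k (fun x : Fin r => (bO x : Fin n → k)) := by
    have := bO.linearIndependent.map' O.subtype (Submodule.ker_subtype O)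
    exact this
  obtain ⟨d2, h2⟩ := exists_dual hB hd2
  let w : ι ⊕ (b ⊕ (Fin r ⊕ Fin r)) → Fin n → k :=
    Sum.elim ua (Sum.elim d1 (Sum.elim (fun x => (bO x : Fin n → k)) d2))
  have hw : ∀ x, w x ≠ 0 := by
    rintro (x | x | x | x)
    · exact hua.ne x
    · exact ne_of_dual h1 x
    · exact hd2.ne_zero x
    · exact ne_of_dual h2 x
  haveI : Fintype b := Fintype.ofFinite b
  refine ⟨b ⊕ (Fin r ⊕ Fin r), inferInstance, fun x => pj k (Fin n) ⟨w x, hw x⟩, fun i => ?_,
    fun y hy => ?_⟩
  · obtain ⟨h, e⟩ := hua i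
    exact e.symm
  have hrep : Rep w (fun x => pj k (Fin n) ⟨w x, hw x⟩) := fun x => ⟨hw x, rfl⟩
  obtain ⟨uy, huy⟩ := exists_rep y
  have key : ∀ s t, B (uy s) (uy t) = 0 ↔ B (w s) (w t) = 0 := fun s t => by
    rw [← orB_rep huy, hy s t, orB_rep hrep]
  have huy' : Rep (fun i => uy (.inl i)) (fun i => y (.inl i)) := fun i => huy (.inl i)
  -- ranks of `a`
  have ra : rk a A = Fintype.card b := by
    rw [hua.rk]
    have e : Submodule.span k (ua '' (A : Set ι)) =
        Submodule.span k (Set.range (fun x : b => ua x)) := by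
      have e2 : Set.range (fun x : b => ua x) = ua '' b := by
        ext v
        simp
      rw [e2]
      exact le_antisymm (Submodule.span_le.2 hb2) (Submodule.span_mono (image_mono hbA))
    rw [e, finrank_span_eq_card hd1]
  have rU : finrank k U = rk a A := by rw [hua.rk]
  have rO : r = n - rk a A := by
    have := LinearMap.BilinForm.finrank_orthogonal hB U
    rw [finrank_fin_fun, rU] at this
    exact this
  have rn : rk a A ≤ n := by
    rw [← rU]
    exact (Submodule.finrank_le U).trans (by rw [finrank_fin_fun])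
  -- independence behind
  have i1 : LinearIndependent k (fun x : b => uy (.inl x)) :=
    dual_indep (d' := fun x : b => uy (.inr (.inl x))) fun x x' => by
      rw [key, ← h1]
      rfl
  have i2 : LinearIndependent k (fun x : Fin r => uy (.inr (.inr (.inl x)))) :=
    dual_indep (d' := fun x => uy (.inr (.inr (.inr x)))) fun x x' => by
      rw [key, ← h2]
      rfl
  refine le_antisymm ?_ ?_
  · -- upper bound
    let D := Submodule.span k (Set.range fun x : Fin r => uy (.inr (.inr (.inl x))))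
    have hD : finrank k D = r := by
      rw [finrank_span_eq_card i2, Fintype.card_fin]
    have hle : Submodule.span k ((fun i => uy (.inl i)) '' (A : Set ι)) ≤
        B.flip.orthogonal D := by
      rw [Submodule.span_le]
      rintro _ ⟨x, hx, rfl⟩
      change uy (.inl x) ∈ B.flip.orthogonal D
      rw [LinearMap.BilinForm.mem_orthogonal_iff]
      intro v hv
      change B (uy (.inl x)) v = 0
      have hDle : D ≤ LinearMap.ker (B (uy (.inl x))) := by
        rw [Submodule.span_le]
        rintro _ ⟨t, rfl⟩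
        change B (uy (.inl x)) (uy (.inr (.inr (.inl t)))) = 0
        rw [key]
        change B (ua x) (bO t : Fin n → k) = 0
        have h3 := (LinearMap.BilinForm.mem_orthogonal_iff.1 (bO t).2) (ua x)
          (Submodule.subset_span ⟨x, hx, rfl⟩)
        exact h3
      exact hDle hv
    rw [huy'.rk]
    refine (Submodule.finrank_mono hle).trans ?_
    rw [LinearMap.BilinForm.finrank_orthogonal hB.flip, finrank_fin_fun, hD, rO]
    omega
  · rw [ra, huy'.rk, ← finrank_span_eq_card i1]
    refine Submodule.finrank_mono (Submodule.span_mono ?_)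
    rintro _ ⟨x, rfl⟩
    exact ⟨x, hbA x.2, rfl⟩

end alg

/-! ### The rank is a measurable function -/

section meas

variable {k : Type} [NontriviallyNormedField k] [ProperSpace k] {n : ℕ}

theorem isOpen_rk {ι : Type} [Fintype ι] (A : Finset ι) (r : ℕ) :
    IsOpen {z : ι → ℙ k (Fin n → k) | r ≤ rk z A} := by
  classical
  let f : (ι → {v : Fin n → k // v ≠ 0}) → (ι → ℙ k (Fin n → k)) := fun u i => pj k (Fin n) (u i)
  have hf : IsOpenMap f := IsOpenMap.piMap (fun _ => pj_open) (Filter.Eventually.of_forall fun _ => pj_surj)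
  have hs : Function.Surjective f := fun z => ⟨fun i => (pj_surj (z i)).choose,
    funext fun i => (pj_surj (z i)).choose_spec⟩
  have e : {z : ι → ℙ k (Fin n → k) | r ≤ rk z A} = f '' {u | ∃ s : Finset ι, s ⊆ A ∧
      r ≤ s.card ∧ LinearIndependent k (fun x : s => (u x).1)} := by
    ext z
    constructor
    · intro hz
      obtain ⟨u, rfl⟩ := hs z
      refine ⟨u, ?_, rfl⟩
      have hrep : Rep (fun i => (u i).1) (f u) := fun i => ⟨(u i).2, rfl⟩
      obtain ⟨b, hbA, -, hb2, hb3⟩ := exists_linearIndepOn_extension (K := k)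
        (v := fun i => (u i).1) (linearIndepOn_empty k _) (empty_subset (A : Set ι))
      refine ⟨b.toFinset, ?_, ?_, ?_⟩
      · intro x hx
        have := hbA (Set.mem_toFinset.1 hx)
        exact_mod_cast this
      · refine le_trans hz ?_
        rw [hrep.rk]
        have e3 : (fun i => (u i).1) '' b = Set.range (fun x : b => (u x).1) := by
          ext v; simp
        have h4 : Submodule.span k ((fun i => (u i).1) '' (A : Set ι)) ≤
            Submodule.span k (Set.range (fun x : b => (u x).1)) := by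
          rw [← e3]
          exact Submodule.span_le.2 hb2
        refine (Submodule.finrank_mono h4).trans ?_
        rw [Set.toFinset_card]
        exact finrank_range_le_card _
      · have : LinearIndependent k (fun x : b => (u x).1) := hb3
        exact this.comp (fun x : b.toFinset => (⟨x.1, Set.mem_toFinset.1 x.2⟩ : b))
          (fun x y h => Subtype.ext (by simpa using congrArg Subtype.val h))
    · rintro ⟨u, ⟨s, hs, hr, hli⟩, rfl⟩
      have hrep : Rep (fun i => (u i).1) (f u) := fun i => ⟨(u i).2, rfl⟩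
      change r ≤ rk (f u) A
      rw [hrep.rk]
      have h5 := finrank_span_eq_card hli
      rw [Fintype.card_coe] at h5
      refine hr.trans ?_
      rw [← h5]
      refine Submodule.finrank_mono (Submodule.span_mono ?_)
      rintro _ ⟨x, rfl⟩
      exact ⟨x.1, hs x.2, rfl⟩
  rw [e]
  refine hf _ ?_
  have e2 : {u : ι → {v : Fin n → k // v ≠ 0} | ∃ s : Finset ι, s ⊆ A ∧ r ≤ s.card ∧
      LinearIndependent k (fun x : s => (u x).1)} = ⋃ s ∈ {s : Finset ι | s ⊆ A ∧ r ≤ s.card},
      (fun u : ι → {v : Fin n → k // v ≠ 0} => fun x : s => (u x).1) ⁻¹'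
        {g | LinearIndependent k g} := by
    ext u
    simp [and_assoc]
  rw [e2]
  refine isOpen_biUnion fun s _ => ?_
  refine isOpen_setOfPred_linearIndependent.preimage ?_
  fun_prop

theorem measurableSet_rk {ι : Type} [Fintype ι] (A : Finset ι) (r : ℕ) :
    MeasurableSet {z : ι → ℙ k (Fin n → k) | rk z A = r} := by
  have e : {z : ι → ℙ k (Fin n → k) | rk z A = r} = {z | r ≤ rk z A} \ {z | r + 1 ≤ rk z A} := by
    ext z
    simp only [mem_setOf_eq, mem_diff]
    omega
  rw [e]
  exact (isOpen_rk A r).measurableSet.diff (isOpen_rk A (r + 1)).measurableSet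

end meas

/-! ### From incidence to the matroid -/

section mt

variable {k : Type} [NontriviallyNormedField k] [ProperSpace k] {n : ℕ}
  {K : Type} [NormedAddCommGroup K] [InnerProductSpace ℂ K] [CompleteSpace K]
  {E : ℙ k (Fin n → k) → (C(ℙ k (Fin n → k), ℂ) →⋆ₐ[ℂ] (K →L[ℂ] K))}
  {B : LinearMap.BilinForm k (Fin n → k)}

theorem ae_pt (com : ∀ a b f g, Commute (E a f) (E b g))
    (inc : ∀ (a b : ℙ k (Fin n → k)) (Φ : C(Fin 2 → ℙ k (Fin n → k), ℂ) →⋆ₐ[ℂ] (K →L[ℂ] K)),
      Jn E ![a, b] Φ → ∀ ξ, ∀ᵐ z ∂(ms Φ ξ), (orB B (z 0) (z 1) ↔ orB B a b))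
    {ι : Type} [Fintype ι] {a : ι → ℙ k (Fin n → k)}
    {Φ : C(ι → ℙ k (Fin n → k), ℂ) →⋆ₐ[ℂ] (K →L[ℂ] K)} (hΦ : Jn E a Φ) (ξ : K) :
    ∀ᵐ z ∂(ms Φ ξ), Pt B a z := by
  refine ae_all_iff.2 fun s => ae_all_iff.2 fun t => ?_
  obtain ⟨Ψ, hΨ⟩ := exists_joint (fun i => E (![a s, a t] i)) fun i j f g => com _ _ f g
  exact hΦ.ae_pull (a' := ![a s, a t]) (Φ' := Ψ) hΨ ![s, t] (fun i => by fin_cases i <;> rfl)
    (p := fun z => orB B (z 0) (z 1) ↔ orB B (a s) (a t)) (inc _ _ Ψ hΨ) ξ

theorem mt_of_inc (hB : B.Nondegenerate) (com : ∀ a b f g, Commute (E a f) (E b g))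
    (inc : ∀ (a b : ℙ k (Fin n → k)) (Φ : C(Fin 2 → ℙ k (Fin n → k), ℂ) →⋆ₐ[ℂ] (K →L[ℂ] K)),
      Jn E ![a, b] Φ → ∀ ξ, ∀ᵐ z ∂(ms Φ ξ), (orB B (z 0) (z 1) ↔ orB B a b))
    {ι : Type} [Fintype ι] (a : ι → ℙ k (Fin n → k))
    (Φ : C(ι → ℙ k (Fin n → k), ℂ) →⋆ₐ[ℂ] (K →L[ℂ] K)) (hΦ : Jn E a Φ) (ξ : K) :
    ∀ᵐ z ∂(ms Φ ξ), Mt a z := by
  refine ae_all_iff.2 fun A => ?_
  obtain ⟨κ, hκ, a', ha', hy⟩ := exists_big hB a A
  obtain ⟨Ψ, hΨ⟩ := exists_joint (fun i => E (a' i)) fun i j f g => com _ _ f g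
  have hΨ' : Jn E a' Ψ := hΨ
  refine Jn.ae_push (E := E) hΨ' hΦ Sum.inl (fun i => (ha' i).symm) (measurableSet_rk A _) ξ ?_
  filter_upwards [ae_pt com inc hΨ' ξ] with y hpt
  exact hy y hpt

end mt

end Vale.Agent.P092.H416
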