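import Vale.Agent.P092.H416.SigG
import Vale.Agent.P092.H171.Cn

/-!
P092 (helper416), [Sp-CLS]: the classical leg for ANY source group `S` of projective
transformations: output `∃ σ, E a` is at `g • σ_* a` and `π h` is the right translation by
the image of `h` under `σ`.
-/

set_option linter.all false

namespace Vale.Agent.P092.H416

open Vale.Agent.P092.H820 Vale.Agent.P092.H466 Vale.Agent.P092.H171 Vale.Agent.P092.H375.Cls
open Vale.Agent.P092.H789 (cmap src sv PG YY isOpenEmbedding_cmap)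
open Vale.Agent.P092.H35.Sig (sgm sl sl_inj sgm_mk)
open TopologicalSpace Set MeasureTheory Matrix Module
open scoped LinearAlgebra.Projectivization Matrix InnerProductSpace ZeroAtInfty

section alg

variable {k : Type} [NontriviallyNormedField k] {n : ℕ}

theorem pj_eq_smul {u v : Fin n → k} {hu : u ≠ 0} {hv : v ≠ 0}
    (h : pj k (Fin n) ⟨u, hu⟩ = pj k (Fin n) ⟨v, hv⟩) : ∃ c : k, c ≠ 0 ∧ u = c • v := by
  obtain ⟨c, hc⟩ := (pj_eq _ _).1 h
  exact ⟨c, c.ne_zero, hc.symm⟩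

end alg

section pos

variable {k : Type} [NontriviallyNormedField k] [ProperSpace k] {m : ℕ}
  {S Γ K : Type} [Group S] [Group Γ] [NormedAddCommGroup K] [InnerProductSpace ℂ K]
  [CompleteSpace K]
  {ρ : S →* PG k (m + 1)} {π : S →* (K →L[ℂ] K)} {lam : Γ →* (K →L[ℂ] K)}
  {W : Set (K →L[ℂ] K)} {q : Γ → SpecialLinearGroup (Fin (m + 1)) k}
  {E : ℙ k (Fin (m + 1) → k) → (C(ℙ k (Fin (m + 1) → k), ℂ) →⋆ₐ[ℂ] (K →L[ℂ] K))}
  {Φ : C(Fin (m + 2) → ℙ k (Fin (m + 1) → k), ℂ) →⋆ₐ[ℂ] (K →L[ℂ] K)}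
  {τ : Fin (m + 1) → Fin (m + 1) → k → k}

theorem LegG.tau_one [Nontrivial K] (hL : LegG ρ π lam W q E) (hm : 2 ≤ m)
    (hΦ : Jn E (src k m) Φ)
    (hτ : ∀ (i j : Fin (m + 1)) (hij : i ≠ j) (s : k) (x : Fin (m + 1) ⊕ Fin 5),
      At E Φ (ac hij s x) (ac hij (τ i j s) x)) {i j : Fin (m + 1)} (hij : i ≠ j) :
    τ i j 1 = 1 := by
  have h1 := hτ i j hij 1 (.inr 2)
  have h2 := hτ i j hij 1 (.inr 1)
  have e : ∀ t, ac hij t (.inr 1) = ac hij (1 : k) (.inr 2) := by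
    intro t
    change pj k (Fin (m + 1)) _ = pj k (Fin (m + 1)) _
    congr 1
    refine Subtype.ext ?_
    change ev i + ev j = (1 : k) • ev i + ev j
    rw [one_smul]
  rw [e, e] at h2
  exact uc2_inj hij (hL.pos_inj hm hΦ h1 h2)

theorem LegG.tau_zero [Nontrivial K] (hL : LegG ρ π lam W q E) (hm : 2 ≤ m)
    (hΦ : Jn E (src k m) Φ)
    (hτ : ∀ (i j : Fin (m + 1)) (hij : i ≠ j) (s : k) (x : Fin (m + 1) ⊕ Fin 5),
      At E Φ (ac hij s x) (ac hij (τ i j s) x)) {i j : Fin (m + 1)} (hij : i ≠ j) :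
    τ i j 0 = 0 := by
  have h1 := hτ i j hij 0 (.inr 2)
  have h2 := hτ i j hij 0 (.inl j)
  have e : ∀ t, ac hij t (.inl j) = ac hij (0 : k) (.inr 2) := by
    intro t
    change pj k (Fin (m + 1)) _ = pj k (Fin (m + 1)) _
    congr 1
    refine Subtype.ext ?_
    change ev j = (0 : k) • ev i + ev j
    rw [zero_smul, zero_add]
  rw [e, e] at h2
  exact uc2_inj hij (hL.pos_inj hm hΦ h1 h2)

theorem LegG.tau_mul [Nontrivial K] (hL : LegG ρ π lam W q E) (hm : 2 ≤ m)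
    (hΦ : Jn E (src k m) Φ)
    (hτ : ∀ (i j : Fin (m + 1)) (hij : i ≠ j) (s : k) (x : Fin (m + 1) ⊕ Fin 5),
      At E Φ (ac hij s x) (ac hij (τ i j s) x)) {i j l : Fin (m + 1)} (hij : i ≠ j)
    (hjl : j ≠ l) (hil : i ≠ l) (s t : k) : τ i l (s * t) = τ i j s * τ j l t := by
  by_cases ht : t = 0
  · subst ht
    rw [mul_zero, hL.tau_zero hm hΦ hτ hil, hL.tau_zero hm hΦ hτ hjl, mul_zero]
  -- the vector with coordinates `i : s t`, `j : t`, `l : 1`
  let v : Fin (m + 1) → k := fun x => if x = i then s * t else if x = j then t else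
    if x = l then 1 else 0
  have vi : v i = s * t := if_pos rfl
  have vj : v j = t := by
    change (if j = i then s * t else if j = j then t else _) = t
    rw [if_neg hij.symm, if_pos rfl]
  have vl : v l = 1 := by
    change (if l = i then s * t else if l = j then t else if l = l then 1 else 0) = 1
    rw [if_neg hil.symm, if_neg hjl.symm, if_pos rfl]
  have hv : v ≠ 0 := fun h => by
    have := congrFun h l
    rw [vl] at this
    exact one_ne_zero this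
  have hv' : t⁻¹ • v ≠ 0 := smul_ne_zero (inv_ne_zero ht) hv
  have p1 := hL.pos_gen hm hΦ hτ hv vl
  have p2 := hL.pos_gen hm hΦ hτ (j := j) hv' (by
    rw [Pi.smul_apply, vj, smul_eq_mul, inv_mul_cancel₀ ht])
  have e : pj k (Fin (m + 1)) ⟨t⁻¹ • v, hv'⟩ = pj k (Fin (m + 1)) ⟨v, hv⟩ :=
    pj_smul_eq _ _ rfl
  rw [e] at p2
  obtain ⟨c, hc, hcw⟩ := pj_eq_smul (hL.pos_inj hm hΦ p1 p2)
  have w1 := congrFun hcw i
  have w2 := congrFun hcw j
  rw [Pi.smul_apply, smul_eq_mul, wv_ne' τ hil, wv_ne' τ hij, vi, Pi.smul_apply, vi] at w1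
  rw [Pi.smul_apply, smul_eq_mul, wv_ne' τ hjl, wv_self, vj, mul_one] at w2
  have e2 : t⁻¹ • (s * t) = s := by
    rw [smul_eq_mul]
    field_simp
  rw [e2, ← w2] at w1
  rw [w1, mul_comm]

theorem LegG.tau_add [Nontrivial K] (hL : LegG ρ π lam W q E) (hm : 2 ≤ m)
    (hΦ : Jn E (src k m) Φ)
    (hτ : ∀ (i j : Fin (m + 1)) (hij : i ≠ j) (s : k) (x : Fin (m + 1) ⊕ Fin 5),
      At E Φ (ac hij s x) (ac hij (τ i j s) x)) {i j : Fin (m + 1)} (hij : i ≠ j) (s t : k) :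
    τ i j (s + t) = τ i j s + τ i j t := by
  obtain ⟨l, hli, hlj⟩ := exists_three hm i j
  have hrow : τ i l t = τ i j t := by
    have := hL.tau_mul hm hΦ hτ hli.symm hlj hij t 1
    rw [mul_one, hL.tau_one hm hΦ hτ hlj, mul_one] at this
    exact this.symm
  let v : Fin (m + 1) → k := (s + t) • ev i + ev j + ev l
  have vi : v i = s + t := by
    simp only [v, Pi.add_apply, Pi.smul_apply, smul_eq_mul, ev_self, ev_ne hij, ev_ne hli.symm]
    ring
  have vj : v j = 1 := by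
    simp only [v, Pi.add_apply, Pi.smul_apply, smul_eq_mul, ev_self, ev_ne hij.symm,
      ev_ne hlj.symm]
    ring
  have vl : v l = 1 := by
    simp only [v, Pi.add_apply, Pi.smul_apply, smul_eq_mul, ev_self, ev_ne hli, ev_ne hlj]
    ring
  have hv : v ≠ 0 := fun h => by
    have := congrFun h l
    rw [vl] at this
    exact one_ne_zero this
  let b : Fin 3 → ℙ k (Fin (m + 1) → k) :=
    ![ac hij s (.inr 2), ac hli.symm t (.inr 2), pj k (Fin (m + 1)) ⟨v, hv⟩]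
  let x : Fin 3 → ℙ k (Fin (m + 1) → k) :=
    ![ac hij (τ i j s) (.inr 2), ac hli.symm (τ i l t) (.inr 2),
      pj k (Fin (m + 1)) ⟨wv τ j v, wv_ne τ j v⟩]
  have hbx : ∀ y, At E Φ (b y) (x y) := by
    intro y
    fin_cases y
    · exact hτ i j hij s (.inr 2)
    · exact hτ i l hli.symm t (.inr 2)
    · exact hL.pos_gen hm hΦ hτ hv vj
  have hmt := hL.mt_pos hm hΦ hbx
  let ub : Fin 3 → Fin (m + 1) → k := ![s • ev i + ev j, t • ev i + ev l, v]
  let ux : Fin 3 → Fin (m + 1) → k := ![τ i j s • ev i + ev j, τ i l t • ev i + ev l, wv τ j v]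
  have hub : Rep ub b := by
    intro y
    fin_cases y
    · exact ⟨uc_ne hij s (.inr 2), rfl⟩
    · exact ⟨uc_ne hli.symm t (.inr 2), rfl⟩
    · exact ⟨hv, rfl⟩
  have hux : Rep ux x := by
    intro y
    fin_cases y
    · exact ⟨uc_ne hij (τ i j s) (.inr 2), rfl⟩
    · exact ⟨uc_ne hli.symm (τ i l t) (.inr 2), rfl⟩
    · exact ⟨wv_ne τ j v, rfl⟩
  have hmem : ub 2 ∈ Submodule.span k (ub '' (({0, 1} : Finset (Fin 3)) : Set (Fin 3))) := by
    have e : ub 2 = ub 0 + ub 1 := by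
      change (s + t) • ev i + ev j + ev l = (s • ev i + ev j) + (t • ev i + ev l)
      rw [add_smul]
      abel
    rw [e]
    exact Submodule.add_mem _ (Submodule.subset_span ⟨0, by simp, rfl⟩)
      (Submodule.subset_span ⟨1, by simp, rfl⟩)
  have h2 := mem_of_mt hmt hub hux hmem
  rw [Finset.coe_insert, Finset.coe_singleton, image_pair, Submodule.mem_span_pair] at h2
  obtain ⟨α, β, e⟩ := h2
  change α • (τ i j s • ev i + ev j) + β • (τ i l t • ev i + ev l) = wv τ j v at e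
  have e1 := congrFun e i
  have e2 := congrFun e j
  have e3 := congrFun e l
  rw [wv_ne' τ hij, vi] at e1
  rw [wv_self] at e2
  rw [wv_ne' τ hlj, vl, hL.tau_one hm hΦ hτ hlj] at e3
  simp only [Pi.add_apply, Pi.smul_apply, smul_eq_mul, ev_self, ev_ne hij, ev_ne hli.symm]
    at e1
  simp only [Pi.add_apply, Pi.smul_apply, smul_eq_mul, ev_self, ev_ne hij.symm,
    ev_ne hlj.symm] at e2
  simp only [Pi.add_apply, Pi.smul_apply, smul_eq_mul, ev_self, ev_ne hli, ev_ne hlj] at e3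
  have hα : α = 1 := by linear_combination e2
  have hβ : β = 1 := by linear_combination e3
  rw [hα, hβ, hrow] at e1
  linear_combination -e1

/-- **all positions** -/
theorem LegG.exists_sigma [Nontrivial K] (hL : LegG ρ π lam W q E) (hm : 2 ≤ m)
    (hΦ : Jn E (src k m) Φ) :
    ∃ σ : k →+* k, ∀ a, At E Φ a (sgm σ (m + 1) a) := by
  obtain ⟨τ, hτ⟩ := hL.exists_tau hm hΦ
  have hτ' : ∀ (i j : Fin (m + 1)) (hij : i ≠ j) (s : k) (x : Fin (m + 1) ⊕ Fin 5),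
      At E Φ (ac hij s x) (ac hij (τ i j s) x) := hτ
  obtain ⟨σ, hσ⟩ := sigT (by omega) τ (fun i j hij => hL.tau_add hm hΦ hτ' hij)
    (fun i j l hij hjl hil => hL.tau_mul hm hΦ hτ' hij hjl hil)
    (fun i j hij => hL.tau_one hm hΦ hτ' hij)
  refine ⟨σ, fun a => ?_⟩
  obtain ⟨v, rfl⟩ := pj_surj a
  obtain ⟨j, hj⟩ : ∃ j, v.1 j ≠ 0 := by
    by_contra hc
    push Not at hc
    exact v.2 (funext hc)
  have hv' : (v.1 j)⁻¹ • v.1 ≠ 0 := smul_ne_zero (inv_ne_zero hj) v.2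
  have hvj : ((v.1 j)⁻¹ • v.1) j = 1 := by
    rw [Pi.smul_apply, smul_eq_mul, inv_mul_cancel₀ hj]
  have p := hL.pos_gen hm hΦ hτ' hv' hvj
  have e : pj k (Fin (m + 1)) ⟨(v.1 j)⁻¹ • v.1, hv'⟩ = pj k (Fin (m + 1)) v :=
    pj_smul_eq _ _ rfl
  rw [e] at p
  have e2 : pj k (Fin (m + 1)) ⟨wv τ j ((v.1 j)⁻¹ • v.1), wv_ne τ j _⟩ =
      sgm σ (m + 1) (pj k (Fin (m + 1)) v) := by
    have e3 : sgm σ (m + 1) (pj k (Fin (m + 1)) v) = pj k (Fin (m + 1)) ⟨fun i => σ (v.1 i),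
      fun h => v.2 (sl_inj σ (m + 1) (h.trans (map_zero (sl σ (m + 1))).symm))⟩ := rfl
    rw [e3]
    refine pj_smul_eq _ _ (c := (σ (v.1 j))⁻¹) ?_
    funext i
    rw [Pi.smul_apply, smul_eq_mul]
    by_cases hi : i = j
    · subst hi
      rw [wv_self, inv_mul_cancel₀ ((map_ne_zero σ).2 hj)]
    · rw [wv_ne' τ hi, hσ i j hi, Pi.smul_apply, smul_eq_mul, map_mul, map_inv₀]
  rw [e2] at p
  exact p

/-- **the classical leg**, for any source group: the calculus `Q` of `PGL_(m+1)(k)`. -/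
structure ClG (ρ : S →* PG k (m + 1)) (π : S →* (K →L[ℂ] K))
    (lam : Γ →* (K →L[ℂ] K)) (W : Set (K →L[ℂ] K))
    (q : Γ → SpecialLinearGroup (Fin (m + 1)) k)
    (E : ℙ k (Fin (m + 1) → k) → (C(ℙ k (Fin (m + 1) → k), ℂ) →⋆ₐ[ℂ] (K →L[ℂ] K)))
    (σ : k →+* k) (Q : C₀(PG k (m + 1), ℂ) →⋆ₙₐ[ℂ] (K →L[ℂ] K)) : Prop where
  nd : ∀ ξ, (∀ ψ, Q ψ ξ = 0) → ξ = 0
  cm : ∀ ψ, ∀ w ∈ W, Q ψ * w = w * Q ψ
  mulE : ∀ a, Pos Q (E a) fun g : PG k (m + 1) => g • sgm σ (m + 1) a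
  left : ∀ γ, Lt Q (lam γ) (lam γ⁻¹) (H35.sp k (m + 1) (q γ))
  /-- `e` acts on the right by the collineation `x` -/
  pcov : ∀ e (x : PG k (m + 1)), (∀ b : YY k m, x • sgm σ (m + 1) b = sgm σ (m + 1) (ρ e • b)) →
    ∀ ψ ψ' : C₀(PG k (m + 1), ℂ), (∀ y, ψ' y = ψ (y * x)) → π e * Q ψ * π e⁻¹ = Q ψ'
  /-- `Q` is generated by the frame -/
  gen : ∀ T : K →L[ℂ] K, (∀ i f, Commute T (E (src k m i) f)) → ∀ ψ, Commute T (Q ψ)

theorem LegG.clG [Nontrivial K] (hL : LegG ρ π lam W q E) (hm : 2 ≤ m) :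
    ∃ (σ : k →+* k) (Q : C₀(PG k (m + 1), ℂ) →⋆ₙₐ[ℂ] (K →L[ℂ] K)), ClG ρ π lam W q E σ Q := by
  obtain ⟨Φ, hΦ⟩ := hL.joint (src k m)
  have hΦ' : Jn E (src k m) Φ := hΦ
  obtain ⟨σ, hσ⟩ := hL.exists_sigma hm hΦ'
  have hr := hL.range hm hΦ'
  refine ⟨σ, Qg isOpenEmbedding_cmap Φ, ⟨fun ξ h => Qg_nd isOpenEmbedding_cmap hr h, ?_, hσ,
    ?_, ?_, ?_⟩⟩
  · intro ψ w hw
    have := Qg_comm isOpenEmbedding_cmap (Φ := Φ) (T := w) (fun i f => by
      rw [hΦ]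
      exact (hL.cm _ _ w hw).symm) ψ
    exact this.symm
  · intro γ
    refine Qg_left isOpenEmbedding_cmap (hom_mul lam γ).1 (hom_mul lam γ).2
      ⟨fun y => (q γ)⁻¹ • y, continuous_const_smul (q γ)⁻¹⟩ (fun y i => ?_) (fun i f => ?_) hr
    · change (q γ)⁻¹ • cmap k m y i = _
      rw [H789.cmap_mul, ← map_inv (H35.sp k (m + 1))]
      rfl
    · rw [hΦ, hL.cov, ← hΦ]
      rfl
  · intro e x hx ψ ψ' h
    have hxe : x = pgm σ (m + 1) (ρ e) := by
      refine H789.cmap_injective ?_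
      funext i
      rw [H789.cmap_apply, H789.cmap_apply, ← H35.Sig.sgm_src σ, hx, sgm_smul_pg]
    rw [hxe] at h
    exact right_src hL.com hL.pcov (fun ξ h => Qg_nd isOpenEmbedding_cmap hr h) hσ e ψ ψ' h
  · intro T hT ψ
    exact Qg_comm isOpenEmbedding_cmap (Φ := Φ) (T := T) (fun i f => by
      rw [hΦ]
      exact hT i f) ψ

end pos

end Vale.Agent.P092.H416
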