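import Vale.Agent.P092.H416.CLinc
import Vale.Agent.P092.H416.CLfix
import Vale.Agent.P092.H325.FmXc
import Vale.Agent.P092.H375.ClsI

/-!
P092 (helper416), [P2-CLS]: THE CLASSICAL LEG OF THE SYMPLECTIC GROUPS `Sp_{2r}(k)`, `r ≥ 2`, in the
letters of CL/Defs: a straight leg in which all calculi commute has the calculus `ClsF` of a
collineation.
-/

set_option linter.all false

namespace Vale.Agent.P092.H416.CL

open Vale.Agent.P092.H303 (FormGroup)
open Vale.Agent.P092.H714.Cl (hf Frm)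
open Vale.Agent.P092.H370.Po
open Vale.Agent.P092.H820 Vale.Agent.P092.H466 Vale.Agent.P092.H375.Cls
open Vale.Agent.P092.H171 (co ms_restr exists_joint hom_uniq)
open Vale.Agent.P092.H232 (Nin)
open Vale.Agent.P092.H789 (PG YY)
open Vale.Agent.P092.RC (Cm Moore PicX)
open Vale.Agent.P092.H325.SX (ClsF)
open TopologicalSpace Set Matrix Module MeasureTheory
open scoped LinearAlgebra.Projectivization Matrix InnerProductSpace ZeroAtInfty

section fix

variable {k : Type} [NontriviallyNormedField k] [ProperSpace k] {N : ℕ}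

/-- an element which fixes two coordinate vectors fixes the points of their line -/
theorem fix_qdN {i j : Fin (N + 1)} (hij : i ≠ j) (s : k)
    (g : SpecialLinearGroup (Fin (N + 1)) k)
    (hi : g.1 *ᵥ (Pi.single i 1 : Fin (N + 1) → k) = Pi.single i 1)
    (hj : g.1 *ᵥ (Pi.single j 1 : Fin (N + 1) → k) = Pi.single j 1) (x : Fin 4) :
    g • qd hij s x = qd hij s x := by
  have key : ∀ (v : Fin (N + 1) → k) (hv : v ≠ 0), g.1 *ᵥ v = v →
      g • pj k (Fin (N + 1)) ⟨v, hv⟩ = pj k (Fin (N + 1)) ⟨v, hv⟩ := by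
    intro v hv h
    rw [gsmul_pj]
    congr 1
    exact Subtype.ext h
  rw [qd_eq]
  refine key _ _ ?_
  have e1 : g.1 *ᵥ (ev i : Fin (N + 1) → k) = ev i := hi
  have e2 : g.1 *ᵥ (ev j : Fin (N + 1) → k) = ev j := hj
  fin_cases x
  · exact e1
  · exact e2
  · change g.1 *ᵥ (ev i + ev j) = ev i + ev j
    rw [Matrix.mulVec_add, e1, e2]
  · change g.1 *ᵥ (s • ev i + ev j) = s • ev i + ev j
    rw [Matrix.mulVec_add, Matrix.mulVec_smul, e1, e2]

end fix

section form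

variable {n : Type} [Fintype n] [DecidableEq n] {k : Type} [NontriviallyNormedField k]
  {ε : k} {J : Matrix n n k} {N : ℕ}

/-- the form of the columns as a bilinear form -/
noncomputable def bJ (e : n ≃ Fin (N + 1)) (J : Matrix n n k) :
    LinearMap.BilinForm k (Fin (N + 1) → k) := Matrix.toBilin' (Je e J)

theorem bJ_apply (e : n ≃ Fin (N + 1)) (J : Matrix n n k) (x y : Fin (N + 1) → k) :
    bJ e J x y = hf (RingHom.id k) (Je e J) x y := by
  rw [bJ, Matrix.toBilin'_apply']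
  rfl

theorem bJ_nd (hF : Frm (RingHom.id k) ε J) (e : n ≃ Fin (N + 1)) : (bJ e J).Nondegenerate := by
  constructor
  · intro x hx
    by_contra h0
    obtain ⟨y, hy⟩ := hF.nondeg (roc e x) (roc_ne h0)
    apply hy
    have := hx (cor e y)
    rw [bJ_apply, ← cor_roc e x, hf_cor] at this
    exact this
  · intro y hy
    by_contra h0
    obtain ⟨x, hx⟩ := hF.nondeg (roc e y) (roc_ne h0)
    apply hx
    have := hy (cor e x)
    rw [bJ_apply, ← cor_roc e y, hf_cor] at this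
    rw [hF.herm x (roc e y), this, map_zero, mul_zero]

theorem pt_surj (e : n ≃ Fin (N + 1)) (halt : ∀ x, hf (RingHom.id k) J x x = 0) :
    Function.Surjective (pt e : SGr (RingHom.id k) J 1 → ℙ k (Fin (N + 1) → k)) := by
  intro a
  obtain ⟨⟨v, hv⟩, rfl⟩ := pj_surj a
  exact (range_pt e hv).2 (by rw [← cor_roc e v, hf_cor]; exact halt _)

/-- all points are isotropic -/
noncomputable def ptE (e : n ≃ Fin (N + 1)) (halt : ∀ x, hf (RingHom.id k) J x x = 0) :
    SGr (RingHom.id k) J 1 ≃ ℙ k (Fin (N + 1) → k) :=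
  Equiv.ofBijective (pt e) ⟨pt_inj e, pt_surj e halt⟩

theorem pt_symm (e : n ≃ Fin (N + 1)) (halt : ∀ x, hf (RingHom.id k) J x x = 0)
    (a : ℙ k (Fin (N + 1) → k)) : pt e ((ptE e halt).symm a) = a :=
  (ptE e halt).apply_symm_apply a

theorem symm_pt (e : n ≃ Fin (N + 1)) (halt : ∀ x, hf (RingHom.id k) J x x = 0)
    (X : SGr (RingHom.id k) J 1) : (ptE e halt).symm (pt e X) = X :=
  (ptE e halt).symm_apply_apply X

end form

section cls

variable {n : Type} [Fintype n] [DecidableEq n] {k : Type} [NontriviallyNormedField k]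
  [ProperSpace k] {ε : k} {J : Matrix n n k} [Fact (Continuous (RingHom.id k))]
  {r N : ℕ} {E₀ Γ K : Type} [Group E₀] [TopologicalSpace E₀] [Group Γ] [NormedAddCommGroup K]
  [InnerProductSpace ℂ K] [CompleteSpace K]
  {ι : FormGroup (RingHom.id k) J →* E₀} {π : E₀ →* (K →L[ℂ] K)} {lam : Γ →* (K →L[ℂ] K)}
  {W : Set (K →L[ℂ] K)} {Ω : K} {q : Γ → FormGroup (RingHom.id k) J}
  {Ec : SGr (RingHom.id k) J 1 → (C(SGr (RingHom.id k) J 1, ℂ) →⋆ₐ[ℂ] (K →L[ℂ] K))}
  {F : SGr (RingHom.id k) J r → (C(SGr (RingHom.id k) J r, ℂ) →⋆ₐ[ℂ] (K →L[ℂ] K))}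

theorem Pts.preG (h : Pts ι π lam W Ω q Ec F) (e : n ≃ Fin (N + 1))
    (halt : ∀ x, hf (RingHom.id k) J x x = 0) :
    PreG ((H35.sp k (N + 1)).comp (rho e (RingHom.id k) J)) (π.comp ι) lam W
      (fun γ => rho e (RingHom.id k) J (q γ)) (fun a => EP e Ec ((ptE e halt).symm a)) where
  cm a f w hw := h.cm _ _ w hw
  cov γ a f := by
    rw [EP_apply, h.cov, EP_apply]
    congr 1
    ext y
    change f (pt e ((q γ)⁻¹ • y)) = f ((rho e (RingHom.id k) J (q γ))⁻¹ • pt e y)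
    rw [pt_smul, map_inv]
  pcov g a f := by
    rw [EP_apply, EP_apply]
    have e1 : (ptE e halt).symm (((H35.sp k (N + 1)).comp (rho e (RingHom.id k) J)) g • a) =
        g • (ptE e halt).symm a := by
      have e2 : ((H35.sp k (N + 1)).comp (rho e (RingHom.id k) J)) g • a =
          pt e (g • (ptE e halt).symm a) := by
        rw [pt_smul, pt_symm]
        exact sp_smul _ _
      rw [e2, symm_pt]
    rw [e1]
    have := h.pcov g ((ptE e halt).symm a) (f.comp (ptC e (RingHom.id k) J))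
    rw [MonoidHom.comp_apply, MonoidHom.comp_apply, map_inv]
    exact this
  com a b f g := h.com _ _ _ _

variable [MeasurableSpace (SGr (RingHom.id k) J 1)] [BorelSpace (SGr (RingHom.id k) J 1)]

theorem Pts.legG [Nontrivial K] (h : Pts ι π lam W Ω q Ec F) (e : n ≃ Fin (N + 1))
    (hF : Frm (RingHom.id k) ε J) (halt : ∀ x, hf (RingHom.id k) J x x = 0) (hr : 2 ≤ r)
    (Y₀ : SGr (RingHom.id k) J r) (hN : 2 ≤ N)
    (hM : ∀ (u : n → k), u ≠ 0 → Moore (ι '' {g | ∀ v, hf (RingHom.id k) J v u = 0 →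
      v ᵥ* g.1.1 = v})) :
    LegG ((H35.sp k (N + 1)).comp (rho e (RingHom.id k) J)) (π.comp ι) lam W
      (fun γ => rho e (RingHom.id k) J (q γ)) (fun a => EP e Ec ((ptE e halt).symm a)) where
  toPreG := h.preG e halt
  erg := fun {i j} hij s T h1 h2 h3 => by
    have hn : 2 < Fintype.card n := by
      rw [Fintype.card_congr e, Fintype.card_fin]
      omega
    obtain ⟨u, hu0, huv, huw⟩ := exists_perp (roc e (Pi.single i 1)) (roc e (Pi.single j 1)) hn hF
    refine h.pic.erg _ (hM u hu0) T h1 h2 ?_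
    rintro _ ⟨g, hg, rfl⟩
    have hfx : ∀ l : Fin (N + 1), hf (RingHom.id k) J u (roc e (Pi.single l 1)) = 0 →
        (rho e (RingHom.id k) J g).1 *ᵥ (Pi.single l 1 : Fin (N + 1) → k) = Pi.single l 1 := by
      intro l hl
      have h5 : roc e (Pi.single l 1 : Fin (N + 1) → k) ᵥ* g.1.1 = roc e (Pi.single l 1) := by
        refine hg _ ?_
        rw [hF.herm u, hl, map_zero, mul_zero]
      conv_lhs => rw [← cor_roc e (Pi.single l 1 : Fin (N + 1) → k)]
      rw [rho_cor]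
      have h6 := fix_inv h5
      rw [h6, cor_roc]
    refine h3 g fun x => ?_
    change H35.sp k (N + 1) (rho e (RingHom.id k) J g) • qd hij s x = _
    rw [sp_smul]
    exact fix_qdN hij s _ (hfx i huv) (hfx j huw) x
  mt a Φ hΦ ξ := by
    refine mt_of_inc (bJ_nd hF e) (h.preG e halt).com ?_ a Φ hΦ ξ
    intro x y Φ' hΦ' ξ'
    obtain ⟨Ψ, hΨ⟩ := exists_joint (fun i => Ec (![(ptE e halt).symm x, (ptE e halt).symm y] i))
      fun i j f g => h.com _ _ f g
    refine (ae_EP e (E := Ec) (a := ![(ptE e halt).symm x, (ptE e halt).symm y]) (fun i f => ?_)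
      hΨ ξ').2 ?_
    · rw [hΦ' i f]
      fin_cases i <;> rfl
    · filter_upwards [h.inc hF continuous_id hr Y₀ _ _ Ψ hΨ ξ'] with z hz
      have h5 : ∀ X Y : SGr (RingHom.id k) J 1, orB (bJ e J) (pt e X) (pt e Y) ↔ Col X Y := by
        intro X Y
        rw [col_pt e, orB, bJ_apply]
      rw [h5, hz, ← h5, pt_symm, pt_symm]

/-- **[P2-CLS]** in bare letters -/
theorem Pts.clsF_sp [Nontrivial K] (h : Pts ι π lam W Ω q Ec F) (e : n ≃ Fin (N + 1))
    (hF : Frm (RingHom.id k) ε J) (halt : ∀ x, hf (RingHom.id k) J x x = 0) (hr : 2 ≤ r)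
    (Y₀ : SGr (RingHom.id k) J r) (hN : 2 ≤ N)
    (hM : ∀ (u : n → k), u ≠ 0 → Moore (ι '' {g | ∀ v, hf (RingHom.id k) J v u = 0 →
      v ᵥ* g.1.1 = v})) :
    ∃ (τ : k →+* k) (Q : C₀(PG k (N + 1), ℂ) →⋆ₙₐ[ℂ] (K →L[ℂ] K)),
      ClsF (pt e) (rho e (RingHom.id k) J) ι π lam W (fun γ => rho e (RingHom.id k) J (q γ))
        (EP e Ec) τ Q := by
  obtain ⟨τ, Q, hQ⟩ := (h.legG e hF halt hr Y₀ hN hM).clG hN
  refine ⟨τ, Q, hQ.nd, fun ψ w hw => hQ.cm ψ w hw, fun γ ψ ψ' hψ => hQ.left γ ψ ψ' hψ,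
    fun g ψ ψ' hψ => ?_, fun b f ψ ψ' hψ => ?_⟩
  · have := hQ.pcov g (H35.sp k (N + 1) (SpecialLinearGroup.map τ (rho e (RingHom.id k) J g)))
      (fun b => by
        rw [sp_smul, MonoidHom.comp_apply, sp_smul]
        exact (H35.Sig.sgm_smul τ _ b).symm) ψ ψ' hψ
    rw [MonoidHom.comp_apply, MonoidHom.comp_apply, map_inv] at this
    exact this
  · have := hQ.mulE (pt e b) f ψ ψ' hψ
    rw [symm_pt] at this
    exact this

end cls

/-! ### The letters of CL/Defs -/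

section record

variable {n : Type} [Fintype n] [DecidableEq n] {k : Type} [NontriviallyNormedField k]
  [ProperSpace k] {σ : k →+* k} {ε : k} {J : Matrix n n k} [Fact (Continuous σ)] {r : ℕ}
  {V₁ V₂ : Type} [MeasurableSpace V₁] [MeasurableSpace V₂] [NormedAddCommGroup V₁]
  [NormedAddCommGroup V₂] {L : P092.CL.Lt (FormGroup σ J) (SGr σ J 1) (SGr σ J r) V₁ V₂}
  {𝒰 : Ultrafilter ℕ} {E₀ Γ K : Type} [Group E₀] [TopologicalSpace E₀] [Group Γ]
  [NormedAddCommGroup K] [InnerProductSpace ℂ K] [CompleteSpace K]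
  {ι : FormGroup σ J →* E₀} {π : E₀ →* (K →L[ℂ] K)} {lam : Γ →* (K →L[ℂ] K)}
  {W : Set (K →L[ℂ] K)} {Ω : K} {m : Set Γ → (K →L[ℂ] K)} {q : Γ → FormGroup σ J}
  {Ec : SGr σ J 1 → (C(SGr σ J 1, ℂ) →⋆ₐ[ℂ] (K →L[ℂ] K))}
  {F : SGr σ J r → (C(SGr σ J r, ℂ) →⋆ₐ[ℂ] (K →L[ℂ] K))}

/-- the record of the incidence of points, any form -/
theorem pts_of (hG : P092.CL.Geo L) (hIn : L.In = Inc)
    (h : P092.CL.LegComm L 𝒰 ι π lam W Ω m q Ec F) : Pts ι π lam W Ω q Ec F where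
  pic := h.leg.base.pic
  sur := h.leg.base.adm.sur
  moore x y := by
    refine h.leg.base.adm.moore _ fun C => ?_
    obtain ⟨g, h1, h2, h3⟩ := hG.unb1 x y C
    exact ⟨g, ⟨h1, h2⟩, h3⟩
  prox z D hD hc := h.leg.base.prox1 z D hD fun y hy l h1 h2 => by
    rw [hIn] at h1 h2
    exact hc y hy (col_of_inc h1 h2)
  cm := h.leg.e.cm
  cov := h.leg.e.cov
  pcov := h.leg.e.pcov
  com := h.com.ee
  pl c l hcl := by
    have := h.leg.pl c l (by rw [hIn]; exact hcl)
    rwa [hIn] at this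

end record

section sp

variable {n : Type} [Fintype n] [DecidableEq n] {k : Type} [NontriviallyNormedField k]
  [ProperSpace k] {ε : k} {J : Matrix n n k} [Fact (Continuous (RingHom.id k))] {r N : ℕ}
  {V₁ V₂ : Type} [MeasurableSpace V₁] [MeasurableSpace V₂] [NormedAddCommGroup V₁]
  [NormedAddCommGroup V₂]
  {L : P092.CL.Lt (FormGroup (RingHom.id k) J) (SGr (RingHom.id k) J 1) (SGr (RingHom.id k) J r)
    V₁ V₂} {𝒰 : Ultrafilter ℕ} {E₀ Γ K : Type} [Group E₀] [TopologicalSpace E₀] [Group Γ]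
  [NormedAddCommGroup K] [InnerProductSpace ℂ K] [CompleteSpace K]
  {ι : FormGroup (RingHom.id k) J →* E₀} {π : E₀ →* (K →L[ℂ] K)} {lam : Γ →* (K →L[ℂ] K)}
  {W : Set (K →L[ℂ] K)} {Ω : K} {m : Set Γ → (K →L[ℂ] K)} {q : Γ → FormGroup (RingHom.id k) J}
  {Ec : SGr (RingHom.id k) J 1 → (C(SGr (RingHom.id k) J 1, ℂ) →⋆ₐ[ℂ] (K →L[ℂ] K))}
  {F : SGr (RingHom.id k) J r → (C(SGr (RingHom.id k) J r, ℂ) →⋆ₐ[ℂ] (K →L[ℂ] K))}

/-- **[P2-CLS]**: THE CLASSICAL LEG OF `Sp_{2r}(k)`, `r ≥ 2`. -/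
theorem clsP2 (hG : P092.CL.Geo L) (hIn : L.In = Inc) (e : n ≃ Fin (N + 1))
    (hF : Frm (RingHom.id k) ε J) (halt : ∀ x, hf (RingHom.id k) J x x = 0) (hr : 2 ≤ r)
    (hN : 2 ≤ N) (h : P092.CL.LegComm L 𝒰 ι π lam W Ω m q Ec F) :
    ∃ (τ : k →+* k) (Q : C₀(PG k (N + 1), ℂ) →⋆ₙₐ[ℂ] (K →L[ℂ] K)),
      ClsF (pt e) (rho e (RingHom.id k) J) ι π lam W (fun γ => rho e (RingHom.id k) J (q γ))
        (EP e Ec) τ Q := by
  letI : MeasurableSpace (SGr (RingHom.id k) J 1) := borel _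
  haveI : BorelSpace (SGr (RingHom.id k) J 1) := ⟨rfl⟩
  haveI : Nontrivial K := ⟨Ω, 0, fun h' => by
    have := h.leg.base.pic.nΩ
    rw [h', norm_zero] at this
    exact zero_ne_one this⟩
  exact (pts_of hG hIn h).clsF_sp e hF halt hr L.m0 hN fun u hu0 =>
    moore_fix hG h.leg.base.adm hF continuous_id hu0 (halt u) fun g hg => hg

end sp

end Vale.Agent.P092.H416.CL
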