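import Vale.Agent.P092.H416.Inc

/-!
P092 (helper416), [P2-CLS]: the exact incidence of two commuting points, any nondegenerate form,
from `perpendicular points have perpendicular values` alone: the zero-one law for a pair which is
not perpendicular, transitivity, and the exclusion of `all values are perpendicular`.
-/

set_option linter.all false

namespace Vale.Agent.P092.H416

open Vale.Agent.P092.H820 Vale.Agent.P092.H466 Vale.Agent.P092.H171 Vale.Agent.P092.H375.Cls
open Vale.Agent.P092.H789 (PG)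
open TopologicalSpace Set MeasureTheory Matrix Module
open scoped LinearAlgebra.Projectivization Matrix InnerProductSpace ZeroAtInfty

section gen

variable {k : Type} [NontriviallyNormedField k] [ProperSpace k] {n : ℕ}
  {S Γ K : Type} [Group S] [Group Γ] [NormedAddCommGroup K] [InnerProductSpace ℂ K]
  [CompleteSpace K] {B : LinearMap.BilinForm k (Fin n → k)} {ρ : S →* PG k n}
  {π : S →* (K →L[ℂ] K)} {lam : Γ →* (K →L[ℂ] K)} {W : Set (K →L[ℂ] K)}
  {q : Γ → SpecialLinearGroup (Fin n) k}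
  {E : ℙ k (Fin n → k) → (C(ℙ k (Fin n → k), ℂ) →⋆ₐ[ℂ] (K →L[ℂ] K))}

/-- **incidence of two points from `perp`** -/
theorem inc_of_perp [Nontrivial K] (hL : PreG ρ π lam W q E)
    (hiso : ∀ γ (x y : ℙ k (Fin n → k)), orB B (q γ • x) (q γ • y) ↔ orB B x y)
    (herg : ∀ a b, ¬ orB B a b → ∀ T : K →L[ℂ] K, (∀ w ∈ W, T * w = w * T) →
      (∀ γ, T * lam γ = lam γ * T) → (∀ g : S, ρ g • a = a → ρ g • b = b → T * π g = π g * T) →
      ∃ c : ℂ, T = c • (1 : K →L[ℂ] K))
    (htr : ∀ a b a' b' : ℙ k (Fin n → k), ¬ orB B a b → ¬ orB B a' b' →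
      ∃ g : S, ρ g • a = a' ∧ ρ g • b = b')
    (perp : ∀ a b, orB B a b → ∀ f g : C(ℙ k (Fin n → k), ℂ),
      (∀ x ∈ tsupport f, ∀ y ∈ tsupport g, ¬ orB B x y) → E a f * E b g = 0)
    (hex : ¬ ∀ (a b : ℙ k (Fin n → k)) (f g : C(ℙ k (Fin n → k), ℂ)),
      (∀ x ∈ tsupport f, ∀ y ∈ tsupport g, ¬ orB B x y) → E a f * E b g = 0)
    (a b : ℙ k (Fin n → k))
    (Φ : C(Fin 2 → ℙ k (Fin n → k), ℂ) →⋆ₐ[ℂ] (K →L[ℂ] K)) (hΦ : Jn E ![a, b] Φ) (ξ : K) :
    ∀ᵐ z ∂(ms Φ ξ), (orB B (z 0) (z 1) ↔ orB B a b) := by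
  by_cases hab : orB B a b
  · filter_upwards [ae_of_supp (isClosed_orB B) (φ := E a) (ψ := E b)
      (fun f g hfg => perp a b hab f g hfg) Φ (fun f => hΦ 0 f) (fun f => hΦ 1 f) ξ] with z hz
    exact ⟨fun _ => hab, fun _ => hz⟩
  · let A : Set (Fin 2 → ℙ k (Fin n → k)) := {z | orB B (z 0) (z 1)}
    have hA : IsClosed A :=
      (isClosed_orB B).preimage (f := fun z : Fin 2 → ℙ k (Fin n → k) => (z 0, z 1)) (by fun_prop)
    rcases hL.zero_one (A := A) hΦ (fun γ z => hiso γ (z 0) (z 1))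
      (fun T h1 h2 h3 => herg a b hab T h1 h2 fun g ha hb => h3 g fun x => by
        fin_cases x
        · exact ha
        · exact hb) with h0 | h1
    · filter_upwards [(pv_eq_zero_iff Φ hA.measurableSet).1 h0 ξ] with z hz
      exact ⟨fun h => absurd h hz, fun h => absurd h hab⟩
    · exfalso
      refine hex fun a' b' f g hfg => ?_
      by_cases hab' : orB B a' b'
      · exact perp a' b' hab' f g hfg
      obtain ⟨s, rfl, rfl⟩ := htr a b a' b' hab hab'
      obtain ⟨Φ', hΦ'⟩ := hL.joint ![ρ s • a, ρ s • b]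
      have e0 : Φ (co 0 f * co 1 g) * pv Φ A = 0 := by
        refine phi_pv_zero Φ fun z hz => ?_
        change f (z 0) * g (z 1) = 0
        by_contra hne
        exact hfg _ (subset_closure (left_ne_zero_of_mul hne)) _
          (subset_closure (right_ne_zero_of_mul hne)) hz
      rw [h1, mul_one] at e0
      have e1 := hL.pi_conj s hΦ (Φ' := Φ') (fun i f => by
        rw [hΦ']
        fin_cases i <;> rfl) (co 0 f * co 1 g)
      rw [e0, mul_zero, zero_mul] at e1
      have e2 : E (ρ s • a) f * E (ρ s • b) g = Φ' (co 0 f * co 1 g) := by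
        rw [map_mul, hΦ', hΦ']
        rfl
      rw [e2, ← e1]

end gen

end Vale.Agent.P092.H416
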