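import Vale.Agent.P092.H416.PosG

/-!
P092 (helper416), [Sp-CLS]: the position of every point, the homomorphism of fields `σ`.
-/

set_option linter.all false

namespace Vale.Agent.P092.H416

open Vale.Agent.P092.H820 Vale.Agent.P092.H466 Vale.Agent.P092.H171 Vale.Agent.P092.H375.Cls
open Vale.Agent.P092.H789 (cmap src sv PG YY isOpenEmbedding_cmap)
open Vale.Agent.P092.H35.Sig (sgm sl sl_inj sgm_mk)
open TopologicalSpace Set MeasureTheory Matrix Module
open scoped LinearAlgebra.Projectivization Matrix InnerProductSpace ZeroAtInfty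

/-! ### From additive and multiplicative relations to a homomorphism -/

theorem sigT {k : Type*} [Field k] {n : ℕ} (hn : 3 ≤ n) (τ : Fin n → Fin n → k → k)
    (hadd : ∀ i j, i ≠ j → ∀ s t, τ i j (s + t) = τ i j s + τ i j t)
    (hmul : ∀ i j l, i ≠ j → j ≠ l → i ≠ l → ∀ s t, τ i l (s * t) = τ i j s * τ j l t)
    (one : ∀ i j, i ≠ j → τ i j 1 = 1) : ∃ σ : k →+* k, ∀ i j, i ≠ j → ∀ s, τ i j s = σ s := by
  have hrow : ∀ i j l, i ≠ j → i ≠ l → ∀ s, τ i j s = τ i l s := by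
    intro i j l hij hil s
    by_cases hjl : j = l
    · rw [hjl]
    · have := hmul i j l hij hjl hil s 1
      rw [mul_one, one j l hjl, mul_one] at this
      exact this.symm
  have hcol : ∀ i j l, i ≠ l → j ≠ l → ∀ s, τ i l s = τ j l s := by
    intro i j l hil hjl s
    by_cases hij : i = j
    · rw [hij]
    · have := hmul i j l hij hjl hil 1 s
      rw [one_mul, one i j hij, one_mul] at this
      exact this
  have hall : ∀ i j a b, i ≠ j → a ≠ b → ∀ s, τ i j s = τ a b s := by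
    intro i j a b hij hab s
    obtain ⟨c, hc⟩ : ∃ c : Fin n, c ∉ ({i, a} : Finset (Fin n)) := by
      by_contra hcon
      push Not at hcon
      have h1 : (Finset.univ : Finset (Fin n)) ⊆ {i, a} := fun x _ => hcon x
      have h2 := Finset.card_le_card h1
      rw [Finset.card_univ, Fintype.card_fin] at h2
      exact absurd (h2.trans (Finset.card_le_two)) (by omega)
    simp only [Finset.mem_insert, Finset.mem_singleton, not_or] at hc
    rw [hrow i j c hij (Ne.symm hc.1), hcol i a c (Ne.symm hc.1) (Ne.symm hc.2),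
      hrow a c b (Ne.symm hc.2) hab]
  obtain ⟨a, b, c, hab, hbc, hac⟩ : ∃ a b c : Fin n, a ≠ b ∧ b ≠ c ∧ a ≠ c := by
    refine ⟨⟨0, by omega⟩, ⟨1, by omega⟩, ⟨2, by omega⟩, ?_, ?_, ?_⟩ <;>
      · intro h
        simp at h
  have hz : τ a b 0 = 0 := by
    have := hadd a b hab 0 0
    rw [add_zero] at this
    exact left_eq_add.1 this
  let σ : k →+* k :=
    { toFun := τ a b
      map_one' := one a b hab
      map_mul' := fun s t => by
        rw [hall a b a c hab hac, hmul a b c hab hbc hac, hall b c a b hbc hab]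
      map_zero' := hz
      map_add' := hadd a b hab }
  exact ⟨σ, fun i j hij s => hall i j a b hij hab s⟩

section pos

variable {k : Type} [NontriviallyNormedField k] [ProperSpace k] {m : ℕ}
  {S Γ K : Type} [Group S] [Group Γ] [NormedAddCommGroup K] [InnerProductSpace ℂ K]
  [CompleteSpace K]
  {ρ : S →* PG k (m + 1)} {π : S →* (K →L[ℂ] K)} {lam : Γ →* (K →L[ℂ] K)}
  {W : Set (K →L[ℂ] K)} {q : Γ → SpecialLinearGroup (Fin (m + 1)) k}
  {E : ℙ k (Fin (m + 1) → k) → (C(ℙ k (Fin (m + 1) → k), ℂ) →⋆ₐ[ℂ] (K →L[ℂ] K))}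
  {Φ : C(Fin (m + 2) → ℙ k (Fin (m + 1) → k), ℂ) →⋆ₐ[ℂ] (K →L[ℂ] K)}

/-- `E a` is at `g • x` -/
def At (E : ℙ k (Fin (m + 1) → k) → (C(ℙ k (Fin (m + 1) → k), ℂ) →⋆ₐ[ℂ] (K →L[ℂ] K)))
    (Φ : C(Fin (m + 2) → ℙ k (Fin (m + 1) → k), ℂ) →⋆ₐ[ℂ] (K →L[ℂ] K))
    (a x : ℙ k (Fin (m + 1) → k)) : Prop :=
  Pos (Qg isOpenEmbedding_cmap Φ) (E a) fun g : PG k (m + 1) => g • x

/-- positions preserve the matroids -/
theorem LegG.mt_pos [Nontrivial K] (hL : LegG ρ π lam W q E) (hm : 2 ≤ m)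
    (hΦ : Jn E (src k m) Φ) {κ : Type} [Fintype κ] {b x : κ → ℙ k (Fin (m + 1) → k)}
    (h : ∀ j, At E Φ (b j) (x j)) : Mt b x := by
  obtain ⟨Ψ, hΨ⟩ := hL.joint b
  have h1 : ∀ ξ, ∀ᵐ z ∂(ms Ψ ξ), (∃ g : PG k (m + 1), ∀ j, z j = g • x j) ∧ Mt b z := fun ξ => by
    filter_upwards [ae_exists_g isOpenEmbedding_cmap (hcomm := hL.com) (hΦ := hΦ)
      (hr := hL.range hm hΦ) (fun j => act_cont (x j)) h hΨ ξ, hL.mt b Ψ hΨ ξ] with z h1 h2
    exact ⟨h1, h2⟩
  obtain ⟨z, ⟨g, hg⟩, hz⟩ := ae_exists Ψ h1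
  obtain ⟨g, rfl⟩ := QuotientGroup.mk_surjective g
  have h2 := hz.gsmul (g⁻¹ : GL (Fin (m + 1)) k)
  have e : (fun j => (g⁻¹ : GL (Fin (m + 1)) k) • z j) = x := by
    funext j
    rw [hg j]
    change g⁻¹ • g • x j = x j
    rw [inv_smul_smul]
  rw [e] at h2
  exact h2

/-- the vector of the position -/
def wv (τ : Fin (m + 1) → Fin (m + 1) → k → k) (j : Fin (m + 1)) (v : Fin (m + 1) → k) :
    Fin (m + 1) → k := fun i => if i = j then 1 else τ i j (v i)

theorem wv_self (τ : Fin (m + 1) → Fin (m + 1) → k → k) (j : Fin (m + 1))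
    (v : Fin (m + 1) → k) : wv τ j v j = 1 := if_pos rfl

theorem wv_ne' (τ : Fin (m + 1) → Fin (m + 1) → k → k) {i j : Fin (m + 1)} (h : i ≠ j)
    (v : Fin (m + 1) → k) : wv τ j v i = τ i j (v i) := if_neg h

theorem wv_ne (τ : Fin (m + 1) → Fin (m + 1) → k → k) (j : Fin (m + 1))
    (v : Fin (m + 1) → k) : wv τ j v ≠ 0 := fun h => by
  have := congrFun h j
  rw [wv_self] at this
  exact one_ne_zero this

variable {τ : Fin (m + 1) → Fin (m + 1) → k → k}

/-- **the position of every point** -/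
theorem LegG.pos_gen [Nontrivial K] (hL : LegG ρ π lam W q E) (hm : 2 ≤ m)
    (hΦ : Jn E (src k m) Φ)
    (hτ : ∀ (i j : Fin (m + 1)) (hij : i ≠ j) (s : k) (x : Fin (m + 1) ⊕ Fin 5),
      At E Φ (ac hij s x) (ac hij (τ i j s) x))
    {j : Fin (m + 1)} {v : Fin (m + 1) → k} (hv : v ≠ 0) (hvj : v j = 1) :
    At E Φ (pj k (Fin (m + 1)) ⟨v, hv⟩) (pj k (Fin (m + 1)) ⟨wv τ j v, wv_ne τ j v⟩) := by
  classical
  obtain ⟨i₀, hi₀, -⟩ := exists_three hm j j
  -- the auxiliary points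
  let b : {i : Fin (m + 1) // i ≠ j} ⊕ Fin (m + 1) → ℙ k (Fin (m + 1) → k) :=
    Sum.elim (fun i => ac i.2 (v i.1) (.inr 2)) (fun l => ac hi₀ 0 (.inl l))
  let x : {i : Fin (m + 1) // i ≠ j} ⊕ Fin (m + 1) → ℙ k (Fin (m + 1) → k) :=
    Sum.elim (fun i => ac i.2 (τ i.1 j (v i.1)) (.inr 2)) (fun l => ac hi₀ (τ i₀ j 0) (.inl l))
  have hb : ∀ y, At E Φ (b y) (x y) := by
    rintro (i | l)
    · exact hτ i.1 j i.2 (v i.1) (.inr 2)
    · exact hτ i₀ j hi₀ 0 (.inl l)
  refine pos_of_pos isOpenEmbedding_cmap (hcomm := hL.com) (hΦ := hΦ) (hr := hL.range hm hΦ)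
    (θ := fun y (g : PG k (m + 1)) => g • x y) (fun y => act_cont (x y)) hb
    (b₀ := pj k (Fin (m + 1)) ⟨v, hv⟩) fun Ψ h1 h2 ξ => ?_
  let a' : Option ({i : Fin (m + 1) // i ≠ j} ⊕ Fin (m + 1)) → ℙ k (Fin (m + 1) → k) :=
    fun o => o.elim (pj k (Fin (m + 1)) ⟨v, hv⟩) b
  filter_upwards [hL.mt a' Ψ (fun o f => by
    rcases o with _ | y
    · exact h2 f
    · exact h1 y f) ξ] with z hz g hg
  obtain ⟨g, rfl⟩ := QuotientGroup.mk_surjective g
  have hy := hz.gsmul (g⁻¹ : GL (Fin (m + 1)) k)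
  obtain ⟨u0, hu0⟩ := pj_surj ((g⁻¹ : GL (Fin (m + 1)) k) • z none)
  let uy : Option ({i : Fin (m + 1) // i ≠ j} ⊕ Fin (m + 1)) → Fin (m + 1) → k :=
    fun o => o.elim u0.1 (Sum.elim (fun i => uc i.1 j (τ i.1 j (v i.1)) (.inr 2)) (fun l => ev l))
  let ua : Option ({i : Fin (m + 1) // i ≠ j} ⊕ Fin (m + 1)) → Fin (m + 1) → k :=
    fun o => o.elim v (Sum.elim (fun i => uc i.1 j (v i.1) (.inr 2)) (fun l => ev l))
  have hra : Rep ua a' := by
    rintro (_ | i | l)
    · exact ⟨hv, rfl⟩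
    · exact ⟨(uc_ne i.2 (v i.1) (.inr 2) : uc i.1 j (v i.1) (.inr 2) ≠ 0), rfl⟩
    · exact ⟨uc_ne hi₀ 0 (.inl l), rfl⟩
  have hry : Rep uy (fun o => (g⁻¹ : GL (Fin (m + 1)) k) • z o) := by
    rintro (_ | i | l)
    · exact ⟨u0.2, hu0.symm⟩
    · refine ⟨(uc_ne i.2 (τ i.1 j (v i.1)) (.inr 2) :
        uc i.1 j (τ i.1 j (v i.1)) (.inr 2) ≠ 0), ?_⟩
      change (g⁻¹ : GL (Fin (m + 1)) k) • z (some (.inl i)) = _
      rw [hg (.inl i)]
      change g⁻¹ • g • x (.inl i) = _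
      rw [inv_smul_smul]
      rfl
    · refine ⟨uc_ne hi₀ 0 (.inl l), ?_⟩
      change (g⁻¹ : GL (Fin (m + 1)) k) • z (some (.inr l)) = _
      rw [hg (.inr l)]
      change g⁻¹ • g • x (.inr l) = _
      rw [inv_smul_smul]
      rfl
  -- the coordinates
  have key : ∀ i, i ≠ j → u0.1 i = τ i j (v i) * u0.1 j := by
    intro i hij
    have hmem : ua none ∈ Submodule.span k (ua ''
        ((insert (some (Sum.inl ⟨i, hij⟩))
          ((Finset.univ.filter fun l : Fin (m + 1) => l ≠ i ∧ l ≠ j).image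
            (fun l => some (Sum.inr l))) :
          Finset (Option ({i : Fin (m + 1) // i ≠ j} ⊕ Fin (m + 1)))) :
          Set (Option ({i : Fin (m + 1) // i ≠ j} ⊕ Fin (m + 1))))) := by
      have e : ua none = (v i • ev i + ev j) +
          ∑ l ∈ Finset.univ.filter (fun l : Fin (m + 1) => l ≠ i ∧ l ≠ j), v l • ev l := by
        change v = _
        have e1 : v = ∑ l, v l • (ev l : Fin (m + 1) → k) := by
          funext y
          rw [Finset.sum_apply]
          simp [ev, Pi.single_apply]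
        conv_lhs => rw [e1]
        rw [← Finset.sum_filter_add_sum_filter_not Finset.univ
          (fun l : Fin (m + 1) => l ≠ i ∧ l ≠ j) (fun l => v l • (ev l : Fin (m + 1) → k))]
        have : (Finset.univ.filter fun l : Fin (m + 1) => ¬ (l ≠ i ∧ l ≠ j)) = {i, j} := by
          ext l
          simp only [Finset.mem_filter, Finset.mem_univ, true_and, Finset.mem_insert,
            Finset.mem_singleton]
          tauto
        rw [this, Finset.sum_pair hij, hvj, one_smul]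
        exact add_comm _ _
      rw [e]
      refine Submodule.add_mem _ (Submodule.subset_span ⟨some (Sum.inl ⟨i, hij⟩), by simp, rfl⟩)
        (Submodule.sum_mem _ fun l hl => Submodule.smul_mem _ _
          (Submodule.subset_span ⟨some (Sum.inr l), ?_, rfl⟩))
      simp only [Finset.mem_filter, Finset.mem_univ, true_and] at hl
      simp [hl]
    have h3 := mem_of_mt hy hra hry hmem
    let fn : (Fin (m + 1) → k) →ₗ[k] k := H375.Cls.cf i - (τ i j (v i)) • H375.Cls.cf j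
    have hfn : ∀ y, fn y = y i - τ i j (v i) * y j := fun y => rfl
    have h4 := fun_zero h3 fn fun o ho => by
      simp only [Finset.mem_insert, Finset.mem_image, Finset.mem_filter, Finset.mem_univ,
        true_and] at ho
      rcases ho with rfl | ⟨l, hl, rfl⟩
      · change fn (uc i j (τ i j (v i)) (.inr 2)) = 0
        rw [hfn]
        simp only [uc, Pi.add_apply, Pi.smul_apply, smul_eq_mul, ev_self, ev_ne hij,
          ev_ne hij.symm]
        ring
      · change fn (ev l) = 0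
        rw [hfn, ev_ne hl.1.symm, ev_ne hl.2.symm]
        ring
    change fn u0.1 = 0 at h4
    rw [hfn] at h4
    linear_combination h4
  have hfin : (g⁻¹ : GL (Fin (m + 1)) k) • z none =
      pj k (Fin (m + 1)) ⟨wv τ j v, wv_ne τ j v⟩ := by
    rw [← hu0]
    refine pj_smul_eq u0.2 _ (c := u0.1 j) ?_
    funext i
    rw [Pi.smul_apply, smul_eq_mul]
    by_cases hi : i = j
    · subst hi
      rw [wv_self, mul_one]
    · rw [wv_ne' τ hi, key i hi, mul_comm]
  change z none = g • pj k (Fin (m + 1)) ⟨wv τ j v, wv_ne τ j v⟩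
  rw [← hfin, smul_inv_smul]

end pos

end Vale.Agent.P092.H416
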