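import Vale.Agent.P092.H416.Inc
import Vale.Agent.P092.SP.Defs
import Vale.Agent.P092.SN.Blocks2

/-!
P092 (helper416), TEAM P, [P-CLS]: the classical leg of `Sp_4(k)`: from a straight leg in which all
calculi commute (`SP.LegComm`) and the exact incidence of pairs of points to `SN.ClsN`.
-/

set_option linter.all false

namespace Vale.Agent.P092.H416

open Vale.Agent.P092.H820 Vale.Agent.P092.H466 Vale.Agent.P092.H171 Vale.Agent.P092.H375.Cls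
open Vale.Agent.P092.H789 (PG YY)
open Vale.Agent.P092.H35 (sp)
open Vale.Agent.P092.H35.Sig (sgm)
open Vale.Agent.P092.RC (Cm Moore)
open Vale.Agent.P092.SP4
open TopologicalSpace Set MeasureTheory Matrix Module
open scoped LinearAlgebra.Projectivization Matrix InnerProductSpace ZeroAtInfty

section form

variable {k : Type} [NontriviallyNormedField k]

/-- the symplectic form as a bilinear form -/
noncomputable def omB (k : Type) [NontriviallyNormedField k] :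
    LinearMap.BilinForm k (Fin 4 → k) := Matrix.toBilin' (J4 k)

theorem omB_apply (x y : Fin 4 → k) : omB k x y = om x y := by
  rw [omB, Matrix.toBilin'_apply']
  rfl

theorem omB_nd : (omB k).Nondegenerate := by
  constructor
  · intro x hx
    by_contra h0
    obtain ⟨y, hy⟩ := om_nondeg h0
    exact hy (by rw [← omB_apply]; exact hx y)
  · intro y hy
    by_contra h0
    obtain ⟨x, hx⟩ := om_nondeg h0
    apply hx
    rw [om_swap, ← omB_apply, hy x, neg_zero]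

theorem orB_omB (x y : YY k 3) : orB (omB k) x y ↔ prp x y := by
  rw [orB, omB_apply]
  rfl

theorem lg_fix (s : k) {l : Fin 4} (hl : l ≠ 3) :
    (lg s).1 *ᵥ (Pi.single l 1 : Fin 4 → k) = Pi.single l 1 := by
  ext x
  fin_cases l <;> fin_cases x <;> simp_all [lg, Matrix.mulVec, dotProduct, Fin.sum_univ_four]

theorem lg'_fix (s : k) {l : Fin 4} (hl : l ≠ 2) :
    (lg' s).1 *ᵥ (Pi.single l 1 : Fin 4 → k) = Pi.single l 1 := by
  ext x
  fin_cases l <;> fin_cases x <;> simp_all [lg', Matrix.mulVec, dotProduct, Fin.sum_univ_four]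

theorem tlg_fix (s : k) {l : Fin 4} (hl : l ≠ 0) :
    (tps (lg s)).1 *ᵥ (Pi.single l 1 : Fin 4 → k) = Pi.single l 1 := by
  ext x
  fin_cases l <;> fin_cases x <;>
    simp_all [lg, tps, Matrix.mulVec, dotProduct, Fin.sum_univ_four]

theorem le_nm (g : S4 k) (i j : Fin 4) : ‖g.1.1 i j‖ ≤ SP.nm g := by
  refine (norm_le_pi_norm (fun j => g.1.1 i j) j).trans ?_
  exact norm_le_pi_norm (fun i j => g.1.1 i j : Fin 4 → Fin 4 → k) i

/-- the pointwise stabiliser of a coordinate line is unbounded -/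
theorem fix_unbdd (i j : Fin 4) (C : ℝ) : ∃ g : S4 k,
    (g.1.1 *ᵥ (Pi.single i 1 : Fin 4 → k) = Pi.single i 1 ∧
      g.1.1 *ᵥ (Pi.single j 1 : Fin 4 → k) = Pi.single j 1) ∧ C ≤ SP.nm g := by
  obtain ⟨s, hs⟩ := NormedField.exists_lt_norm k C
  by_cases h3 : i ≠ 3 ∧ j ≠ 3
  · refine ⟨⟨lg s, lg_mem s⟩, ⟨lg_fix s h3.1, lg_fix s h3.2⟩, hs.le.trans ?_⟩
    exact le_nm (k := k) ⟨lg s, lg_mem s⟩ 0 3
  by_cases h0 : i ≠ 0 ∧ j ≠ 0
  · refine ⟨⟨tps (lg s), tps_mem (lg_mem s)⟩, ⟨tlg_fix s h0.1, tlg_fix s h0.2⟩, hs.le.trans ?_⟩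
    exact le_nm (k := k) ⟨tps (lg s), tps_mem (lg_mem s)⟩ 3 0
  · have h2 : i ≠ 2 ∧ j ≠ 2 := by
      constructor
      · rintro rfl
        rcases eq_or_ne j 3 with rfl | hj
        · exact h0 ⟨by decide, by decide⟩
        · exact h3 ⟨by decide, hj⟩
      · rintro rfl
        rcases eq_or_ne i 3 with rfl | hi
        · exact h0 ⟨by decide, by decide⟩
        · exact h3 ⟨hi, by decide⟩
    refine ⟨⟨lg' s, lg'_mem s⟩, ⟨lg'_fix s h2.1, lg'_fix s h2.2⟩, hs.le.trans ?_⟩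
    exact le_nm (k := k) ⟨lg' s, lg'_mem s⟩ 1 2

/-- an element which fixes two coordinate vectors fixes the points of their line -/
theorem fix_qd [ProperSpace k] {i j : Fin 4} (hij : i ≠ j) (s : k) (g : S4 k)
    (hi : g.1.1 *ᵥ (Pi.single i 1 : Fin 4 → k) = Pi.single i 1)
    (hj : g.1.1 *ᵥ (Pi.single j 1 : Fin 4 → k) = Pi.single j 1) (x : Fin 4) :
    g • qd hij s x = qd hij s x := by
  have key : ∀ (v : Fin 4 → k) (hv : v ≠ 0), g.1.1 *ᵥ v = v →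
      g • pj k (Fin 4) ⟨v, hv⟩ = pj k (Fin 4) ⟨v, hv⟩ := by
    intro v hv h
    rw [smul_YY, gsmul_pj]
    congr 1
    exact Subtype.ext h
  rw [qd_eq]
  refine key _ _ ?_
  have e1 : g.1.1 *ᵥ (ev i : Fin 4 → k) = ev i := hi
  have e2 : g.1.1 *ᵥ (ev j : Fin 4 → k) = ev j := hj
  fin_cases x
  · exact e1
  · exact e2
  · change g.1.1 *ᵥ (ev i + ev j) = ev i + ev j
    rw [Matrix.mulVec_add, e1, e2]
  · change g.1.1 *ᵥ (s • ev i + ev j) = s • ev i + ev j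
    rw [Matrix.mulVec_add, Matrix.mulVec_smul, e1, e2]

end form

section cls

variable {k : Type} [NontriviallyNormedField k] [ProperSpace k] {E Γ K : Type} [Group E]
  [TopologicalSpace E] [Group Γ] [NormedAddCommGroup K] [InnerProductSpace ℂ K] [CompleteSpace K]
  {ι : S4 k →* E} {a : E →* PG k 4} {π : E →* (K →L[ℂ] K)} {lam : Γ →* (K →L[ℂ] K)}
  {W : Set (K →L[ℂ] K)} {Ω : K} {m : Set Γ → (K →L[ℂ] K)} {q : Γ → S4 k}
  {Ec : YY k 3 → (C(YY k 3, ℂ) →⋆ₐ[ℂ] (K →L[ℂ] K))}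
  {F : LL k → (C(LL k, ℂ) →⋆ₐ[ℂ] (K →L[ℂ] K))}

theorem erg_sp (hA : SP.Adm ι a) (hP : RC.Pic π lam W Ω) {i j : Fin 4} (hij : i ≠ j) (s : k)
    (T : K →L[ℂ] K) (h1 : ∀ w ∈ W, T * w = w * T) (h2 : ∀ γ, T * lam γ = lam γ * T)
    (h3 : ∀ g : E, (∀ x, a g • qd hij s x = qd hij s x) → T * π g = π g * T) :
    ∃ c : ℂ, T = c • (1 : K →L[ℂ] K) := by
  refine hP.erg _ (hA.moore {g : S4 k |
    g.1.1 *ᵥ (Pi.single i 1 : Fin 4 → k) = Pi.single i 1 ∧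
      g.1.1 *ᵥ (Pi.single j 1 : Fin 4 → k) = Pi.single j 1} fun C => ?_) T h1 h2 ?_
  · obtain ⟨g, hg, hC⟩ := fix_unbdd (k := k) i j C
    exact ⟨g, hg, hC⟩
  · rintro _ ⟨g, hg, rfl⟩
    refine h3 (ι g) fun x => ?_
    rw [hA.comp]
    exact fix_qd hij s g hg.1 hg.2 x

theorem preG_sp (hA : SP.Adm ι a) (cm : ∀ v f, Cm W (Ec v f))
    (cov : ∀ γ v f, lam γ * Ec v f * lam γ⁻¹ = Ec v (SP.act (q γ) f))
    (pcov : ∀ g v f, π (ι g) * Ec v f * π (ι g)⁻¹ = Ec (g • v) f)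
    (com : ∀ c c' f g, Commute (Ec c f) (Ec c' g)) :
    PreG a π lam W (fun γ => (q γ).1) Ec where
  cm v f w hw := cm v f w hw
  cov γ v f := cov γ v f
  pcov e v f := by
    obtain ⟨g, rfl⟩ := hA.sur e
    rw [hA.comp, ← pcov]
  com := com

theorem ClG.clsN [Nontrivial K] {σ : k →+* k} {Q : C₀(PG k 4, ℂ) →⋆ₙₐ[ℂ] (K →L[ℂ] K)}
    {q' : Γ → SpecialLinearGroup (Fin 4) k} (h : ClG (m := 3) a π lam W q' Ec σ Q) :
    SN.ClsN (N := 3) a π lam W q' Ec σ Q where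
  nd := h.nd
  cm ψ w hw := h.cm ψ w hw
  cov γ ψ ψ' hψ := h.left γ ψ ψ' hψ
  pcov e x hx ψ ψ' hψ := h.pcov e x hx ψ ψ' hψ
  mulE b f ψ ψ' hψ := h.mulE b f ψ ψ' hψ

/-- **[P-CLS]** from the almost everywhere form of the incidence of two points -/
theorem clsN_of_inc (hA : SP.Adm ι a) (hP : RC.Pic π lam W Ω) (cm : ∀ v f, Cm W (Ec v f))
    (cov : ∀ γ v f, lam γ * Ec v f * lam γ⁻¹ = Ec v (SP.act (q γ) f))
    (pcov : ∀ g v f, π (ι g) * Ec v f * π (ι g)⁻¹ = Ec (g • v) f)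
    (com : ∀ c c' f g, Commute (Ec c f) (Ec c' g))
    (inc : ∀ (x y : YY k 3) (Φ : C(Fin 2 → YY k 3, ℂ) →⋆ₐ[ℂ] (K →L[ℂ] K)),
      (∀ i f, Φ (co i f) = Ec (![x, y] i) f) →
      ∀ ξ, ∀ᵐ z ∂(ms Φ ξ), (prp (z 0) (z 1) ↔ prp x y)) :
    ∃ (σ : k →+* k) (Q : C₀(PG k 4, ℂ) →⋆ₙₐ[ℂ] (K →L[ℂ] K)),
      SN.ClsN (N := 3) a π lam W (fun γ => (q γ).1) Ec σ Q := by
  haveI : Nontrivial K := ⟨Ω, 0, fun h => by
    have := hP.nΩ
    rw [h, norm_zero] at this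
    exact zero_ne_one this⟩
  have hpre := preG_sp hA cm cov pcov com
  have hL : LegG a π lam W (fun γ => (q γ).1) Ec :=
    { toPreG := hpre
      erg := fun hij s T h1 h2 h3 => erg_sp hA hP hij s T h1 h2 h3
      mt := fun b Φ hΦ ξ => mt_of_inc omB_nd hpre.com (fun x y Ψ hΨ ζ => by
        filter_upwards [inc x y Ψ hΨ ζ] with z hz
        rw [orB_omB, orB_omB]
        exact hz) b Φ hΦ ξ }
  obtain ⟨σ, Q, hQ⟩ := LegG.clG (m := 3) hL (by norm_num)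
  exact ⟨σ, Q, hQ.clsN⟩

/-- **[P-CLS]** from the operator form of the incidence of two points -/
theorem clsN_of_ops (hA : SP.Adm ι a) (hP : RC.Pic π lam W Ω) (cm : ∀ v f, Cm W (Ec v f))
    (cov : ∀ γ v f, lam γ * Ec v f * lam γ⁻¹ = Ec v (SP.act (q γ) f))
    (pcov : ∀ g v f, π (ι g) * Ec v f * π (ι g)⁻¹ = Ec (g • v) f)
    (com : ∀ c c' f g, Commute (Ec c f) (Ec c' g))
    (perp : ∀ x y, prp x y → ∀ f g : C(YY k 3, ℂ),
      (∀ u ∈ tsupport f, ∀ v ∈ tsupport g, ¬ prp u v) → Ec x f * Ec y g = 0)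
    (opp : ∀ x y, ¬ prp x y → ∀ ζ, (∀ f g : C(YY k 3, ℂ),
      (∀ u ∈ tsupport f, ∀ v ∈ tsupport g, ¬ prp u v) → Ec x f (Ec y g ζ) = 0) → ζ = 0) :
    ∃ (σ : k →+* k) (Q : C₀(PG k 4, ℂ) →⋆ₙₐ[ℂ] (K →L[ℂ] K)),
      SN.ClsN (N := 3) a π lam W (fun γ => (q γ).1) Ec σ Q := by
  have hpre := preG_sp hA cm cov pcov com
  have hS : SpLeg (omB k) a π lam W (fun γ => (q γ).1) Ec :=
    { toPreG := hpre
      perp := fun x y hxy f g hfg => perp x y ((orB_omB x y).1 hxy) f g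
        fun u hu v hv h' => hfg u hu v hv ((orB_omB u v).2 h')
      opp := fun x y hxy ζ hζ => opp x y (fun h' => hxy ((orB_omB x y).2 h')) ζ
        fun f g hfg => hζ f g fun u hu v hv h' => hfg u hu v hv ((orB_omB u v).1 h')
      erg := fun hij s T h1 h2 h3 => erg_sp hA hP hij s T h1 h2 h3 }
  refine clsN_of_inc hA hP cm cov pcov com fun x y Φ hΦ ξ => ?_
  filter_upwards [hS.inc x y Φ hΦ ξ] with z hz
  rw [← orB_omB, ← orB_omB]
  exact hz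

/-- **[P-CLS]** in the letters of `SP.LegComm` -/
theorem clsP [MeasurableSpace k] {μ : Measure k} {w : kˣ} {𝒰 : Ultrafilter ℕ}
    (h : SP.LegComm μ w 𝒰 ι a π lam W Ω m q Ec F)
    (perp : ∀ x y, prp x y → ∀ f g : C(YY k 3, ℂ),
      (∀ u ∈ tsupport f, ∀ v ∈ tsupport g, ¬ prp u v) → Ec x f * Ec y g = 0)
    (opp : ∀ x y, ¬ prp x y → ∀ ζ, (∀ f g : C(YY k 3, ℂ),
      (∀ u ∈ tsupport f, ∀ v ∈ tsupport g, ¬ prp u v) → Ec x f (Ec y g ζ) = 0) → ζ = 0) :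
    ∃ (σ : k →+* k) (Q : C₀(PG k 4, ℂ) →⋆ₙₐ[ℂ] (K →L[ℂ] K)),
      SN.ClsN (N := 3) a π lam W (fun γ => (q γ).1) Ec σ Q :=
  clsN_of_ops h.leg.base.adm h.leg.base.pic h.leg.e.cm h.leg.e.cov h.leg.e.pcov h.com.ee perp opp

end cls

end Vale.Agent.P092.H416
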